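import Vale.Agent.P299.H937.Boch
import Vale.Agent.P301.H724.Sec

/-!
# P301: the Bochner inequality for sections of `V ⊗ L^m`

`V` is a holomorphic vector bundle with a Hermitian metric `H` whose mean curvature with respect to
the Kähler metric `w` is `≤ 0` (in the sense of `-RmS ≥ 0`).
-/

open scoped Manifold ContDiff ComplexOrder Topology Matrix
open Vale.Agent.P272.K Vale.Agent.P272.K.C2 Vale.Agent.P272.K.AMP
open Vale.Agent.P299 Vale.Agent.P299.H954 Vale.Agent.P299.H937 Vale.Agent.P301.H599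
open Vale.Agent.P301.H724 (IsSec)

set_option linter.all false

noncomputable section

namespace Vale.Agent.P301.H450

variable {d : ℕ} {X : Type} [TopologicalSpace X] [ChartedSpace (Cm d) X]
  {w : Chart d X → Cm d → Matrix (Fin d) (Fin d) ℂ} {e e' : Chart d X} {x : X}
  {A : Type} [Fintype A] [DecidableEq A] {ι : Type}

/-- a Hermitian vector bundle with nonpositive mean curvature -/
structure HBun (w : Chart d X → Cm d → Matrix (Fin d) (Fin d) ℂ)
    (Λ : Chart d X → Chart d X → X → Matrix A A ℂ) (H : Chart d X → Cm d → Matrix A A ℂ) :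
    Prop where
  smooth : ∀ e x, At e x → MC ∞ (H e) (e x)
  pos : ∀ e x, At e x → (H e (e x)).PosDef
  change : ∀ e e' x, At e x → At e' x →
    (Λ e e' x)ᵀ * H e (e x) * (Λ e e' x).map (starRingEnd ℂ) = H e' (e' x)
  curv : ∀ e x, At e x → (-RmS (w e) (H e) (e x)).PosSemidef

/-- the row of the components -/
def rowS (s : ι → Chart d X → Cm d → A → ℂ) (i : ι) (e : Chart d X) (z : Cm d) :
    Matrix Unit A ℂ := Matrix.of fun _ a => s i e z a

/-- the weight of `L^m` -/
def wt (ρ : ι → X → ℝ) (m : ℕ) (i : ι) (e : Chart d X) (z : Cm d) : ℝ :=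
  Real.exp (-(m * ρ i (e.symm z)))

/-- the metric of `V ⊗ L^m` -/
def metS (H : Chart d X → Cm d → Matrix A A ℂ) (ρ : ι → X → ℝ) (m : ℕ) (i : ι) (e : Chart d X)
    (z : Cm d) : Matrix A A ℂ := ((wt ρ m i e z : ℝ) : ℂ) • H e z

/-- `|s|²` as a complex number -/
def sqS (H : Chart d X → Cm d → Matrix A A ℂ) (ρ : ι → X → ℝ) (m : ℕ)
    (s : ι → Chart d X → Cm d → A → ℂ) (i : ι) (e : Chart d X) (z : Cm d) : ℂ :=
  (rowS s i e z * metS H ρ m i e z * (rowS s i e z)ᴴ) () ()

/-- `|s|²` as a function on `X` -/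
def nrmS (L : LineBundle d X ι) (H : Chart d X → Cm d → Matrix A A ℂ) (ρ : ι → X → ℝ) (m : ℕ)
    (s : ι → Chart d X → Cm d → A → ℂ) (x : X) : ℝ :=
  (sqS H ρ m s (L.cover x).choose (chartAt (Cm d) x) (chartAt (Cm d) x x)).re

variable {L : LineBundle d X ι} {Λ : Chart d X → Chart d X → X → Matrix A A ℂ}
  {H : Chart d X → Cm d → Matrix A A ℂ} {ρ : ι → X → ℝ} {m : ℕ}
  {s : ι → Chart d X → Cm d → A → ℂ} {i j : ι}

lemma wt_pos (ρ : ι → X → ℝ) (m : ℕ) (i : ι) (e : Chart d X) (z : Cm d) : 0 < wt ρ m i e z :=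
  Real.exp_pos _

theorem metS_posDef (hH : HBun w Λ H) (hx : At e x) : (metS H ρ m i e (e x)).PosDef :=
  (hH.pos e x hx).smul (by exact_mod_cast wt_pos ρ m i e (e x))

theorem sqS_nonneg (hH : HBun w Λ H) (hx : At e x) : 0 ≤ sqS H ρ m s i e (e x) :=
  ((metS_posDef hH hx).posSemidef.mul_mul_conjTranspose_same _).diag_nonneg

theorem sqS_real (hH : HBun w Λ H) (hx : At e x) :
    sqS H ρ m s i e (e x) = ((sqS H ρ m s i e (e x)).re : ℂ) :=
  Complex.ext rfl (by simpa using (Complex.le_def.1 (sqS_nonneg hH hx)).2.symm)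

theorem sqS_eq_zero_iff (hH : HBun w Λ H) (hx : At e x) :
    (sqS H ρ m s i e (e x)).re = 0 ↔ ∀ a, s i e (e x) a = 0 := by
  constructor
  · intro h
    have h1 : sqS H ρ m s i e (e x) = 0 := by rw [sqS_real hH hx, h]; simp
    by_contra hne
    have h2 : star (rowS s i e (e x) ()) ≠ 0 := by
      intro h3
      apply hne
      intro a
      have := congrFun h3 a
      simpa [rowS] using this
    have h4 := (metS_posDef (m := m) (ρ := ρ) (i := i) hH hx).dotProduct_mulVec_pos h2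
    have h5 : star (star (rowS s i e (e x) ())) ⬝ᵥ (metS H ρ m i e (e x)).mulVec
        (star (rowS s i e (e x) ())) = sqS H ρ m s i e (e x) := by
      rw [star_star, sqS, Matrix.mul_assoc]
      rfl
    rw [h5, h1] at h4
    exact lt_irrefl _ h4
  · intro h
    have : rowS s i e (e x) = 0 := by
      ext a b; exact h b
    rw [sqS, this]
    simp

/-- change of charts -/
theorem sqS_chart (hH : HBun w Λ H) (hs : IsSec L Λ m s) (hx : At e x) (hx' : At e' x)
    (hi : x ∈ L.U i) : sqS H ρ m s i e (e x) = sqS H ρ m s i e' (e' x) := by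
  have h1 : rowS s i e (e x) = rowS s i e' (e' x) * (Λ e e' x)ᵀ := by
    ext a b
    have := congrFun (hs.chV i e e' x hx hx' hi) b
    show s i e (e x) b = _
    rw [this, Matrix.mul_apply, Matrix.mulVec, dotProduct]
    refine Finset.sum_congr rfl fun c _ => ?_
    rw [Matrix.transpose_apply, mul_comm]
    rfl
  have h2 : wt ρ m i e (e x) = wt ρ m i e' (e' x) := by
    unfold wt
    rw [e.left_inv hx.2, e'.left_inv hx'.2]
  have h3 : ((Λ e e' x)ᵀ)ᴴ = (Λ e e' x).map (starRingEnd ℂ) := by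
    ext a b; rfl
  unfold sqS metS
  rw [h1, h2, Matrix.conjTranspose_mul, h3]
  simp only [Matrix.mul_smul, Matrix.smul_mul, Matrix.smul_apply]
  congr 1
  rw [← hH.change e e' x hx hx']
  simp only [Matrix.mul_assoc]

/-- change of frames -/
theorem sqS_frame (hρ : IsMetric L ρ) (hs : IsSec L Λ m s) (hx : At e x) (hi : x ∈ L.U i)
    (hj : x ∈ L.U j) : sqS H ρ m s i e (e x) = sqS H ρ m s j e (e x) := by
  have h1 : rowS s i e (e x) = L.g i j x ^ m • rowS s j e (e x) := by
    ext a b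
    have := congrFun (hs.chL i j e x hx hi hj) b
    exact this
  have hg : L.g i j x ≠ 0 := L.ne_zero i j x hi hj
  have h2 : ((wt ρ m i e (e x) : ℝ) : ℂ) * (L.g i j x ^ m * star (L.g i j x ^ m)) =
      ((wt ρ m j e (e x) : ℝ) : ℂ) := by
    have e1 : L.g i j x ^ m * star (L.g i j x ^ m) = (((‖L.g i j x‖ ^ 2) ^ m : ℝ) : ℂ) := by
      rw [RCLike.star_def, Complex.mul_conj, Complex.normSq_eq_norm_sq, norm_pow, ← pow_mul,
        ← pow_mul, mul_comm]
    rw [e1, ← Complex.ofReal_mul]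
    congr 1
    unfold wt
    rw [e.left_inv hx.2, hρ.change i j x hi hj]
    have hp : 0 < ‖L.g i j x‖ ^ 2 := by positivity
    rw [mul_add, neg_add, Real.exp_add, mul_assoc]
    have : Real.exp (-(m * Real.log (‖L.g i j x‖ ^ 2))) * (‖L.g i j x‖ ^ 2) ^ m = 1 := by
      rw [← Real.log_pow, Real.exp_neg, Real.exp_log (by positivity)]
      exact inv_mul_cancel₀ (by positivity)
    rw [this, mul_one]
  unfold sqS metS
  rw [h1, Matrix.conjTranspose_smul]
  simp only [Matrix.mul_smul, Matrix.smul_mul, Matrix.smul_apply, smul_smul, smul_eq_mul]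
  rw [← h2]
  ring

theorem nrmS_eq (hH : HBun w Λ H) (hρ : IsMetric L ρ) (hs : IsSec L Λ m s) (hx : At e x)
    (hi : x ∈ L.U i) : nrmS L H ρ m s x = (sqS H ρ m s i e (e x)).re := by
  unfold nrmS
  have hc := (L.cover x).choose_spec
  have h0 := AMP.at_chartAt (n := d) x
  rw [sqS_chart hH hs h0 hx hc, sqS_frame hρ hs hx hc hi]

theorem nrmS_nonneg (hH : HBun w Λ H) (x : X) : 0 ≤ nrmS L H ρ m s x :=
  (Complex.le_def.1 (sqS_nonneg hH (AMP.at_chartAt (n := d) x))).1

theorem rowS_analytic (hs : IsSec L Λ m s) (hx : At e x) (hi : x ∈ L.U i) (u : Unit) (a : A) :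
    AnalyticAt ℂ (fun z => rowS s i e z u a) (e x) := hs.holo i e x hx hi a

theorem contDiff_wt {r : WithTop ℕ∞} (h : ContDiffAt ℝ r (fun z => ρ i (e.symm z)) (e x)) :
    ContDiffAt ℝ r (wt ρ m i e) (e x) :=
  ((contDiffAt_const.mul h).neg).exp

theorem MC_metS (hH : HBun w Λ H) (hρ : IsMetric L ρ) (hx : At e x) (hi : x ∈ L.U i) :
    MC ∞ (metS H ρ m i e) (e x) := fun a b =>
  (Complex.ofRealCLM.contDiff.contDiffAt.comp (e x)
    (contDiff_wt (m := m) (hρ.smooth i e x hx hi))).mul (hH.smooth e x hx a b)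

theorem contDiff_sqS (hH : HBun w Λ H) (hρ : IsMetric L ρ) (hs : IsSec L Λ m s) (hx : At e x)
    (hi : x ∈ L.U i) : ContDiffAt ℝ ∞ (sqS H ρ m s i e) (e x) := by
  have h1 : MC ∞ (rowS s i e) (e x) := MC_of_analyticAt (rowS_analytic hs hx hi)
  exact ((h1.mul (MC_metS hH hρ hx hi)).mul h1.conjTranspose) () ()

/-- near `e x` everything is defined -/
lemma eventually_at' (hx : At e x) (hi : x ∈ L.U i) :
    ∀ᶠ z in 𝓝 (e x), At e (e.symm z) ∧ e (e.symm z) = z ∧ e.symm z ∈ L.U i := by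
  have h1 : ∀ᶠ z in 𝓝 (e x), e.symm z ∈ L.U i := by
    have hc : ContinuousAt e.symm (e x) := e.continuousAt_symm (e.map_source hx.2)
    have h2 := hc.tendsto
    rw [e.left_inv hx.2] at h2
    exact h2.eventually ((L.isOpen i).mem_nhds hi)
  filter_upwards [eventually_at hx, h1] with z hz hz'
  exact ⟨hz.1, hz.2, hz'⟩

theorem smooth_nrmS (hH : HBun w Λ H) (hρ : IsMetric L ρ) (hs : IsSec L Λ m s) :
    SmoothFn (n := d) (nrmS L H ρ m s) := by
  intro e x hx
  obtain ⟨i, hi⟩ := L.cover x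
  have h1 : ContDiffAt ℝ ∞ (fun z => (sqS H ρ m s i e z).re) (e x) :=
    Complex.reCLM.contDiff.contDiffAt.comp (e x) (contDiff_sqS hH hρ hs hx hi)
  refine h1.congr_of_eventuallyEq ?_
  filter_upwards [eventually_at' hx hi] with z hz
  have := nrmS_eq hH hρ hs hz.1 hz.2.2
  rw [this, hz.2.1]

variable [IsManifold 𝓘(ℂ, Cm d) ω X]

/-- `|∇s|²` -/
def gradS (w : Chart d X → Cm d → Matrix (Fin d) (Fin d) ℂ)
    (H : Chart d X → Cm d → Matrix A A ℂ) (ρ : ι → X → ℝ) (m : ℕ)
    (s : ι → Chart d X → Cm d → A → ℂ) (i : ι) (e : Chart d X) (z : Cm d) : ℝ :=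
  (∑ l, ∑ k, (w e z)⁻¹ l k * (nab k (rowS s i e) (metS H ρ m i e) z *
      metS H ρ m i e z * (nab l (rowS s i e) (metS H ρ m i e) z)ᴴ) () ()).re

/-- the Bochner inequality for `|s|²` -/
theorem lap_nrmS (hw : IsKahler w) (hH : HBun w Λ H) (hρ : IsMetric L ρ) (hs : IsSec L Λ m s)
    (hx : At e x) (hi : x ∈ L.U i) :
    gradS w H ρ m s i e (e x) -
      m * ((w e (e x))⁻¹ * cHess (fun z => ρ i (e.symm z)) (e x)).trace.re * nrmS L H ρ m s x ≤
      lapX w (nrmS L H ρ m s) x := by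
  have hwH := hw.toIsHermitian
  have hwP := hwH.posDef e x hx
  have hus := smooth_nrmS hH hρ hs
  have hS : MC 2 (rowS s i e) (e x) := MC_of_analyticAt (rowS_analytic hs hx hi)
  have hρ2 : ContDiffAt ℝ 2 (fun z => ρ i (e.symm z)) (e x) :=
    (hρ.smooth i e x hx hi).of_le (by norm_cast)
  have hH2 : MC 2 (H e) (e x) := (hH.smooth e x hx · · |>.of_le (by norm_cast))
  have hM : MC 2 (metS H ρ m i e) (e x) := (MC_metS hH hρ hx hi · · |>.of_le (by norm_cast))
  have hMh : ∀ᶠ y in 𝓝 (e x), (metS H ρ m i e y).IsHermitian := by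
    filter_upwards [eventually_at hx] with y hy
    have := (metS_posDef (m := m) (ρ := ρ) (i := i) hH hy.1).isHermitian
    rwa [hy.2] at this
  have hue : ∀ᶠ y in 𝓝 (e x), nrmS L H ρ m s (e.symm y) = (sqS H ρ m s i e y).re := by
    filter_upwards [eventually_at' hx hi] with y hy
    have := nrmS_eq hH hρ hs hy.1 hy.2.2
    rw [hy.2.1] at this
    exact this
  have hcj : ∀ᶠ y in 𝓝 (e x), (starRingEnd ℂ) (sqS H ρ m s i e y) = sqS H ρ m s i e y := by
    filter_upwards [eventually_at hx] with y hy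
    have := sqS_real (s := s) (m := m) (ρ := ρ) (i := i) hH hy.1
    rw [hy.2] at this
    rw [this, Complex.conj_ofReal]
  rw [lapX_chart hwH hus hx hue hcj]
  have e1 : ∀ k l, dz k (dzb l (sqS H ρ m s i e)) (e x) =
      (nab k (rowS s i e) (metS H ρ m i e) (e x) * metS H ρ m i e (e x) *
        (nab l (rowS s i e) (metS H ρ m i e) (e x))ᴴ) () () -
        (rowS s i e (e x) * RM k l (metS H ρ m i e) (e x) * (rowS s i e (e x))ᴴ) () () := by
    intro k l
    have := D2_sandwich (k := k) (l := l) hS hM (holNear_of_analyticAt (rowS_analytic hs hx hi)) hMh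
      (metS_posDef hH hx).det_pos.ne'
    have h2 := congrFun (congrFun this ()) ()
    rw [Matrix.sub_apply] at h2
    exact h2
  have e2 : ∑ l, ∑ k, (w e (e x))⁻¹ l k *
      (rowS s i e (e x) * RM k l (metS H ρ m i e) (e x) * (rowS s i e (e x))ᴴ) () () =
      (rowS s i e (e x) * RmS (w e) (metS H ρ m i e) (e x) * (rowS s i e (e x))ᴴ) () () := by
    rw [RmS]
    simp only [Matrix.mul_sum, Matrix.sum_mul, Matrix.mul_smul, Matrix.smul_mul,
      Matrix.sum_apply, Matrix.smul_apply, smul_eq_mul]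
  have f0 : 0 < wt ρ m i e (e x) := wt_pos _ _ _ _ _
  have hHd : (H e (e x)).det ≠ 0 := (hH.pos e x hx).det_pos.ne'
  set T : ℂ := ((w e (e x))⁻¹ * cHess (fun z => ρ i (e.symm z)) (e x)).trace with hT
  have e3 : RmS (w e) (metS H ρ m i e) (e x) =
      ((wt ρ m i e (e x) : ℝ) : ℂ) • RmS (w e) (H e) (e x) +
        ((m : ℂ) * T) • metS H ρ m i e (e x) := by
    have h1 := RmS_smul (G := w e) (f := wt ρ m i e) (H := H e) (contDiff_wt (m := m) hρ2) f0 hH2 hHd
    have h2 : (fun y => Real.log (wt ρ m i e y)) = fun y => (-(m : ℝ)) * ρ i (e.symm y) := by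
      funext y
      rw [wt, Real.log_exp]
      ring
    rw [h2, C2.cHess_const_mul (-(m : ℝ)) hρ2] at h1
    have h3 : metS H ρ m i e = fun y => ((wt ρ m i e y : ℝ) : ℂ) • H e y := rfl
    rw [h3, h1, Matrix.mul_smul, Matrix.trace_smul, ← hT]
    simp only [smul_smul, smul_eq_mul]
    push_cast
    rw [sub_eq_add_neg, ← neg_smul]
    congr 2
    ring
  have e4 : (rowS s i e (e x) * RmS (w e) (metS H ρ m i e) (e x) * (rowS s i e (e x))ᴴ) () () =
      -(((wt ρ m i e (e x) : ℝ) : ℂ) * (rowS s i e (e x) *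
        (-RmS (w e) (H e) (e x)) * (rowS s i e (e x))ᴴ) () ()) +
      (m : ℂ) * T * sqS H ρ m s i e (e x) := by
    rw [e3, sqS]
    simp only [Matrix.mul_add, Matrix.add_mul, Matrix.mul_smul, Matrix.smul_mul, Matrix.add_apply,
      Matrix.smul_apply, smul_eq_mul, Matrix.mul_neg, Matrix.neg_mul, Matrix.neg_apply, mul_neg,
      neg_neg]
  have hpos : 0 ≤ ((wt ρ m i e (e x) : ℝ) : ℂ) * (rowS s i e (e x) *
      (-RmS (w e) (H e) (e x)) * (rowS s i e (e x))ᴴ) () () := by
    refine mul_nonneg (by exact_mod_cast f0.le) ?_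
    exact Matrix.PosSemidef.diag_nonneg
      (Matrix.PosSemidef.mul_mul_conjTranspose_same (hH.curv e x hx) _)
  have htr : T = ((T.re : ℝ) : ℂ) := by
    have h1 : (cHess (fun z => ρ i (e.symm z)) (e x)).IsHermitian := C2.cHess_isHermitian hρ2
    have h2 : star T = T := by
      rw [hT, ← Matrix.trace_conjTranspose, Matrix.conjTranspose_mul, h1.eq,
        hwP.inv.isHermitian.eq, Matrix.trace_mul_comm]
    exact (Complex.conj_eq_iff_re.1 h2).symm
  simp only [e1, mul_sub, Finset.sum_sub_distrib, e2]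
  have hsq := sqS_real (s := s) (m := m) (ρ := ρ) (i := i) hH hx
  rw [e4, nrmS_eq hH hρ hs hx hi, Complex.sub_re, Complex.add_re, Complex.neg_re]
  have h5 := (Complex.le_def.1 hpos).1
  rw [Complex.zero_re] at h5
  have h6 : ((m : ℂ) * T * sqS H ρ m s i e (e x)).re =
      m * T.re * (sqS H ρ m s i e (e x)).re := by
    rw [hsq, htr]
    rw [show (m : ℂ) * (((T.re : ℝ)) : ℂ) * (((sqS H ρ m s i e (e x)).re : ℝ) : ℂ) =
      ((m * T.re * (sqS H ρ m s i e (e x)).re : ℝ) : ℂ) by push_cast; ring]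
    rfl
  rw [h6, gradS]
  linarith

/-- **Bochner inequality** for `log (|s|² + δ)` -/
theorem boch_log (hw : IsKahler w) (hH : HBun w Λ H) (hρ : IsMetric L ρ) (hs : IsSec L Λ m s)
    {δ : ℝ} (hδ : 0 < δ) (hx : At e x) (hi : x ∈ L.U i) :
    -(nrmS L H ρ m s x / (nrmS L H ρ m s x + δ)) *
      (m * ((w e (e x))⁻¹ * cHess (fun z => ρ i (e.symm z)) (e x)).trace.re) ≤
      lapX w (fun y => Real.log (nrmS L H ρ m s y + δ)) x := by
  have hwH := hw.toIsHermitian
  have hwP := hwH.posDef e x hx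
  have hus := smooth_nrmS hH hρ hs
  have one := one_ne_zero_inf
  set u : X → ℝ := nrmS L H ρ m s with hu
  have hu0 : 0 ≤ u x := nrmS_nonneg hH x
  have hS : MC 1 (rowS s i e) (e x) := MC_of_analyticAt (rowS_analytic hs hx hi)
  have hM : MC 1 (metS H ρ m i e) (e x) := (MC_metS hH hρ hx hi · · |>.of_le (by norm_cast))
  have hMh : ∀ᶠ y in 𝓝 (e x), (metS H ρ m i e y).IsHermitian := by
    filter_upwards [eventually_at hx] with y hy
    have := (metS_posDef (m := m) (ρ := ρ) (i := i) hH hy.1).isHermitian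
    rwa [hy.2] at this
  set f : Cm d → ℝ := fun y => u (e.symm y) + δ with hf
  have hfx : f (e x) = u x + δ := by simp only [hf]; rw [e.left_inv hx.2]
  have hf0 : 0 < f (e x) := by rw [hfx]; linarith
  have hu2 : ContDiffAt ℝ 2 (fun y => u (e.symm y)) (e x) := (hus e x hx).of_le (by norm_cast)
  have hf2 : ContDiffAt ℝ 2 f (e x) := hu2.add contDiffAt_const
  have hfc : (fun y => ((f y : ℝ) : ℂ)) =ᶠ[𝓝 (e x)] fun y => sqS H ρ m s i e y + (δ : ℂ) := by
    filter_upwards [eventually_at' hx hi] with y hy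
    have h1 := nrmS_eq hH hρ hs hy.1 hy.2.2
    have h2 := sqS_real (s := s) (m := m) (ρ := ρ) (i := i) hH hy.1
    rw [hy.2.1] at h1 h2
    show (((u (e.symm y) + δ : ℝ)) : ℂ) = _
    rw [Complex.ofReal_add, hu, h1, ← h2]
  have hsq : DifferentiableAt ℝ (sqS H ρ m s i e) (e x) :=
    (contDiff_sqS hH hρ hs hx hi).differentiableAt (by simp)
  have hdz : ∀ k, dz k (fun y => ((f y : ℝ) : ℂ)) (e x) =
      (nab k (rowS s i e) (metS H ρ m i e) (e x) * metS H ρ m i e (e x) *
        (rowS s i e (e x))ᴴ) () () := by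
    intro k
    rw [dz_congr k hfc, C2.dz_add k hsq (differentiableAt_const _)]
    have h1 := DM_sandwich' (k := k) hS hM ((holNear_of_analyticAt (rowS_analytic hs hx hi)).self k)
      (metS_posDef hH hx).det_pos.ne'
    have h2 := congrFun (congrFun h1 ()) ()
    rw [← h2]
    have h3 : dz k (fun _ : Cm d => (δ : ℂ)) (e x) = 0 := by simp [dz]
    rw [h3, add_zero]
    rfl
  have hdzb : ∀ l, dzb l (fun y => ((f y : ℝ) : ℂ)) (e x) =
      (rowS s i e (e x) * metS H ρ m i e (e x) *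
        (nab l (rowS s i e) (metS H ρ m i e) (e x))ᴴ) () () := by
    intro l
    rw [dzb_congr l hfc, C2.dzb_add l hsq (differentiableAt_const _)]
    have h1 := DMb_sandwich' (l := l) hS hM
      ((holNear_of_analyticAt (rowS_analytic hs hx hi)).self l) hMh (metS_posDef hH hx).det_pos.ne'
    have h2 := congrFun (congrFun h1 ()) ()
    rw [← h2]
    have h3 : dzb l (fun _ : Cm d => (δ : ℂ)) (e x) = 0 := by simp [dzb]
    rw [h3, add_zero]
    rfl
  have hcf : cHess f (e x) = cHess (fun y => u (e.symm y)) (e x) := by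
    rw [hf, C2.cHess_add hu2 contDiffAt_const, C2.cHess_const, add_zero]
  set T : ℝ := gradS w H ρ m s i e (e x) with hT
  set θ : ℝ := ((w e (e x))⁻¹ * cHess (fun z => ρ i (e.symm z)) (e x)).trace.re with hθ
  have hcs := cs_step (hwP.inv.posSemidef) (metS_posDef (m := m) (ρ := ρ) (i := i) hH hx).posSemidef
    (fun k => nab k (rowS s i e) (metS H ρ m i e) (e x)) (rowS s i e (e x)) (u := u x) (d := δ) hδ
    (by
      have h1 := sqS_real (s := s) (m := m) (ρ := ρ) (i := i) hH hx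
      rw [← nrmS_eq hH hρ hs hx hi] at h1
      exact h1)
  have hlap := lap_nrmS hw hH hρ hs hx hi
  have hsl : SmoothFn (n := d) (fun y => Real.log (u y + δ)) :=
    smooth_log (sm_add hus (smoothFn_const δ)) fun x => by
      have := nrmS_nonneg (L := L) (s := s) (m := m) (ρ := ρ) hH x
      linarith
  have hq : lapX w (fun y => Real.log (u y + δ)) x = (f (e x))⁻¹ * lapX w u x -
      (f (e x) ^ 2)⁻¹ * (∑ l, ∑ k, (w e (e x))⁻¹ l k *
        ((nab k (rowS s i e) (metS H ρ m i e) (e x) * metS H ρ m i e (e x) *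
          (rowS s i e (e x))ᴴ) () () *
        (rowS s i e (e x) * metS H ρ m i e (e x) *
          (nab l (rowS s i e) (metS H ρ m i e) (e x))ᴴ) () ())).re := by
    rw [lapX_eq hwH hsl hx, lapX_eq hwH hus hx]
    unfold lapE hess
    rw [trace_mul_cHess, trace_mul_cHess, ← Complex.re_ofReal_mul, ← Complex.re_ofReal_mul,
      ← Complex.sub_re]
    congr 1
    simp only [Finset.mul_sum, ← Finset.sum_sub_distrib]
    refine Finset.sum_congr rfl fun l _ => Finset.sum_congr rfl fun k _ => ?_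
    have h1 := C2.cHess_log hf2 hf0 k l
    rw [hcf, hdz, hdzb] at h1
    show (w e (e x))⁻¹ l k * cHess (fun y => Real.log (f y)) (e x) k l = _
    rw [h1]
    push_cast
    ring
  rw [hq]
  rw [hfx]
  set g : ℝ := (∑ l, ∑ k, (w e (e x))⁻¹ l k *
        ((nab k (rowS s i e) (metS H ρ m i e) (e x) * metS H ρ m i e (e x) *
          (rowS s i e (e x))ᴴ) () () *
        (rowS s i e (e x) * metS H ρ m i e (e x) *
          (nab l (rowS s i e) (metS H ρ m i e) (e x))ᴴ) () ())).re with hg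
  have hud : 0 < u x + δ := by linarith
  have h1 : ((u x + δ) ^ 2)⁻¹ * g ≤ (u x + δ)⁻¹ * T := by
    have h2 : ((u x + δ) ^ 2)⁻¹ * g ≤ ((u x + δ) ^ 2)⁻¹ * ((u x + δ) * T) :=
      mul_le_mul_of_nonneg_left hcs (by positivity)
    have h3 : ((u x + δ) ^ 2)⁻¹ * ((u x + δ) * T) = (u x + δ)⁻¹ * T := by
      field_simp
    rwa [h3] at h2
  have h4 : (u x + δ)⁻¹ * (T - m * θ * u x) ≤ (u x + δ)⁻¹ * lapX w u x :=
    mul_le_mul_of_nonneg_left hlap (inv_pos.2 hud).le
  have h5 : -(u x / (u x + δ)) * (m * θ) = -((u x + δ)⁻¹ * (m * θ * u x)) := by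
    rw [div_eq_inv_mul]; ring
  rw [h5]
  rw [mul_sub] at h4
  linarith

end Vale.Agent.P301.H450
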