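import Vale.Agent.P301.H450.ParKap

/-!
# P301: roots of line bundles
-/

open scoped Manifold ContDiff ComplexOrder Topology Matrix
open MeasureTheory Set Filter
open Vale.Agent.P272.K Vale.Agent.P299 Vale.Agent.P301.H599
open Vale.Agent.P272.K.INT (IsClosedForm intX)
open Vale.Agent.P301.H949 (IsoPow tw isMetric_tw isoPow_of_curvature ddc_of_contDiff)

set_option linter.all false

noncomputable section

namespace Vale.Agent.P301.H450

variable {d : ℕ} {X : Type} [TopologicalSpace X] [ChartedSpace (Cm d) X]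
  {a b c : Chart d X → Cm d → Matrix (Fin d) (Fin d) ℂ} {ι κ : Type} {L : LineBundle d X ι}
  {P : LineBundle d X κ} {ρ : ι → X → ℝ} {ρ' : κ → X → ℝ}

theorem sc_refl (a : Chart d X → Cm d → Matrix (Fin d) (Fin d) ℂ) : SameClass a a :=
  ⟨fun _ => 0, Smooth.const 0, fun e x hx => by rw [ddc_const 0 e x hx, add_zero]⟩

theorem sc_symm (h : SameClass a b) : SameClass b a := by
  obtain ⟨u, hu, hue⟩ := h
  refine ⟨fun x => (-1) * u x, hu.const_mul (-1), fun e x hx => ?_⟩
  rw [ddc_const_mul (-1) hu e x hx, hue e x hx]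
  simp

theorem sc_trans (h : SameClass a b) (h' : SameClass b c) : SameClass a c := by
  obtain ⟨u, hu, hue⟩ := h
  obtain ⟨v, hv, hve⟩ := h'
  refine ⟨fun x => v x + u x, hv.add hu, fun e x hx => ?_⟩
  rw [ddc_add hv hu e x hx, hue e x hx, hve e x hx]
  simp only [add_assoc]

theorem sc_smul (r : ℝ) (h : SameClass a b) :
    SameClass (fun e z => (r : ℂ) • a e z) (fun e z => (r : ℂ) • b e z) := by
  obtain ⟨u, hu, hue⟩ := h
  refine ⟨fun x => r * u x, hu.const_mul r, fun e x hx => ?_⟩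
  simp only
  rw [ddc_const_mul r hu e x hx, hue e x hx, smul_add]

theorem sc_congr {a' b' : Chart d X → Cm d → Matrix (Fin d) (Fin d) ℂ} (h : SameClass a b)
    (ha : ∀ e x, At e x → a' e (e x) = a e (e x)) (hb : ∀ e x, At e x → b' e (e x) = b e (e x)) :
    SameClass a' b' := by
  obtain ⟨u, hu, hue⟩ := h
  exact ⟨u, hu, fun e x hx => by rw [ha e x hx, hb e x hx, hue e x hx]⟩

variable [IsManifold 𝓘(ℂ, Cm d) ω X]

theorem sc_pull [T2Space X] [CompactSpace X] (F : Auto d X) (h : SameClass a b) :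
    SameClass (pull F a) (pull F b) := by
  obtain ⟨u, hu, hue⟩ := h
  have hF := F.contMDiff
  refine ⟨fun x => u (F x), Smooth.comp hF hu, fun e x hx => ?_⟩
  have h1 : FEq a (fun e z => b e z + ddc u e z) := hue
  rw [pull_congr F h1 e x hx, pull_add F b (ddc u)]
  simp only
  rw [← ddc_comp hF hu e x hx]

theorem curvature_tw (hL : IsMetric L ρ) (hP : IsMetric P ρ') (q : ℕ) (a : ℤ) {e : Chart d X}
    {x : X} (hx : At e x) : curvature (tw P q L a) (fun k x => q * ρ' k.1 x - a * ρ k.2 x - 0) e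
      (e x) = (q : ℂ) • curvature P ρ' e (e x) - (a : ℂ) • curvature L ρ e (e x) := by
  have hm := isMetric_tw hL hP q a (v := fun _ => 0) (Smooth.const (d := d) (X := X) 0)
  obtain ⟨k, hk⟩ := (tw P q L a).cover x
  rw [curvature_eq hm hx hk, curvature_eq hP hx hk.1, curvature_eq hL hx hk.2]
  have e1 : (fun y => (q : ℝ) * ρ' k.1 (e.symm y) - (a : ℝ) * ρ k.2 (e.symm y) - 0) =
      fun y => (q : ℝ) * ρ' k.1 (e.symm y) - (a : ℝ) * ρ k.2 (e.symm y) := by
    funext y; ring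
  show cHess (fun y => (q : ℝ) * ρ' k.1 (e.symm y) - (a : ℝ) * ρ k.2 (e.symm y) - 0) (e x) = _
  rw [e1, ddc_of_contDiff (hP.smooth k.1 e x hx hk.1) (hL.smooth k.2 e x hx hk.2)]
  push_cast
  rfl

/-- `L` is an `r`-th power, on the level of classes -/
def HasRoot (L : LineBundle d X ι) (ρ : ι → X → ℝ) (r : ℕ) : Prop :=
  ∃ (κ : Type) (Q : LineBundle d X κ) (ρQ : κ → X → ℝ), IsMetric Q ρQ ∧
    SameClass (fun e z => (r : ℂ) • curvature Q ρQ e z) (curvature L ρ)

/-- Bezout -/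
theorem exists_bezout {q : ℕ} {a : ℤ} (hq : 0 < q) (h : IsCoprime (q : ℤ) a) :
    ∃ (y : ℕ) (x : ℤ), x * q + y * a = 1 := by
  obtain ⟨u, v, huv⟩ := h
  have hq' : (0 : ℤ) < q := by exact_mod_cast hq
  refine ⟨(v % q).toNat, u + (v / q) * a, ?_⟩
  rw [Int.toNat_of_nonneg (Int.emod_nonneg v hq'.ne')]
  have h1 := Int.emod_add_mul_ediv v q
  have h2 : v % q = v - q * (v / q) := by omega
  rw [h2]
  linear_combination huv

/-- If `P^q` and `L^a` have the same class, `gcd(q, a) = 1`, then `L` has a `q`-th root. -/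
theorem root_of_class (hL : IsMetric L ρ) (hP : IsMetric P ρ') {q : ℕ} {a : ℤ} (hq : 0 < q)
    (hc : IsCoprime (q : ℤ) a) (h : SameClass (fun e z => (q : ℂ) • curvature P ρ' e z)
      (fun e z => (a : ℂ) • curvature L ρ e z)) : HasRoot L ρ q := by
  obtain ⟨y, x, hxy⟩ := exists_bezout hq hc
  refine ⟨_, tw P y L (-x), _, isMetric_tw hL hP y (-x) (v := fun _ => 0)
    (Smooth.const (d := d) (X := X) 0), ?_⟩
  obtain ⟨u, hu, hue⟩ := h
  refine ⟨fun z => y * u z, hu.const_mul _, fun e z hz => ?_⟩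
  simp only
  rw [curvature_tw hL hP y (-x) hz, ddc_const_mul (y : ℝ) hu e z hz]
  have h1 := hue e z hz
  simp only at h1
  have h2 : (q : ℂ) • ((y : ℂ) • curvature P ρ' e (e z) - ((-x : ℤ) : ℂ) • curvature L ρ e (e z)) =
      (y : ℂ) • ((q : ℂ) • curvature P ρ' e (e z)) + ((x : ℂ) * q) • curvature L ρ e (e z) := by
    rw [smul_sub, smul_smul, smul_smul, smul_smul]
    push_cast
    rw [mul_comm (q : ℂ) (y : ℂ), mul_neg, neg_smul, sub_neg_eq_add, mul_comm (q : ℂ) (x : ℂ)]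
  rw [h2, h1, smul_add, smul_smul]
  have h3 : ((y : ℂ) * a) • curvature L ρ e (e z) + (y : ℂ) • ddc u e (e z) +
      ((x : ℂ) * q) • curvature L ρ e (e z) =
      ((x : ℂ) * q + y * a) • curvature L ρ e (e z) + (y : ℂ) • ddc u e (e z) := by
    rw [add_smul]; abel
  have h4 : (x : ℂ) * q + y * a = 1 := by exact_mod_cast hxy
  rw [h3, h4, one_smul]
  simp

theorem HasRoot.trans {q r : ℕ} {Q : LineBundle d X κ} {ρQ : κ → X → ℝ}
    (h : SameClass (fun e z => (r : ℂ) • curvature Q ρQ e z) (curvature L ρ))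
    (h' : HasRoot Q ρQ q) : HasRoot L ρ (r * q) := by
  obtain ⟨κ', Q', ρ'', hQ', hc⟩ := h'
  refine ⟨κ', Q', ρ'', hQ', ?_⟩
  have h1 := sc_smul (r : ℝ) hc
  have h2 := sc_trans (sc_congr h1 (a' := fun e z => ((r * q : ℕ) : ℂ) • curvature Q' ρ'' e z)
    (b' := fun e z => (r : ℂ) • curvature Q ρQ e z) (fun e x hx => by
      rw [smul_smul]
      push_cast
      rfl) (fun e x hx => by push_cast; rfl)) h
  exact h2

/-- the ratio in lowest terms -/
theorem exists_coprime_ratio [CompactSpace X] [T2Space X] [SimplyConnectedSpace X]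
    (hL : IsMetric L ρ) (hP : IsMetric P ρ') {t : ℝ}
    (h : SameClass (curvature P ρ') (fun e z => (t : ℂ) • curvature L ρ e z))
    (hb : IsClosedForm b) (hh : ∀ e x, At e x → (b e (e x)).IsHermitian) {s : ℝ}
    (hs : intX (fun e z => (b e z + (s : ℂ) • curvature L ρ e z).det.re) ≠
      intX (fun e z => (b e z).det.re)) :
    ∃ (q : ℕ) (m : ℤ), 0 < q ∧ IsCoprime (q : ℤ) m ∧ (m : ℝ) = q * t ∧
      SameClass (fun e z => (q : ℂ) • curvature P ρ' e z)
        (fun e z => (m : ℂ) • curvature L ρ e z) := by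
  obtain ⟨q₀, m₀, hq₀, hm₀, -⟩ := H949.ratio_of_intX hL hP h hb hh hs
  set r : ℚ := (m₀ : ℚ) / q₀ with hr
  have hrt : (r : ℝ) = t := by
    rw [hr]
    push_cast
    rw [hm₀]
    field_simp
  have h1 : ((r.num : ℤ) : ℝ) = (r.den : ℝ) * t := by
    rw [← hrt]
    have h2 : ((r * r.den : ℚ) : ℝ) = ((r.num : ℚ) : ℝ) := by rw [Rat.mul_den_eq_num r]
    push_cast at h2
    rw [← h2]; ring
  refine ⟨r.den, r.num, r.pos, ?_, h1, ?_⟩
  · have := r.reduced
    rw [Int.isCoprime_iff_gcd_eq_one]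
    rw [Int.gcd_comm]
    exact this
  · refine sc_congr (sc_smul (r.den : ℝ) h) (fun e x hx => by push_cast; rfl) fun e x hx => ?_
    rw [smul_smul]
    congr 1
    have : ((r.num : ℤ) : ℂ) = ((r.den : ℝ) : ℂ) * ((t : ℝ) : ℂ) := by exact_mod_cast h1
    exact this

end Vale.Agent.P301.H450
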