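import Vale.Agent.P301.H450.IsoIdx
import Vale.Agent.P301.H450.EffRoot

/-!
# P301: the index of `L^m` is the index of the trivial bundle

`F` is an automorphism with `F^* c₁(L) = c₁(L)` and `F^* c₁(V) = c₁(V) + a c₁(L)`, `a ≠ 0`.
-/

open scoped Manifold ContDiff ComplexOrder Topology Matrix
open Vale.Agent.P272.K Vale.Agent.P272.K.C2 Vale.Agent.P301.H599 Vale.Agent.P301.H862
open Vale.Agent.P301.H949 (IsoPow Hol isoPow_of_curvature)

set_option linter.all false

noncomputable section

namespace Vale.Agent.P301.H450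

variable {d : ℕ} {X : Type} [TopologicalSpace X] {ι κ : Type} [ChartedSpace (Cm d) X]
  {V : LineBundle d X κ} {L : LineBundle d X ι} {ρV : κ → X → ℝ} {ρ : ι → X → ℝ}
  {e : Chart d X} {x : X}

/-- `B` with another Kähler form -/
def withW (B : HB d X ι) (w : Chart d X → Cm d → Matrix (Fin d) (Fin d) ℂ) (hw : IsKahler w) :
    HB d X ι := ⟨B.L, B.ρ, w, B.metric, hw⟩

variable [IsManifold 𝓘(ℂ, Cm d) ω X]

theorem sc_add {a b a' b' : Chart d X → Cm d → Matrix (Fin d) (Fin d) ℂ} (h : SameClass a b)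
    (h' : SameClass a' b') :
    SameClass (fun e z => a e z + a' e z) (fun e z => b e z + b' e z) := by
  obtain ⟨u, hu, hue⟩ := h
  obtain ⟨v, hv, hve⟩ := h'
  refine ⟨fun x => u x + v x, hu.add hv, fun e x hx => ?_⟩
  show a e (e x) + a' e (e x) = b e (e x) + b' e (e x) + ddc (fun x => u x + v x) e (e x)
  rw [ddc_add hu hv e x hx]
  simp only
  rw [hue e x hx, hve e x hx]
  abel

theorem curvature_prodPow (hV : IsMetric V ρV) (hL : IsMetric L ρ) (i m : ℕ) (hx : At e x) :
    curvature (prodPow V L i m) (fun p x => i * ρV p.1 x + m * ρ p.2 x) e (e x) =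
      (i : ℂ) • curvature V ρV e (e x) + (m : ℂ) • curvature L ρ e (e x) := by
  obtain ⟨p, hp⟩ := (prodPow V L i m).cover x
  rw [curvature_eq (prodPow_metric hV hL i m) hx hp, curvature_eq hV hx hp.1,
    curvature_eq hL hx hp.2]
  have s1 : ContDiffAt ℝ 2 (fun z => ρV p.1 (e.symm z)) (e x) :=
    (hV.smooth p.1 e x hx hp.1).of_le (by norm_cast)
  have s2 : ContDiffAt ℝ 2 (fun z => ρ p.2 (e.symm z)) (e x) :=
    (hL.smooth p.2 e x hx hp.2).of_le (by norm_cast)
  show cHess (fun z => (i : ℝ) * ρV p.1 (e.symm z) + (m : ℝ) * ρ p.2 (e.symm z)) (e x) = _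
  rw [C2.cHess_add (contDiffAt_const.mul s1) (contDiffAt_const.mul s2),
    C2.cHess_const_mul (i : ℝ) s1, C2.cHess_const_mul (m : ℝ) s2]
  push_cast
  rfl

variable [T2Space X] [CompactSpace X]

/-- the class of `F^* (V^i ⊗ L^m)` -/
theorem sc_pull_prod (F : Auto d X) (hV : IsMetric V ρV) (hL : IsMetric L ρ) {a : ℤ}
    (hFL : SameClass (pull F (curvature L ρ)) (curvature L ρ))
    (hFV : SameClass (pull F (curvature V ρV))
      (fun e z => curvature V ρV e z + (a : ℂ) • curvature L ρ e z)) (i m m' : ℕ)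
    (hm : (m' : ℤ) = m + a * i) :
    SameClass (curvature (pullL F.contMDiff (prodPow V L i m))
        (fun p x => i * ρV p.1 (F x) + m * ρ p.2 (F x)))
      (curvature (prodPow V L i m') (fun p x => i * ρV p.1 x + m' * ρ p.2 x)) := by
  have h1 := sc_add (sc_smul (i : ℝ) hFV) (sc_smul (m : ℝ) hFL)
  refine sc_congr h1 (fun e x hx => ?_) fun e x hx => ?_
  · have h2 := curvature_pullL F.contMDiff (prodPow_metric hV hL i m) e x hx
    refine h2.trans ?_
    have h3 : FEq (curvature (prodPow V L i m) (fun p x => i * ρV p.1 x + m * ρ p.2 x))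
        (fun e z => ((i : ℝ) : ℂ) • curvature V ρV e z + ((m : ℝ) : ℂ) • curvature L ρ e z) := by
      intro e x hx
      rw [curvature_prodPow hV hL i m hx]
      push_cast
      rfl
    rw [pull_congr F h3 e x hx, pull_add, pull_smul, pull_smul]
  · have h4 : (m' : ℂ) = m + a * i := by exact_mod_cast congrArg (Int.cast : ℤ → ℂ) hm
    rw [curvature_prodPow hV hL i m' hx, h4]
    simp only [smul_add, smul_smul, add_smul]
    push_cast
    rw [mul_comm (a : ℂ) (i : ℂ)]
    abel

variable [ConnectedSpace X] [SimplyConnectedSpace X]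

/-- **One step of the periodicity.** -/
theorem ind2_step (F : Auto d X)
    (hC : ∀ (ν : Type) (B : HB d X ν), (pullB F B).ell.P = B.ell.P)
    (hW : ∀ (ν : Type) (B : HB d X ν) (w : Chart d X → Cm d → Matrix (Fin d) (Fin d) ℂ)
      (hw : IsKahler w), (withW B w hw).ell.P = B.ell.P)
    (V : HB d X κ) (B : HB d X ι) {a : ℤ}
    (hFL : SameClass (pull F (curvature B.L B.ρ)) (curvature B.L B.ρ))
    (hFV : SameClass (pull F (curvature V.L V.ρ))
      (fun e z => curvature V.L V.ρ e z + (a : ℂ) • curvature B.L B.ρ e z)) (i m m' : ℕ)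
    (hm : (m' : ℤ) = m + a * i) : ind2 V B i m = ind2 V B i m' := by
  have h1 := sc_pull_prod F V.metric B.metric hFL hFV i m m' hm
  have h2 : IsoPow (pullL F.contMDiff (prodPow V.L B.L i m)) 1 (prodPow V.L B.L i m') 1 := by
    refine isoPow_of_curvature (prodPow_metric V.metric B.metric i m')
      (pullL_metric F.contMDiff (prodPow_metric V.metric B.metric i m)) ?_
    refine sc_congr h1 (fun e x hx => ?_) fun e x hx => ?_
    · simp
    · simp
  have h3 := index_isoPow (B' := withW (pullB F (T2 V B i m)) B.w B.kahler)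
    (B := T2 V B i m') h2 rfl
  rw [hW, hC] at h3
  exact h3

/-- **The index of `L^m` does not depend on `m`.** -/
theorem index_const (F : Auto d X)
    (hC : ∀ (ν : Type) (B : HB d X ν), (pullB F B).ell.P = B.ell.P)
    (hW : ∀ (ν : Type) (B : HB d X ν) (w : Chart d X → Cm d → Matrix (Fin d) (Fin d) ℂ)
      (hw : IsKahler w), (withW B w hw).ell.P = B.ell.P)
    (B : HB d X ι) (hV : IsMetric V ρV) {a : ℤ} (ha : a ≠ 0)
    (hFL : SameClass (pull F (curvature B.L B.ρ)) (curvature B.L B.ρ))
    (hFV : SameClass (pull F (curvature V ρV))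
      (fun e z => curvature V ρV e z + (a : ℂ) • curvature B.L B.ρ e z)) (m : ℕ) :
    (B.pow m).ell.P = HB.chi0 d X := by
  set V' : HB d X κ := ⟨V, ρV, B.w, hV, B.kahler⟩ with hV'
  refine index_pow_eq V' B (fun i => a.natAbs * i) (fun i hi => ?_) (fun i hi m => ?_) m
  · exact Nat.mul_pos (Int.natAbs_pos.2 ha) hi
  · rcases lt_or_gt_of_ne ha with h | h
    · refine ind2_step F hC hW V' B hFL hFV i _ _ ?_
      push_cast
      rw [abs_of_neg h]
      ring
    · refine (ind2_step F hC hW V' B hFL hFV i _ _ ?_).symm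
      push_cast
      rw [abs_of_pos h]

end Vale.Agent.P301.H450
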