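import Vale.Agent.P301.H450.HI

/-!
# P301: Fujiki's relation for Kähler classes and the lower volume bound for nef classes
-/

open scoped Manifold ContDiff ComplexOrder Topology Matrix
open Vale.Agent.P272.K Vale.Agent.P272.K.C2
open Vale.Agent.P299 Vale.Agent.P299.H954 Vale.Agent.P301.H599
open Vale.Agent.P272.K.INT (IsClosedForm IsDensity intX)

set_option linter.all false

noncomputable section

namespace Vale.Agent.P301.H450

variable {d : ℕ} {X : Type} [TopologicalSpace X] [ChartedSpace (Cm d) X]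
  {w w0 χ s a b θ : Chart d X → Cm d → Matrix (Fin d) (Fin d) ℂ} {e : Chart d X} {x : X}
  [IsManifold 𝓘(ℂ, Cm d) ω X] [T2Space X] [CompactSpace X] {κ : ℝ}

theorem q_addH (S : SData s w κ) (ha : IsClosedForm a) {u : X → ℝ} (hu : SmoothFn (n := d) u) :
    q s (fun e z => a e z + ddc u e z) (fun e z => a e z + ddc u e z) = q s a a := by
  have cu := isClosed_ddc hu
  have ca := ha.add cu
  rw [q_add_left S ha cu ca, q_add_right S ha ha cu, q_hess_left S ca hu, q_hess_right S ha hu]
  ring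

variable [ConnectedSpace X]

/-- **Fujiki's relation** for Kähler metrics -/
theorem fujiki (h : IsSymplectic d X w0 s) (hχ : IsKahler χ) :
    intX (fun e z => (χ e z).det.re) = Real.sqrt ((q s χ χ / (d * vol s)) ^ d) * vol s := by
  haveI : Nonempty X := inferInstance
  obtain ⟨u, κ, hu, hk⟩ := exists_rf h hχ
  have S := SData.of h hk
  have cχ := INT.IsKahler.isClosedForm hχ
  have V := vol_pos S
  have h1 : q s χ χ = κ * (d * vol s) := by
    rw [← q_self S]
    exact (q_addH S cχ hu).symm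
  have h2 : intX (fun e z => (χ e z).det.re) = Real.sqrt (κ ^ d) * vol s := by
    rw [← INT.intX_det_add_cHess cχ hu, vol, ← INT.intX_const_mul]
    refine INT.intX_congr fun e x hx => ?_
    have h3 := det_rel (hk.kahler.posDef e x hx) (isUnit_iff_ne_zero.2 (h.nondeg e x hx))
      (hk.rel e x hx)
    have h4 : 0 < (addH χ u e (e x)).det.re := hk.kahler.toIsHermitian.det_re_pos hx
    have h5 : 0 < κ ^ d := pow_pos hk.pos d
    have h6 : (addH χ u e (e x)).det.re = Real.sqrt (κ ^ d) * ‖(s e (e x)).det‖ := by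
      rw [← Real.sqrt_sq h4.le, h3, Real.sqrt_mul h5.le, Real.sqrt_sq (norm_nonneg _)]
    exact h6
  rw [h2]
  congr 2
  by_cases hd : d = 0
  · subst hd; simp
  · have hdR : (0 : ℝ) < d := by exact_mod_cast Nat.pos_of_ne_zero hd
    rw [h1, mul_div_assoc, div_self (by positivity), mul_one]

/-- **Lower volume bound**: if `θ` is nef and not zero in cohomology, the volume of a Kähler metric
in the class of `θ + ε w0` is at least `c ε^{d/2}`. -/
theorem vol_lower (hd : 0 < d) (h : IsSymplectic d X w0 s) (hθ : IsReal11 θ) (hn : IsNef w0 θ)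
    (hne : ¬ IsExact θ) : ∃ c : ℝ, 0 < c ∧ ∀ ε : ℝ, 0 < ε → ∀ u : X → ℝ, SmoothFn (n := d) u →
      (∀ e x, At e x → (θ e (e x) + (ε : ℂ) • w0 e (e x) + ddc u e (e x)).PosDef) →
      c * Real.sqrt (ε ^ d) ≤
        intX fun e z => (θ e z + (ε : ℂ) • w0 e z + ddc u e z).det.re := by
  haveI : Nonempty X := inferInstance
  have hw0 := h.kahler
  obtain ⟨u0, κ0, hu0, hk0⟩ := exists_rf h hw0
  have S := SData.of h hk0
  have V := vol_pos S
  have hdR : (0 : ℝ) < d := by exact_mod_cast hd
  have c0 := INT.IsKahler.isClosedForm hw0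
  have cθ := hθ.toIsClosedForm
  -- `q(θ, w0) > 0`
  have hq : 0 < q s θ w0 := by
    have h1 := q_nef_pos hd h hk0 hw0 hθ hn hne
    have h2 : q s θ (addH w0 u0) = q s θ w0 := by
      show q s θ (fun e z => w0 e z + ddc u0 e z) = _
      rw [q_add_right S cθ c0 (isClosed_ddc hu0), q_hess_right S cθ hu0, add_zero]
    rwa [h2] at h1
  have hq0 := q_nef_self h hk0 hw0 hθ hn
  have hww : 0 ≤ q s w0 w0 := q_nonneg S (fun e x hx => (hw0.posDef e x hx).posSemidef)
    (fun e x hx => (hw0.posDef e x hx).posSemidef)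
  refine ⟨Real.sqrt ((2 * q s θ w0 / (d * vol s)) ^ d) * vol s, by positivity,
    fun ε hε u hu hp => ?_⟩
  have c1 : IsClosedForm fun e z => θ e z + (ε : ℂ) • w0 e z := cθ.add (c0.smul _)
  have r1 : IsReal11 fun e z => (θ e z + (ε : ℂ) • w0 e z) + ddc u e z :=
    (hθ.add ((isReal11_kahler hw0).smul ε)).add (isReal11_ddc hu)
  have hk : IsKahler fun e z => (θ e z + (ε : ℂ) • w0 e z) + ddc u e z := isKahler_of r1 hp
  have hF := fujiki h hk
  have hqq : q s (fun e z => (θ e z + (ε : ℂ) • w0 e z) + ddc u e z)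
      (fun e z => (θ e z + (ε : ℂ) • w0 e z) + ddc u e z) =
      q s θ θ + 2 * ε * q s θ w0 + ε ^ 2 * q s w0 w0 := by
    rw [q_addH S c1 hu, q_add_left S cθ (c0.smul _) c1, q_add_right S cθ cθ (c0.smul _),
      q_add_right S (c0.smul _) cθ (c0.smul _), q_smul_left, q_smul_left, q_smul_right S,
      q_smul_right S, q_symm S w0 θ]
    ring
  rw [hF, hqq]
  have h3 : Real.sqrt ((2 * q s θ w0 / (d * vol s)) ^ d) * Real.sqrt (ε ^ d) ≤
      Real.sqrt (((q s θ θ + 2 * ε * q s θ w0 + ε ^ 2 * q s w0 w0) / (d * vol s)) ^ d) := by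
    rw [← Real.sqrt_mul (by positivity), ← mul_pow]
    refine Real.sqrt_le_sqrt (pow_le_pow_left₀ (by positivity) ?_ d)
    rw [div_mul_eq_mul_div]
    refine div_le_div_of_nonneg_right ?_ (by positivity)
    nlinarith [sq_nonneg ε, mul_nonneg (sq_nonneg ε) hww]
  calc _ = (Real.sqrt ((2 * q s θ w0 / (d * vol s)) ^ d) * Real.sqrt (ε ^ d)) * vol s := by ring
    _ ≤ _ := mul_le_mul_of_nonneg_right h3 V.le

end Vale.Agent.P301.H450
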