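import Vale.Agent.P301.H450.EffForms
import Vale.Agent.P301.H724.Asm

/-!
# P301: holomorphic forms with values in `L^m`, with bounds on `m`
-/

open scoped Manifold ContDiff ComplexOrder Topology Matrix ENNReal
open Filter Metric Set MeasureTheory

set_option linter.all false

noncomputable section

namespace Vale.Agent.P301.H450

open Vale.Agent.P272.K Vale.Agent.P278.H837 Vale.Agent.P299.IX
open Vale.Agent.P301.H599 Vale.Agent.P301.H862 Vale.Agent.P299.H954 Vale.Agent.P301.H724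

variable {d : ℕ} {X : Type} [TopologicalSpace X] [ChartedSpace (Cm d) X]
variable {ι : Type} {L : LineBundle d X ι} {α : Type*}
variable [IsManifold 𝓘(ℂ, Cm d) ω X] [CompactSpace X] [T2Space X]
variable {w : Fm d X} {ρ : ι → X → ℝ} {F : Auto d X} {c : ℝ} {u h : X → ℝ}

/-- A nonzero holomorphic form with values in `L^{m k0}`, `m ≥ 1`. -/
theorem exists_form_eff [ConnectedSpace X] (D : Dat F w L ρ c u h) (hχ : HB.chi0 d X ≠ 0) (k0 : ℕ) :
    ∃ m p : ℕ, 1 ≤ m ∧ m ≤ d + 1 ∧ p ≤ d ∧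
      ∃ v : H862.Fam d X ι, H897.IsHol (powL L (m * k0)) v ∧
      (∀ i e x, At e x → x ∈ L.U i → ∀ I : FI d, I.card ≠ p → v i e (e x) I = 0) ∧
      ∃ i e x, At e x ∧ x ∈ L.U i ∧ v i e (e x) ≠ 0 := by
  classical
  have hw := D.kahler
  have hρ := D.metric
  have hf : Smooth (d := d) (fun x => u x / c) := by
    have h1 : (fun x => u x / c) = fun x => (1 / c) * u x := by funext x; ring
    rw [h1]; exact D.su.const_mul (1 / c)
  obtain ⟨A, C₀, C₁, C₂, hA, hfam⟩ := H794.exists_fam D hf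
  obtain ⟨B, hB0, hB⟩ := exists_B F D.kahler D.metric D.cpos D.su D.dd D.sh D.pdd
  set U : ℕ → X → ℝ := fun N x => UU F h c (N + 1) x + u x / c with hU
  have hUs : ∀ N, Smooth (d := d) (U N) := fun N => (hfam (N + 1) (by omega)).smooth
  have hUC : ∀ N x, U N x ≤ C₀ := fun N => (hfam (N + 1) (by omega)).upper
  have hmet : ∀ N, IsMetric L (fun i x => ρ i x + U N x) := fun N =>
    H897.IsMetric.add hρ (hUs N)
  have hcurv : ∀ N i (e : Chart d X) x, At e x → x ∈ L.U i →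
      (cHess (fun z => ρ i (e.symm z) + U N (e.symm z)) (e x) +
        ((B / (N + 1 : ℕ) : ℝ) : ℂ) • w e (e x)).PosSemidef := by
    intro N i e x hx hi
    have h1 := hB (N + 1) (by omega) i e x hx hi
    have e1 : (fun z => (2 / c) * (S3 F h (N + 1) (e.symm z) / ((N + 1 : ℕ) : ℝ) ^ 2) +
        (ρ i (e.symm z) + u (e.symm z) / c)) = fun z => ρ i (e.symm z) + U N (e.symm z) := by
      funext z
      simp only [hU, UU]
      ring
    rw [e1] at h1
    exact h1
  have hM := exists_forms_eff L k0 hχ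
  have hstep : ∀ N : ℕ, ∃ m p : ℕ, 1 ≤ m ∧ m ≤ d + 1 ∧ p ≤ d ∧ ∃ g : Fam d X ι,
      H862.IsSec (powL L (m * k0)) g ∧
      (∀ i e x, At e x → x ∈ L.U i → ∀ I : FI d, I.card ≠ p → g i e (e x) I = 0) ∧
      ‖ip (powL L (m * k0)) (fun i x => (m * k0 : ℕ) * (ρ i x + U N x)) w g g - 1‖ ≤
        1 / ((N : ℝ) + 1) ∧
      (ip (powL L (m * k0)) (fun i x => (m * k0 : ℕ) * (ρ i x + U N x)) w
          (DX (fun i x => (m * k0 : ℕ) * (ρ i x + U N x)) g)
          (DX (fun i x => (m * k0 : ℕ) * (ρ i x + U N x)) g)).re +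
        (ip (powL L (m * k0)) (fun i x => (m * k0 : ℕ) * (ρ i x + U N x)) w
          (dX w g) (dX w g)).re ≤ 1 / ((N : ℝ) + 1) := by
    intro N
    obtain ⟨m, hm1, hm2, σ, r, hr, hg⟩ := hM _ (hmet N) w hw (1 / ((N : ℝ) + 1)) (by positivity)
    have h1 : 0 < (∑ p ∈ Finset.range (d + 1), if ((-1) ^ p = σ) then r p else 0) :=
      lt_of_lt_of_le Nat.one_pos hr
    obtain ⟨p, hp, hp1⟩ := Finset.exists_ne_zero_of_sum_ne_zero h1.ne'
    have hps : (-1 : ℤˣ) ^ p = σ := by
      by_contra h2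
      exact hp1 (if_neg h2)
    rw [if_pos hps] at hp1
    obtain ⟨g, hg1, hg2, hg3, hg4⟩ := hg p hp hps
    have hrp : 0 < r p := Nat.pos_of_ne_zero hp1
    refine ⟨m, p, hm1, hm2, by simpa [Nat.lt_succ_iff] using hp, g ⟨0, hrp⟩, hg1 _, hg2 _, ?_,
      hg4 _⟩
    have h3 := hg3 ⟨0, hrp⟩ ⟨0, hrp⟩
    rwa [if_pos rfl] at h3
  choose m p hm1 hm2 hp g hg1 hg2 hg3 hg4 using hstep
  -- pigeonhole
  obtain ⟨⟨m₀, p₀⟩, hinf⟩ := Finite.exists_infinite_fiber
    (fun N : ℕ => ((⟨m N, Nat.lt_succ_of_le (hm2 N)⟩, ⟨p N, Nat.lt_succ_of_le (hp N)⟩) :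
      Fin (d + 1 + 1) × Fin (d + 1)))
  set S : Set ℕ := (fun N : ℕ => ((⟨m N, Nat.lt_succ_of_le (hm2 N)⟩,
    ⟨p N, Nat.lt_succ_of_le (hp N)⟩) : Fin (d + 1 + 1) × Fin (d + 1))) ⁻¹' {(m₀, p₀)} with hS
  haveI : Infinite S := hinf
  have hSm : ∀ N : S, m N = m₀ ∧ p N = p₀ := by
    intro N
    have h1 : ((⟨m N, Nat.lt_succ_of_le (hm2 N)⟩, ⟨p N, Nat.lt_succ_of_le (hp N)⟩) :
      Fin (d + 1 + 1) × Fin (d + 1)) = (m₀, p₀) := N.2
    constructor
    · rw [← congrArg (fun q => (q.1 : ℕ)) h1]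
    · rw [← congrArg (fun q => (q.2 : ℕ)) h1]
  set l : Ultrafilter S := Filter.hyperfilter S with hl
  have hval : Tendsto (fun N : S => (N : ℕ)) l atTop := by
    rw [← Nat.cofinite_eq_atTop]
    exact (Subtype.val_injective.tendsto_cofinite).mono_left (Filter.hyperfilter_le_cofinite)
  obtain ⟨N₀⟩ : Nonempty S := inferInstance
  have hm01 : 1 ≤ (m₀ : ℕ) := by rw [← (hSm N₀).1]; exact hm1 _
  have hp0 : (p₀ : ℕ) ≤ d := Nat.le_of_lt_succ p₀.2
  set q : ℕ := m₀ * k0 with hq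
  have hinv : Tendsto (fun N : S => 1 / (((N : ℕ) : ℝ) + 1)) l (𝓝 0) :=
    tendsto_one_div_add_atTop_nhds_zero_nat.comp hval
  have hwt : ∀ N : ℕ, (fun (i : ι) (x : X) => ((q : ℕ) : ℝ) * (ρ i x + U N x)) =
      fun i x => (q : ℝ) * ρ i x + q * U N x := fun N => by funext i x; ring
  obtain ⟨v, hv1, hv2, hv3⟩ := lim_linInd (L := powL L q) (α := S) l hw (powL_metric hρ q)
    (v := fun N x => q * U N x) (fun N => (hUs N).const_mul q) (C1 := q * |C₀|)
    (fun N x => mul_le_mul_of_nonneg_left ((hUC N x).trans (le_abs_self _)) (Nat.cast_nonneg q))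
    (fun e he K hK hKe => by
      obtain ⟨B', hB', hB''⟩ := H794.Dat_exp_bound D hf (p := (2 * d + 1) * q) (by positivity)
        he hK hKe
      refine ⟨B', hB', fun N => ?_⟩
      have h1 := hB'' ((N : ℕ) + 1) (by omega)
      refine le_trans (le_of_eq ?_) h1
      refine lintegral_congr fun z => ?_
      congr 3
      simp only [hU]
      ring)
    (ε := fun N : S => (q : ℝ) * B * (1 / (((N : ℕ) : ℝ) + 1))) (fun N => by positivity)
    (by simpa using hinv.const_mul ((q : ℝ) * B))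
    (fun N i e x hx hi => by
      have h1 := hcurv N i e x hx hi
      have h2 := h1.smul (a := (q : ℂ)) (by exact_mod_cast Nat.cast_nonneg q)
      have s2 : ContDiffAt ℝ 2 (fun z => ρ i (e.symm z) + U N (e.symm z)) (e x) :=
        ((hmet N).smooth i e x hx hi).of_le (by norm_cast)
      have e1 : (fun z => (q : ℝ) * ρ i (e.symm z) + q * U N (e.symm z)) =
          fun z => (q : ℝ) * (ρ i (e.symm z) + U N (e.symm z)) := by funext z; ring
      have e2 : cHess (fun z => (q : ℝ) * (ρ i (e.symm z) + U N (e.symm z))) (e x) =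
          (q : ℂ) • cHess (fun z => ρ i (e.symm z) + U N (e.symm z)) (e x) := by
        have := cHess_const_mul (q : ℝ) s2
        simpa using this
      show (cHess (fun z => (q : ℝ) * ρ i (e.symm z) + q * U N (e.symm z)) (e x) + _).PosSemidef
      rw [e1, e2]
      have e3 : (((q : ℝ) * B * (1 / (((N : ℕ) : ℝ) + 1)) : ℝ) : ℂ) • w e (e x) =
          (q : ℂ) • (((B / (((N : ℕ) + 1 : ℕ) : ℝ) : ℝ) : ℂ) • w e (e x)) := by
        rw [smul_smul]
        congr 1
        push_cast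
        ring
      rw [e3, ← smul_add]
      exact h2)
    (r := 1) (g := fun N _ => g N)
    (fun N _ => by
      have h1 := hg1 N
      rw [(hSm N).1] at h1
      exact h1)
    (η := fun N : S => 1 / (((N : ℕ) : ℝ) + 1)) hinv
    (fun N => by
      rw [div_le_one (by positivity)]
      have : (0 : ℝ) ≤ ((N : ℕ) : ℝ) := Nat.cast_nonneg _
      linarith)
    (fun N a b => by
      have h1 := hg3 N
      rw [(hSm N).1] at h1
      rw [if_pos (Subsingleton.elim a b)]
      have h2 := hwt N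
      simp only [hq] at h2 h1 ⊢
      rw [h2] at h1
      exact h1)
    (δ := fun N : S => 1 / (((N : ℕ) : ℝ) + 1)) hinv
    (fun N a => by
      have h1 := hg4 N
      rw [(hSm N).1] at h1
      have h2 := hwt N
      simp only [hq] at h2 h1 ⊢
      rw [h2] at h1
      exact h1)
  refine ⟨m₀, p₀, hm01, Nat.le_of_lt_succ m₀.2, hp0, v 0, hv1 0, ?_, ?_⟩
  · intro i e x hx hi I hI
    refine hv2 0 I (fun N i e x hx hi => ?_) i e x hx hi
    have h1 := hg2 N
    rw [(hSm N).2] at h1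
    exact h1 i e x hx hi I hI
  · by_contra hcon
    push Not at hcon
    have h1 := hv3 (fun _ => 1) (fun i e x hx hi => by simp [hcon i e x hx hi])
    have h2 := congrFun h1 0
    simp at h2


end Vale.Agent.P301.H450
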