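import Vale.Agent.P301.H862.Koszul
import Mathlib.Topology.MetricSpace.HausdorffDimension

/-!
# P301: `d + 1` smooth sections of a line bundle without common zeros
-/

open scoped Manifold ContDiff ComplexOrder Topology NNReal
open Vale.Agent.P272.K Vale.Agent.P301.H599 Vale.Agent.P301.H862 Set Filter

set_option linter.all false

noncomputable section

namespace Vale.Agent.P301.H450

variable {d : ℕ} {X : Type} [TopologicalSpace X] {ι : Type} [ChartedSpace (Cm d) X]
  {L : LineBundle d X ι} {k0 N : ℕ}

/-- padding by the zero section -/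
theorem KS.pad (K : KS L k0 N) : Nonempty (KS L k0 (N + 1)) := by
  refine ⟨⟨Fin.snoc (α := fun _ => ι → X → ℂ) K.s (fun _ _ => 0), ?_, ?_, ?_⟩⟩
  · intro a i e x hx hi
    refine Fin.lastCases ?_ (fun b => ?_) a
    · simp only [Fin.snoc_last]
      exact contDiffAt_const
    · simp only [Fin.snoc_castSucc]
      exact K.smooth b i e x hx hi
  · intro a i j x hi hj
    refine Fin.lastCases ?_ (fun b => ?_) a
    · simp only [Fin.snoc_last, mul_zero]
    · simp only [Fin.snoc_castSucc]
      exact K.change b i j x hi hj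
  · intro i x hi
    obtain ⟨a, ha⟩ := K.nz i x hi
    exact ⟨a.castSucc, by simpa only [Fin.snoc_castSucc] using ha⟩

variable [CompactSpace X]

/-- one section less, if there are more than `d + 1` -/
theorem KS.reduce (hN : d < N) (K : KS L k0 (N + 1)) : Nonempty (KS L k0 N) := by
  classical
  choose c hc using L.cover
  -- the ratios
  set r : X → Fin N → ℂ := fun x a => K.s a.castSucc (c x) x / K.s (Fin.last N) (c x) x with hr
  set Z : Set X := {x | K.s (Fin.last N) (c x) x ≠ 0} with hZ
  have hre : ∀ x i, x ∈ L.U i → ∀ a : Fin N,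
      r x a = K.s a.castSucc i x / K.s (Fin.last N) i x := by
    intro x i hi a
    have h1 := K.change a.castSucc (c x) i x (hc x) hi
    have h2 := K.change (Fin.last N) (c x) i x (hc x) hi
    have h3 := pow_ne_zero k0 (L.ne_zero (c x) i x (hc x) hi)
    rw [hr]
    simp only
    rw [h1, h2, mul_div_mul_left _ _ h3]
  have hZe : ∀ x i, x ∈ L.U i → (x ∈ Z ↔ K.s (Fin.last N) i x ≠ 0) := by
    intro x i hi
    have h2 := K.change (Fin.last N) (c x) i x (hc x) hi
    have h3 := pow_ne_zero k0 (L.ne_zero (c x) i x (hc x) hi)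
    show K.s (Fin.last N) (c x) x ≠ 0 ↔ _
    rw [h2]
    constructor
    · intro h h0; exact h (by rw [h0, mul_zero])
    · intro h; exact mul_ne_zero h3 h
  -- finitely many charts
  obtain ⟨T, hT⟩ := isCompact_univ.elim_finite_subcover (fun x : X => (chartAt (Cm d) x).source)
    (fun x => (chartAt (Cm d) x).open_source) (fun x _ => mem_iUnion.2 ⟨x, mem_chart_source _ x⟩)
  -- the bad set
  set G : X → Set (Cm d) := fun p =>
    {z | z ∈ (chartAt (Cm d) p).target ∧ (chartAt (Cm d) p).symm z ∈ Z} with hG
  set F : X → Cm d → Fin N → ℂ := fun p z => r ((chartAt (Cm d) p).symm z) with hF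
  have hsub : r '' Z ⊆ ⋃ p ∈ (T : Set X), F p '' G p := by
    rintro _ ⟨x, hx, rfl⟩
    obtain ⟨p, hp, hxp⟩ := mem_iUnion₂.1 (hT (mem_univ x))
    have hinv : (chartAt (Cm d) p).symm (chartAt (Cm d) p x) = x :=
      (chartAt (Cm d) p).left_inv hxp
    refine mem_iUnion₂.2 ⟨p, hp, chartAt (Cm d) p x, ⟨(chartAt (Cm d) p).map_source hxp, ?_⟩, ?_⟩
    · rw [hinv]; exact hx
    · show r ((chartAt (Cm d) p).symm (chartAt (Cm d) p x)) = r x
      rw [hinv]
  have hdim : ∀ p, dimH (F p '' G p) ≤ ((2 * d : ℕ) : ℝ≥0) := by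
    intro p
    have h1 : dimH (F p '' G p) ≤ dimH (G p) := by
      refine dimH_image_le_of_locally_lipschitzOn fun z hz => ?_
      set e : Chart d X := chartAt (Cm d) p with he
      set x : X := e.symm z with hxdef
      have hx : At e x := ⟨chart_mem_atlas _ _, e.map_target hz.1⟩
      have hez : e x = z := e.right_inv hz.1
      obtain ⟨i, hi⟩ : ∃ i, x ∈ L.U i := L.cover x
      have hne : K.s (Fin.last N) i x ≠ 0 := (hZe x i hi).1 hz.2
      have hsm : ContDiffAt ℝ 1 (fun z (a : Fin N) =>
          K.s a.castSucc i (e.symm z) / K.s (Fin.last N) i (e.symm z)) (e x) := by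
        refine contDiffAt_pi.2 fun a => ?_
        have e1 := (K.smooth a.castSucc i e x hx hi).of_le (m := 1) (by exact_mod_cast le_top)
        have e2 := (K.smooth (Fin.last N) i e x hx hi).of_le (m := 1) (by exact_mod_cast le_top)
        simp only [div_eq_mul_inv]
        refine e1.mul (e2.inv ?_)
        rw [hx.left_inv]
        exact hne
      rw [hez] at hsm
      have hev : F p =ᶠ[𝓝 z] fun z (a : Fin N) =>
          K.s a.castSucc i (e.symm z) / K.s (Fin.last N) i (e.symm z) := by
        have h2 : ∀ᶠ y in 𝓝 z, e.symm y ∈ L.U i := by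
          have hcs : ContinuousAt e.symm z := e.continuousAt_symm hz.1
          exact hcs.eventually_mem ((L.isOpen i).mem_nhds hi)
        filter_upwards [h2] with y hy
        funext a
        exact hre _ i hy a
      have hsm' : ContDiffAt ℝ 1 (F p) z := hsm.congr_of_eventuallyEq hev
      obtain ⟨C, t, ht, hL⟩ := hsm'.exists_lipschitzOnWith
      exact ⟨C, t, mem_nhdsWithin_of_mem_nhds ht, hL⟩
    refine h1.trans ((dimH_mono (subset_univ _)).trans ?_)
    rw [Real.dimH_univ_eq_finrank]
    have h2 : Module.finrank ℝ (Cm d) = 2 * d := by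
      have h3 : Module.finrank ℝ (Fin d → ℂ) = 2 * d := by
        rw [Module.finrank_pi_fintype]
        simp [mul_comm]
      exact h3
    rw [h2]
    exact le_of_eq (by push_cast; rfl)
  have hbad : dimH (r '' Z) < ((Module.finrank ℝ (Fin N → ℂ) : ℕ) : ENNReal) := by
    have h3 : dimH (r '' Z) ≤ ((2 * d : ℕ) : ℝ≥0) := by
      refine (dimH_mono hsub).trans ?_
      rw [dimH_bUnion T.countable_toSet]
      exact iSup₂_le fun p _ => hdim p
    refine lt_of_le_of_lt h3 ?_
    have h4 : Module.finrank ℝ (Fin N → ℂ) = 2 * N := by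
      rw [Module.finrank_pi_fintype]
      simp [mul_comm]
    rw [h4]
    have h5 : 2 * d < 2 * N := by omega
    exact_mod_cast h5
  obtain ⟨a, ha⟩ := (dense_compl_of_dimH_lt_finrank hbad).nonempty
  refine ⟨⟨fun b i x => K.s b.castSucc i x - a b * K.s (Fin.last N) i x, ?_, ?_, ?_⟩⟩
  · intro b i e x hx hi
    exact (K.smooth _ i e x hx hi).sub (contDiffAt_const.mul (K.smooth _ i e x hx hi))
  · intro b i j x hi hj
    rw [K.change b.castSucc i j x hi hj, K.change (Fin.last N) i j x hi hj]
    ring
  · intro i x hi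
    by_contra hcon
    push Not at hcon
    by_cases h0 : K.s (Fin.last N) i x = 0
    · obtain ⟨b, hb⟩ := K.nz i x hi
      revert hb
      refine Fin.lastCases (fun h => h h0) (fun b' h => ?_) b
      have := hcon b'
      rw [h0, mul_zero, sub_zero] at this
      exact h this
    · apply ha
      refine ⟨x, (hZe x i hi).2 h0, ?_⟩
      funext b
      rw [hre x i hi b, div_eq_iff h0]
      linear_combination hcon b

theorem KS.reduce_all (m : ℕ) (h : Nonempty (KS L k0 (d + 1 + m))) :
    Nonempty (KS L k0 (d + 1)) := by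
  induction m with
  | zero => exact h
  | succ m ih =>
    obtain ⟨K⟩ := h
    exact ih (KS.reduce (by omega) K)

theorem KS.pad_all (m : ℕ) (h : Nonempty (KS L k0 N)) : Nonempty (KS L k0 (N + m)) := by
  induction m with
  | zero => exact h
  | succ m ih =>
    obtain ⟨K⟩ := ih
    exact KS.pad K

/-- **General position**: a line bundle on a compact complex manifold of dimension `d` has `d + 1`
smooth sections without common zeros. -/
theorem exists_KS_dim [IsManifold 𝓘(ℂ, Cm d) ω X] [T2Space X] (L : LineBundle d X ι) (k0 : ℕ) :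
    Nonempty (KS L k0 (d + 1)) := by
  obtain ⟨N, hN⟩ := exists_KS L
  have h1 := KS.pad_all (d + 1) (hN k0)
  rw [show N + (d + 1) = d + 1 + N by ring] at h1
  exact KS.reduce_all N h1

end Vale.Agent.P301.H450
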