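import Vale.Agent.P301.H862.KZero
import Vale.Agent.P301.H450.EffGen

/-!
# P301: approximate kernels, with a bound on the weight which only depends on the dimension
-/

open scoped Manifold ContDiff ComplexOrder Topology Matrix ComplexConjugate
open Vale.Agent.P272.K Vale.Agent.P272.K.C2 Vale.Agent.P299.H954 Vale.Agent.P299.IX
open Vale.Agent.P301.H599 MeasureTheory Set Filter Vale.Agent.P299.H863
open Vale.Agent.P299.IX.Fock Vale.Agent.P301.H103 Vale.Agent.P301.H862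

set_option linter.unusedSectionVars false
set_option linter.all false

noncomputable section

namespace Vale.Agent.P301.H450

variable {d : ℕ} {X : Type} [TopologicalSpace X] {ι : Type} [ChartedSpace (Cm d) X]
  [IsManifold 𝓘(ℂ, Cm d) ω X] [T2Space X] [CompactSpace X]
  {L : LineBundle d X ι} {B : HB d X ι} {k0 N : ℕ}
  {i j : ι} {e e' : Chart d X} {x : X} {z : Cm d}

/-- if all values at `1, …, N` vanish then so does the value at `0` -/
theorem exists_ne_zero_of_rel {N : ℕ} (P : ℕ → ℤ)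
    (h : ∑ S : Finset (Fin N), (-1 : ℤ) ^ S.card * P S.card = 0) (h0 : P 0 ≠ 0) :
    ∃ m, 1 ≤ m ∧ m ≤ N ∧ P m ≠ 0 := by
  classical
  by_contra hcon
  push Not at hcon
  rw [Finset.sum_eq_single (∅ : Finset (Fin N))] at h
  · simp at h
    exact h0 h
  · intro S _ hS
    have h1 : 1 ≤ S.card := Finset.card_pos.2 (Finset.nonempty_iff_ne_empty.2 hS)
    have h2 : S.card ≤ N := by
      have := Finset.card_le_univ S
      simpa using this
    rw [hcon S.card h1 h2, mul_zero]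
  · intro h1
    exact absurd (Finset.mem_univ _) h1

theorem exists_approx_eff (L : LineBundle d X ι) (k0 : ℕ) {χ : ℤ} (hχ : χ ≠ 0)
    (h0 : ∀ B : HB d X ι, (∀ s, FiniteDimensional ℂ ((B.pow 0).ell.sk s)) →
      (B.pow 0).ell.P = χ) : ∀ B : HB d X ι, B.L = L → ∀ η : ℝ, 0 < η →
    ∃ m, 1 ≤ m ∧ m ≤ d + 1 ∧ ∃ (σ : ℤˣ) (r : ℕ → ℕ),
      1 ≤ (∑ p ∈ Finset.range (d + 1), if ((-1) ^ p = σ) then r p else 0) ∧
      ∀ p ∈ Finset.range (d + 1), (-1) ^ p = σ → ∃ g : Fin (r p) → (B.pow (m * k0)).S,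
        (∀ a, (B.pow (m * k0)).dg p (g a) = g a) ∧
        (∀ a b, ‖(inner ℂ (g a) (g b) : ℂ) - if a = b then 1 else 0‖ ≤ η) ∧
        ∀ a, ‖(B.pow (m * k0)).D (g a)‖ ^ 2 ≤ η := by
  intro B hB η hη
  subst hB
  obtain ⟨K⟩ := exists_KS_dim B.L k0
  have hfin : ∀ m s, FiniteDimensional ℂ ((B.pow (m * k0)).ell.sk s) := fun m s =>
    (HB.index_rel K m).1 ∅ s
  have hP0 : (B.pow (0 * k0)).ell.P = χ := by
    have h1 : ∀ n, n = 0 → (∀ s, FiniteDimensional ℂ ((B.pow n).ell.sk s)) →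
        (B.pow n).ell.P = χ := by
      rintro n rfl h; exact h0 B h
    exact h1 _ (zero_mul k0) (hfin 0)
  have hrel : ∀ P : ℕ → ℤ, P = (fun m => (B.pow (m * k0)).ell.P) →
      ∑ S : Finset (Fin (d + 1)), (-1 : ℤ) ^ S.card * P S.card = 0 := by
    rintro P rfl
    have h1 := (HB.index_rel K 0).2
    refine (Finset.sum_congr rfl fun S _ => ?_).trans h1
    congr 1
    show (fun m => (B.pow (m * k0)).ell.P) S.card = (fun m => (B.pow (m * k0)).ell.P) (0 + S.card)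
    rw [Nat.zero_add]
  obtain ⟨m, hm1, hm2, hm3⟩ := exists_ne_zero_of_rel (fun m => (B.pow (m * k0)).ell.P)
    (hrel _ rfl) (by show (B.pow (0 * k0)).ell.P ≠ 0; rw [hP0]; exact hχ)
  obtain ⟨σ, hσ⟩ := finrank_ge (n := 1) _ (Nat.one_le_iff_ne_zero.2 (Int.natAbs_ne_zero.2 hm3))
  have := hfin m σ
  obtain ⟨r, hr1, hr2⟩ := extraction (B.pow (m * k0)).ell (B.pow (m * k0)).grading σ hη
  refine ⟨m, hm1, hm2, σ, r, ?_, hr2⟩
  rw [hr1]; exact hσ

/-- **Approximate kernels**: the weight is at most `(d + 1) k0`. -/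
theorem exists_forms_eff (L : LineBundle d X ι) (k0 : ℕ) (hχ : HB.chi0 d X ≠ 0) :
    ∀ (ρ : ι → X → ℝ), IsMetric L ρ →
      ∀ w : Chart d X → Cm d → Matrix (Fin d) (Fin d) ℂ, IsKahler w → ∀ η : ℝ, 0 < η →
      ∃ m, 1 ≤ m ∧ m ≤ d + 1 ∧ ∃ (σ : ℤˣ) (r : ℕ → ℕ),
        1 ≤ (∑ p ∈ Finset.range (d + 1), if ((-1) ^ p = σ) then r p else 0) ∧
        ∀ p ∈ Finset.range (d + 1), (-1) ^ p = σ → ∃ g : Fin (r p) → Fam d X ι,
          (∀ a, IsSec (powL L (m * k0)) (g a)) ∧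
          (∀ a i e x, At e x → x ∈ L.U i → ∀ I : FI d, I.card ≠ p → g a i e (e x) I = 0) ∧
          (∀ a b, ‖ip (powL L (m * k0)) (fun i x => (m * k0 : ℕ) * ρ i x) w (g a) (g b) -
            if a = b then 1 else 0‖ ≤ η) ∧
          ∀ a, (ip (powL L (m * k0)) (fun i x => (m * k0 : ℕ) * ρ i x) w
              (DX (fun i x => (m * k0 : ℕ) * ρ i x) (g a))
              (DX (fun i x => (m * k0 : ℕ) * ρ i x) (g a))).re +
            (ip (powL L (m * k0)) (fun i x => (m * k0 : ℕ) * ρ i x) w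
              (dX w (g a)) (dX w (g a))).re ≤ η := by
  intro ρ hρ w hw η hη
  obtain ⟨m, hm1, hm2, σ, r, hr, hg⟩ := exists_approx_eff L k0 hχ (fun B h => HB.P_zero B h)
    ⟨L, ρ, w, hρ, hw⟩ rfl η hη
  refine ⟨m, hm1, hm2, σ, r, hr, fun p hp hs => ?_⟩
  obtain ⟨g, h1, h2, h3⟩ := hg p hp hs
  refine ⟨fun a => (g a).f, fun a => (g a).isSec, fun a i e x hx hi I hI =>
    HB.deg_of_dg (h1 a) hx hi hI, fun a b => ?_, fun a => ?_⟩
  · have h4 := h2 b a
    simp only [eq_comm (a := b) (b := a)] at h4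
    exact h4
  · refine le_trans (le_of_eq ?_) (h3 a)
    rw [HB.norm_D_sq, HB.norm_sq_eq, HB.norm_sq_eq,
      HB.ipB_congr (g := (HB.Dp _ (g a)).f) (h := (HB.Dp _ (g a)).f)
        (fun i e x hx hi => HB.Dp_at (g a) hx hi) (fun i e x hx hi => HB.Dp_at (g a) hx hi),
      HB.ipB_congr (g := (HB.Dd _ (g a)).f) (h := (HB.Dd _ (g a)).f)
        (fun i e x hx hi => HB.Dd_at (g a) hx hi) (fun i e x hx hi => HB.Dd_at (g a) hx hi)]
    rfl

end Vale.Agent.P301.H450
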