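import Vale.Agent.P301.H450.EffFin
import Vale.Agent.P301.H450.EffForms
import Vale.Agent.P301.H794.Assembly

/-!
# P301: twisted forms from approximations by Calabi-Yau metrics, weights bounded by the dimension
-/

open scoped Manifold ContDiff ComplexOrder Topology Matrix ENNReal
open Filter Metric Set MeasureTheory

set_option linter.all false

noncomputable section

namespace Vale.Agent.P301.H450

open Vale.Agent.P272.K Vale.Agent.P299.IX
open Vale.Agent.P301.H599 Vale.Agent.P301.H862 Vale.Agent.P299.H954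

variable {d : ℕ} {X : Type} [TopologicalSpace X] [ChartedSpace (Cm d) X]
variable {ι : Type} {L : LineBundle d X ι}
variable [IsManifold 𝓘(ℂ, Cm d) ω X] [CompactSpace X] [T2Space X]
variable {w s : Fm d X} {ρ : ι → X → ℝ} {F : X → X}

/-- **Twisted forms** from Calabi-Yau approximations. -/
theorem formsFor_cy [ConnectedSpace X] (hw : IsKahler w) (hρ : IsMetric L ρ) {n : ℕ}
    (hd : d = 2 * n) (hn : 0 < n) (hCY : ∀ p : ℝ, 0 ≤ p → CYStatement F L ρ w n 1 p)
    (hχ : HB.chi0 d X ≠ 0) : FormsFor L := by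
  classical
  intro k0 hk0
  have hM := exists_forms_eff L k0 hχ
  obtain ⟨δ, C, C₁, c₀, K, hδ, -, hC, hc₀, φ, τ, hA, hexp⟩ :=
    hCY ((2 * d + 1) * (((d + 1) * k0 : ℕ) : ℝ)) (by positivity)
  set ε : ℕ → ℝ := fun N => 1 / ((N : ℝ) + 1) with hε
  have hε0 : ∀ N, 0 < ε N := fun N => by positivity
  have hε1 : ∀ N, ε N ≤ 1 := fun N => by
    rw [hε]
    simp only
    rw [div_le_one (by positivity)]
    have : (0 : ℝ) ≤ N := Nat.cast_nonneg _
    linarith
  have hεm : ∀ {N N' : ℕ}, N ≤ N' → ε N' ≤ ε N := fun {N N'} h => by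
    have : (N : ℝ) ≤ N' := by exact_mod_cast h
    exact one_div_le_one_div_of_le (by positivity) (by linarith)
  have hstep : ∀ N : ℕ, ∃ m p : ℕ, 1 ≤ m ∧ m ≤ d + 1 ∧ p ≤ d ∧
      H794.Good L w (fun i x => ρ i x + φ (ε N) x) (m * k0) p 1 (ε N) := by
    intro N
    obtain ⟨m, hm1, hm2, σ, r, hr, hg⟩ := hM _
      (H794.isMetric_add hρ (hA _ (hε0 N) (hε1 N)).smooth) w hw (ε N) (hε0 N)
    have h1 : 0 < (∑ p ∈ Finset.range (d + 1), if ((-1) ^ p = σ) then r p else 0) :=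
      lt_of_lt_of_le Nat.one_pos hr
    obtain ⟨p, hp, hp1⟩ := Finset.exists_ne_zero_of_sum_ne_zero h1.ne'
    have hps : (-1 : ℤˣ) ^ p = σ := by
      by_contra h2
      exact hp1 (if_neg h2)
    rw [if_pos hps] at hp1
    have hG : H794.Good L w (fun i x => ρ i x + φ (ε N) x) (m * k0) p (r p) (ε N) := hg p hp hps
    exact ⟨m, p, hm1, hm2, by simpa [Nat.lt_succ_iff] using hp,
      hG.mono (Nat.one_le_iff_ne_zero.2 hp1)⟩
  choose m p hm1 hm2 hp hG using hstep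
  obtain ⟨⟨m₀, p₀⟩, ψ, hψ, hψc⟩ := H794.exists_const_sub (β := Fin (d + 1 + 1) × Fin (d + 1))
    fun N => (⟨m N, Nat.lt_succ_of_le (hm2 N)⟩, ⟨p N, Nat.lt_succ_of_le (hp N)⟩)
  have e1 : ∀ K, m (ψ K) = m₀ := fun K => congrArg (fun q => (q.1 : ℕ)) (hψc K)
  have e2 : ∀ K, p (ψ K) = p₀ := fun K => congrArg (fun q => (q.2 : ℕ)) (hψc K)
  have hm01 : 1 ≤ (m₀ : ℕ) := by rw [← e1 0]; exact hm1 _
  have hm0 : (m₀ : ℕ) ≤ d + 1 := Nat.le_of_lt_succ m₀.2
  obtain ⟨v, hv1, hv2, hv3, -⟩ := H794.good_limit (F := F) hw hρ (ε := fun K => ε (ψ K))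
    (fun K => hε0 _) (fun K => hε1 _) (by
      refine squeeze_zero (fun K => (hε0 _).le) (fun K => hεm (hψ K)) ?_
      exact tendsto_one_div_add_atTop_nhds_zero_nat)
    (φ := fun K => φ (ε (ψ K))) (τ := fun K => τ (ε (ψ K))) (n := n)
    (by omega) (by omega) hδ hC hc₀ (fun K => hA _ (hε0 _) (hε1 _))
    (P := (2 * d + 1) * (((d + 1) * k0 : ℕ) : ℝ)) (fun e he S hS hSe => by
      obtain ⟨B, hB, hB'⟩ := hexp e he S hS hSe
      exact ⟨B, hB, fun K => hB' _ (hε0 _) (hε1 _)⟩) (q := m₀ * k0)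
    (Nat.mul_pos hm01 hk0) (by
      have : ((m₀ * k0 : ℕ) : ℝ) ≤ (((d + 1) * k0 : ℕ) : ℝ) := by
        exact_mod_cast Nat.mul_le_mul_right k0 hm0
      exact mul_le_mul_of_nonneg_left this (by positivity)) (p := p₀) (r := 1) fun K => by
      have h1 := hG (ψ K)
      rw [e1 K, e2 K] at h1
      exact h1
  refine ⟨m₀, p₀, hm01, hm0, Nat.le_of_lt_succ p₀.2, v 0, hv1 0, hv2 0, ?_⟩
  by_contra hcon
  push Not at hcon
  have h1 := hv3 (fun _ => 1) fun i e x he hi => by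
    have h2 : v 0 i e (e x) = 0 := by
      by_contra h3
      exact hcon x ((hv1 0).nz he hi h3)
    simp [h2]
  have h2 := congrFun h1 0
  simp at h2

end Vale.Agent.P301.H450
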