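import Vale.Agent.P301.H450.Special
import Vale.Agent.P301.H724.Rank
import Vale.Agent.P301.H724.Pair
import Vale.Agent.P301.H897.Main
import Vale.Agent.P299.H835.IX.TenF

/-!
# P301: sections of `Λ^p ⊗ L^m` and sections of powers of `L`
-/

open scoped Manifold ContDiff ComplexOrder Topology Matrix
open MeasureTheory Set Filter
open Vale.Agent.P272.K Vale.Agent.P299 Vale.Agent.P301.H599
open Vale.Agent.P301.H724 (IsSec Nz Prop2 HasSec lamPow wedge mnr LinInd)
open Vale.Agent.P301.H897 (LamF)
open Vale.Agent.P299.IX (ten ten_smul ten_lam analyticAt_ten eq_zero_of_ten ten_eq_sum ten_add)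

set_option linter.all false

noncomputable section

namespace Vale.Agent.P301.H450

variable {d : ℕ} {X : Type} [TopologicalSpace X] [ChartedSpace (Cm d) X]
  {w0 s : Chart d X → Cm d → Matrix (Fin d) (Fin d) ℂ} {e e' : Chart d X} {x : X} {ι : Type}
  {L : LineBundle d X ι} {ρ : ι → X → ℝ} {m p r : ℕ}

/-- the degree `p` part of a form as a covariant tensor -/
def tenS (p : ℕ) (u : ι → Chart d X → Cm d → Finset (Fin d) → ℂ) :
    ι → Chart d X → Cm d → (Fin p → Fin d) → ℂ := fun i e z I => ten p (u i e z) I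

theorem isSec_tenS {u : ι → Chart d X → Cm d → Finset (Fin d) → ℂ} (h : IsSec L LamF m u) (p : ℕ) :
    IsSec L (lamPow p cot) m (tenS p u) where
  holo i e x hx hi I := analyticAt_ten (fun K => h.holo i e x hx hi K) p I
  chL i j e x hx hi hj := by
    funext I
    show ten p (u i e (e x)) I = L.g i j x ^ m * ten p (u j e (e x)) I
    rw [h.chL i j e x hx hi hj, ten_smul]
  chV i e e' x hx hx' hi := by
    funext I
    show ten p (u i e (e x)) I = _
    rw [h.chV i e e' x hx hx' hi, LamF, ten_lam, D.tenPull]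
    rfl

theorem eq_zero_of_tenS {a : Finset (Fin d) → ℂ} (hom : ∀ K, K.card ≠ p → a K = 0)
    (h : ∀ I, ten p a I = 0) : a = 0 := by
  funext K
  by_cases hK : K.card = p
  · exact eq_zero_of_ten h hK
  · exact hom K hK

theorem nz_tenS {u : ι → Chart d X → Cm d → Finset (Fin d) → ℂ} (h : IsSec L LamF m u)
    (hom : ∀ i e x, At e x → x ∈ L.U i → ∀ K : Finset (Fin d), K.card ≠ p → u i e (e x) K = 0)
    (hne : ∃ x, Nz L u x) : ∃ x, Nz L (tenS p u) x := by
  obtain ⟨x, hx⟩ := hne
  refine ⟨x, fun i e he hi h0 => hx i e he hi ?_⟩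
  exact eq_zero_of_tenS (hom i e x he hi) fun I => congrFun h0 I

theorem linInd_tenS {u : Fin r → ι → Chart d X → Cm d → Finset (Fin d) → ℂ}
    (hom : ∀ b i e x, At e x → x ∈ L.U i → ∀ K : Finset (Fin d), K.card ≠ p → u b i e (e x) K = 0)
    (hind : LinInd L u) : LinInd L fun b => tenS p (u b) := by
  intro t ht
  refine hind t fun i e x hx hi => ?_
  refine eq_zero_of_tenS (p := p) (fun K hK => ?_) fun I => ?_
  · simp only [Finset.sum_apply, Pi.smul_apply, smul_eq_mul]
    exact Finset.sum_eq_zero fun b _ => by rw [hom b i e x hx hi K hK, mul_zero]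
  · rw [Vale.Agent.P299.IX.ten_sum]
    have h1 := congrFun (ht i e x hx hi) I
    simp only [Finset.sum_apply, Pi.smul_apply, smul_eq_mul, Pi.zero_apply] at h1
    rw [← h1]
    exact Finset.sum_congr rfl fun b _ => ten_smul _ _ _ _

/-- minors of images of vectors -/
theorem mnr_lin {A B : Type} [Fintype A] (M : B → A → ℂ) (w : Fin r → A → ℂ) (c : Fin r → B) :
    mnr (fun b β => ∑ α, M β α * w b α) c =
      ∑ c' : Fin r → A, (∏ a, M (c a) (c' a)) * mnr w c' := by
  classical
  unfold mnr
  have h1 : (Matrix.of fun (a b : Fin r) => ∑ α, M (c a) α * w b α) =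
      fun a : Fin r => ∑ α : A, (M (c a) α) • (fun b => w b α : Fin r → ℂ) := by
    funext a b
    simp
  have h2 := (Matrix.detRowAlternating (R := ℂ) (n := Fin r)).toMultilinearMap.map_sum
    (fun (a : Fin r) (α : A) => (M (c a) α) • (fun b => w b α : Fin r → ℂ))
  rw [h1]
  refine h2.trans ?_
  refine Finset.sum_congr rfl fun c' _ => ?_
  rw [MultilinearMap.map_smul_univ]
  rfl

theorem wedge_tenS {u : Fin r → ι → Chart d X → Cm d → Finset (Fin d) → ℂ} {i : ι} {e : Chart d X}
    {z : Cm d} (h : wedge u i e z = 0) (p : ℕ) : wedge (fun b => tenS p (u b)) i e z = 0 := by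
  funext c
  show mnr (fun b => fun I => ten p (u b i e z) I) c = 0
  have h1 : (fun b => fun I => ten p (u b i e z) I) = fun (b : Fin r) (I : Fin p → Fin d) =>
      ∑ K, ten p (Vale.Agent.P299.IX.Fock.ev K) I * u b i e z K := by
    funext b I
    exact ten_eq_sum p _ I
  rw [h1, mnr_lin]
  refine Finset.sum_eq_zero fun c' _ => ?_
  have h2 := congrFun h c'
  have h3 : mnr (fun b => u b i e z) c' = 0 := h2
  rw [h3, mul_zero]

variable [IsManifold 𝓘(ℂ, Cm d) ω X] [T2Space X] [CompactSpace X] [ConnectedSpace X]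
  [SimplyConnectedSpace X]

/-- **Kodaira dimension at least one.** `L` nef, isotropic and nonzero. If linearly independent
sections of `Λ^p ⊗ L^m` are linearly dependent at every point, then a positive power of `L` has two
linearly independent sections. -/
theorem kappa_one (hd : 0 < d) (h : IsSymplectic d X w0 s) (hρ : IsMetric L ρ)
    (hn : IsNef w0 (curvature L ρ)) (hq : q s (curvature L ρ) (curvature L ρ) = 0)
    (hnex : ¬ IsExact (curvature L ρ)) {u : Fin r → ι → Chart d X → Cm d → Finset (Fin d) → ℂ}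
    (hu : ∀ b, IsSec L LamF m (u b))
    (hom : ∀ b i e x, At e x → x ∈ L.U i → ∀ K : Finset (Fin d), K.card ≠ p → u b i e (e x) K = 0)
    (hind : LinInd L u) (hw : ∀ i e x, At e x → x ∈ L.U i → wedge u i e (e x) = 0) :
    ∃ k, 0 < k ∧ HasTwoSec L k := by
  obtain ⟨r', σ₀, σ₁, -, -, h0, h1, n0, n1, hp, hC⟩ :=
    H724.exists_prop_pair (u := fun b => tenS p (u b)) (fun b => isSec_tenS (hu b) p)
      (linInd_tenS hom hind) fun i e x hx hi => wedge_tenS (hw i e x hx hi) p
  refine special_two (mm := fun _ => r' * m) (σ := ![σ₀, σ₁]) hd h ((isNeg_ten p).lamPow r') hρ hn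
    hq hnex (fun k => ?_) (fun k l => ?_) (fun k => ?_) rfl fun α β hαβ => ?_
  · fin_cases k
    · exact h0
    · exact h1
  · fin_cases k <;> fin_cases l
    · exact fun i e x he hi c c' => mul_comm _ _
    · exact fun i e x he hi c c' => by
        have := hp i e x he hi c c'
        show σ₀ i e (e x) c * σ₁ i e (e x) c' = σ₀ i e (e x) c' * σ₁ i e (e x) c
        linear_combination -this
    · exact hp
    · exact fun i e x he hi c c' => mul_comm _ _
  · fin_cases k
    · exact n0
    · exact n1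
  · have hβ : β = 0 := by
      by_contra hβ
      obtain ⟨i, e, x, he, hi, hne⟩ := hC (-α / β)
      apply hne
      have h2 := hαβ i e x he hi
      have h3 : β • σ₁ i e (e x) = -(α • σ₀ i e (e x)) := by
        rw [eq_neg_iff_add_eq_zero, add_comm]; exact h2
      have h4 : σ₁ i e (e x) = β⁻¹ • (β • σ₁ i e (e x)) := by
        rw [smul_smul, inv_mul_cancel₀ hβ, one_smul]
      rw [h4, h3, smul_neg, smul_smul, ← neg_smul]
      congr 1
      field_simp
    subst hβ
    refine ⟨?_, rfl⟩
    by_contra hα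
    obtain ⟨x, hx⟩ := n0
    obtain ⟨i, hi⟩ := L.cover x
    have he := AMP.at_chartAt (n := d) x
    have h2 := hαβ i _ x he hi
    rw [zero_smul, add_zero] at h2
    exact hx i _ he hi ((smul_eq_zero.1 h2).resolve_left hα)

/-- **Nonvanishing.** `L` nef, isotropic and nonzero. If `Λ^* ⊗ L^m` has nonzero sections for
arbitrarily large `m`, then a positive power of `L` has a nonzero section. -/
theorem kappa_nonneg (hd : 0 < d) (h : IsSymplectic d X w0 s) (hρ : IsMetric L ρ)
    (hn : IsNef w0 (curvature L ρ)) (hq : q s (curvature L ρ) (curvature L ρ) = 0)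
    (hnex : ¬ IsExact (curvature L ρ))
    (hinf : ∀ N : ℕ, ∃ (m : ℕ) (u : ι → Chart d X → Cm d → Finset (Fin d) → ℂ), N ≤ m ∧
      IsSec L LamF m u ∧ ∃ x, Nz L u x) : ∃ k, 0 < k ∧ HasSec L k := by
  classical
  -- one degree occurs for arbitrarily large `m`
  have hdeg : ∃ p : ℕ, ∀ N : ℕ, ∃ (m : ℕ) (σ : ι → Chart d X → Cm d → (Fin p → Fin d) → ℂ),
      N ≤ m ∧ IsSec L (lamPow p cot) m σ ∧ ∃ x, Nz L σ x := by
    by_contra hcon
    push Not at hcon
    choose B hB using hcon
    obtain ⟨m, u, hm, hu, x, hx⟩ := hinf (∑ p ∈ Finset.range (d + 1), B p)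
    obtain ⟨i, hi⟩ := L.cover x
    have he := AMP.at_chartAt (n := d) x
    have h1 := hx i _ he hi
    apply h1
    refine Vale.Agent.P299.IX.eq_zero_of_ten_all fun p hp I => ?_
    by_contra hne
    have h2 : B p ≤ m := le_trans (Finset.single_le_sum (f := B) (fun _ _ => Nat.zero_le _)
      (Finset.mem_range.2 (Nat.lt_succ_of_le hp))) hm
    refine hB p m (tenS p u) h2 (isSec_tenS hu p) x ((isSec_tenS hu p).nz he hi fun h0 => hne ?_)
    exact congrFun h0 I
  obtain ⟨p, hp⟩ := hdeg
  obtain ⟨r, M, W, hM, hW, hne, hprop, -⟩ := H724.exists_prop_family hp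
  refine special_pos (mm := ![M 1, M 0]) (σ := ![W 1, W 0]) hd h ((isNeg_ten p).lamPow r) hρ hn hq
    hnex (fun k => ?_) (fun k l => ?_) (fun k => ?_) ?_
  · fin_cases k
    · exact hW 1
    · exact hW 0
  · fin_cases k <;> fin_cases l
    · exact hprop 1 1
    · exact hprop 1 0
    · exact hprop 0 1
    · exact hprop 0 0
  · fin_cases k
    · exact hne 1
    · exact hne 0
  · show M 0 < M 1
    exact hM Nat.zero_lt_one

end Vale.Agent.P301.H450
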