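import Vale.Agent.P301.H450.Kap

/-!
# P301: pencils without fixed divisor
-/

open scoped Manifold ContDiff ComplexOrder Topology Matrix
open MeasureTheory Set Filter
open Vale.Agent.P272.K Vale.Agent.P299 Vale.Agent.P301.H599
open Vale.Agent.P301.H724 (IsSec Nz Prop2 HasSec lamPow wedge mnr LinInd)
open Vale.Agent.P301.H897 (LamF)
open Vale.Agent.P301.H508 (MovingPart tens invL PrimX Prim)
open Vale.Agent.P301.H949 (IsoPow ratio_of_intX)

set_option linter.all false

noncomputable section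

namespace Vale.Agent.P301.H450

section germs

variable {E : Type} [NormedAddCommGroup E] [NormedSpace ℂ E]

/-- zeros persist: if `h(a) = 0` and `h` is not identically zero on the line through `a` in the
direction `v`, then `h` has zeros on all neighbouring lines, near `a`. -/
theorem hurwitz {h : E → ℂ} {a v : E} (ha : AnalyticAt ℂ h a) (h0 : h a = 0)
    (hv : ¬ ∀ᶠ t in 𝓝 (0 : ℂ), h (a + t • v) = 0) {U : Set E} (hU : U ∈ 𝓝 a) :
    ∀ᶠ y in 𝓝 a, ∃ t : ℂ, y + t • v ∈ U ∧ h (y + t • v) = 0 := by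
  have hlin : Continuous fun p : E × ℂ => p.1 + p.2 • v := by fun_prop
  have hmap : Tendsto (fun t : ℂ => a + t • v) (𝓝 0) (𝓝 a) := by
    have : Continuous fun t : ℂ => a + t • v := by fun_prop
    simpa using this.tendsto 0
  -- a neighbourhood where `h` is analytic
  obtain ⟨R, hR, hb⟩ := Metric.eventually_nhds_iff_ball.1 (ha.eventually_analyticAt.and hU)
  have hg : AnalyticAt ℂ (fun t : ℂ => h (a + t • v)) 0 := by
    have h1 : AnalyticAt ℂ (fun t : ℂ => a + t • v) 0 :=
      analyticAt_const.add (analyticAt_id.smul analyticAt_const)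
    refine AnalyticAt.fun_comp (g := h) (f := fun t : ℂ => a + t • v) ?_ h1
    simpa using ha
  have hne := (hg.eventually_eq_zero_or_eventually_ne_zero).resolve_left hv
  rw [eventually_nhdsWithin_iff] at hne
  obtain ⟨δ, hδ, hbδ⟩ := Metric.eventually_nhds_iff_ball.1
    (hne.and (hmap.eventually (Metric.ball_mem_nhds a hR)))
  set δ' := δ / 2 with hδ'
  have hδ'0 : 0 < δ' := by positivity
  have hin : ∀ t ∈ Metric.closedBall (0 : ℂ) δ', t ∈ Metric.ball (0 : ℂ) δ := fun t ht =>
    lt_of_le_of_lt (Metric.mem_closedBall.1 ht) (by linarith)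
  have hball : ∀ t ∈ Metric.closedBall (0 : ℂ) δ', a + t • v ∈ Metric.ball a R := fun t ht =>
    (hbδ t (hin t ht)).2
  -- minimum on the circle
  have hcirc : IsCompact (Metric.sphere (0 : ℂ) δ') := isCompact_sphere _ _
  have hcont : ContinuousOn (fun t : ℂ => ‖h (a + t • v)‖) (Metric.sphere (0 : ℂ) δ') := by
    intro t ht
    have h1 := (hb _ (hball t (Metric.sphere_subset_closedBall ht))).1.continuousAt
    have h2 : ContinuousAt (fun t : ℂ => a + t • v) t := by fun_prop
    exact (ContinuousAt.comp (g := h) (f := fun t : ℂ => a + t • v) h1 h2).norm.continuousWithinAt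
  obtain ⟨t₀, ht₀, hmin⟩ := hcirc.exists_isMinOn
    (NormedSpace.sphere_nonempty.2 hδ'0.le) hcont
  set m := ‖h (a + t₀ • v)‖ with hm
  have hm0 : 0 < m := by
    rw [hm, norm_pos_iff]
    refine (hbδ t₀ (hin _ (Metric.sphere_subset_closedBall ht₀))).1 ?_
    intro h1
    have : t₀ = 0 := h1
    rw [this] at ht₀
    simp at ht₀
    linarith
  -- uniformity
  have e1 : ∀ᶠ y in 𝓝 a, ∀ t ∈ Metric.sphere (0 : ℂ) δ', m / 2 < ‖h (y + t • v)‖ := by
    refine hcirc.eventually_forall_of_forall_eventually fun t ht => ?_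
    have h1 := (hb _ (hball t (Metric.sphere_subset_closedBall ht))).1.continuousAt
    have h2 : ContinuousAt (fun p : E × ℂ => ‖h (p.1 + p.2 • v)‖) (a, t) := by
      refine ContinuousAt.norm ?_
      exact ContinuousAt.comp (g := h) (f := fun p : E × ℂ => p.1 + p.2 • v) h1 hlin.continuousAt
    have h3 : m / 2 < ‖h (a + t • v)‖ := lt_of_lt_of_le (by linarith) (hmin ht)
    exact h2.eventually (lt_mem_nhds h3)
  have e2 : ∀ᶠ y in 𝓝 a, ∀ t ∈ Metric.closedBall (0 : ℂ) δ', y + t • v ∈ Metric.ball a R := by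
    refine (isCompact_closedBall _ _).eventually_forall_of_forall_eventually fun t ht => ?_
    exact hlin.continuousAt.eventually (Metric.isOpen_ball.mem_nhds (hball t ht))
  have e3 : ∀ᶠ y in 𝓝 a, ‖h y‖ < m / 2 := by
    have h1 : ContinuousAt (fun y => ‖h y‖) a := ha.continuousAt.norm
    have h2 : ‖h a‖ < m / 2 := by rw [h0, norm_zero]; positivity
    exact h1.eventually (gt_mem_nhds h2)
  filter_upwards [e1, e2, e3] with y h1 h2 h3
  by_contra hcon
  push Not at hcon
  have hnz : ∀ t ∈ Metric.closedBall (0 : ℂ) δ', h (y + t • v) ≠ 0 := fun t ht =>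
    hcon t (hb _ (h2 t ht)).2
  have han : ∀ t ∈ Metric.closedBall (0 : ℂ) δ', DifferentiableAt ℂ (fun t => (h (y + t • v))⁻¹) t := by
    intro t ht
    have h4 : AnalyticAt ℂ (fun t : ℂ => y + t • v) t :=
      analyticAt_const.add (analyticAt_id.smul analyticAt_const)
    have h5 : AnalyticAt ℂ (fun t : ℂ => h (y + t • v)) t :=
      AnalyticAt.fun_comp (g := h) (f := fun t : ℂ => y + t • v) (hb _ (h2 t ht)).1 h4
    exact (h5.inv (hnz t ht)).differentiableAt
  have hd : DiffContOnCl ℂ (fun t => (h (y + t • v))⁻¹) (Metric.ball (0 : ℂ) δ') := by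
    refine DifferentiableOn.diffContOnCl ?_
    rw [closure_ball _ hδ'0.ne']
    exact fun t ht => (han t ht).differentiableWithinAt
  have h6 := Complex.norm_le_of_forall_mem_frontier_norm_le Metric.isBounded_ball hd
    (C := 2 / m) (z := 0) (fun t ht => ?_) (subset_closure (Metric.mem_ball_self hδ'0))
  · rw [zero_smul, add_zero, norm_inv] at h6
    have h7 : h y ≠ 0 := by
      have := hnz 0 (Metric.mem_closedBall_self hδ'0.le)
      simpa using this
    have h8 : 0 < ‖h y‖ := norm_pos_iff.2 h7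
    rw [inv_le_comm₀ h8 (by positivity), inv_div] at h6
    linarith
  · rw [frontier_ball _ hδ'0.ne'] at ht
    have h9 := h1 t ht
    rw [norm_inv, inv_le_comm₀ (by linarith) (by positivity), inv_div]
    exact h9.le

variable [FiniteDimensional ℂ E]

/-- powers of the members of a primitive pair have no common factor -/
theorem no_common {w : E → Fin 2 → ℂ} {a : E} (hw : Prim w a) {q : ℕ} (hq : 0 < q)
    {h f g : E → ℂ} (hh : AnalyticAt ℂ h a)
    (hf : ∀ᶠ x in 𝓝 a, w x 0 ^ q = h x * f x ∧ w x 1 ^ q = h x * g x) : h a ≠ 0 := by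
  intro h0
  have hne : ¬ ∀ᶠ x in 𝓝 a, h x = 0 := by
    intro hz
    apply hw.ne
    filter_upwards [hz, hf] with x h1 h2
    rw [h1, zero_mul, zero_mul] at h2
    funext k
    fin_cases k
    · exact pow_eq_zero_iff hq.ne' |>.1 h2.1
    · exact pow_eq_zero_iff hq.ne' |>.1 h2.2
  obtain ⟨j₀, hj₀⟩ := H508.ne_iff.1 hw.ne
  obtain ⟨v, hv⟩ := H508.exists_line (J := Bool) (f := fun b x => if b then h x else w x j₀) (a := a)
    (fun b => by cases b; exacts [by simpa using H508.an_comp hw.an j₀, by simpa using hh])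
    (fun b => by cases b; exacts [by simpa using hj₀, by simpa using hne])
  have hv1 : ¬ ∀ᶠ t in 𝓝 (0 : ℂ), h (a + t • v) = 0 := by simpa using hv true
  have hv2 : ¬ ∀ᶠ t in 𝓝 (0 : ℂ), w (a + t • v) j₀ = 0 := by simpa using hv false
  obtain ⟨r, A, hr, hA, hrel, hrne, hinv⟩ := H508.slice hw hv2
  apply hrne
  have hU : {x | r x = ∑ j, A j x * w x j ∧ (w x 0 ^ q = h x * f x ∧ w x 1 ^ q = h x * g x)} ∈ 𝓝 a :=
    hrel.and hf
  filter_upwards [hurwitz hh h0 hv1 hU] with y hy
  obtain ⟨t, ⟨h1, h2⟩, h3⟩ := hy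
  rw [h3, zero_mul, zero_mul] at h2
  rw [← hinv y t, h1, Fin.sum_univ_two, pow_eq_zero_iff hq.ne' |>.1 h2.1,
    pow_eq_zero_iff hq.ne' |>.1 h2.2]
  ring

end germs

section pencil

variable {d : ℕ} {X : Type} [TopologicalSpace X] [ChartedSpace (Cm d) X]
  {w w0 s a b θ : Chart d X → Cm d → Matrix (Fin d) (Fin d) ℂ} {e e' : Chart d X} {x : X}
  {A : Type} [Fintype A] [DecidableEq A] {ι : Type}
  {L : LineBundle d X ι} {Λ : Chart d X → Chart d X → X → Matrix A A ℂ}
  {ρ : ι → X → ℝ} {mm : Fin 2 → ℕ}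
  {σ : Fin 2 → ι → Chart d X → Cm d → A → ℂ} {κ : ℝ}

/-- the sections `f` and `g` of a power of `L` have no common factor at any point: their divisors
have no common component -/
def NoCommonFactor (L : LineBundle d X ι) (f g : ι → X → ℂ) : Prop :=
  ∀ i (e : Chart d X) x, At e x → x ∈ L.U i → ∀ h a b : Cm d → ℂ, AnalyticAt ℂ h (e x) →
    (∀ᶠ z in 𝓝 (e x), f i (e.symm z) = h z * a z ∧ g i (e.symm z) = h z * b z) → h (e x) ≠ 0

/-- `L^k` has two linearly independent sections whose divisors have no common component. -/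
def HasMobilePair (L : LineBundle d X ι) (k : ℕ) : Prop :=
  ∃ f g : ι → X → ℂ, IsSecPow L k f ∧ IsSecPow L k g ∧
    (∀ α β : ℂ, (∀ i x, x ∈ L.U i → α * f i x + β * g i x = 0) → α = 0 ∧ β = 0) ∧
      NoCommonFactor L f g

variable [IsManifold 𝓘(ℂ, Cm d) ω X] [T2Space X] [CompactSpace X] [ConnectedSpace X]
  {ρW : X → X → ℝ} [SimplyConnectedSpace X]

/-- **Theorem SPECIAL.** Two proportional but linearly independent sections of `V ⊗ L^m` give a
pencil without fixed divisor in a positive power of `L`. -/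
theorem special_mobile (hd : 0 < d) (h : IsSymplectic d X w0 s) (hΛ : IsNeg Λ) (hρ : IsMetric L ρ)
    (hn : IsNef w0 (curvature L ρ)) (hq : q s (curvature L ρ) (curvature L ρ) = 0)
    (hnex : ¬ IsExact (curvature L ρ)) (hσ : ∀ k, IsSec L Λ (mm k) (σ k))
    (hprop : ∀ k l, Prop2 L (σ k) (σ l)) (hne : ∀ k, ∃ x, Nz L (σ k) x) (hmm : mm 1 = mm 0)
    (hind : ∀ α β : ℂ, (∀ i e x, At e x → x ∈ L.U i →
      α • σ 0 i e (e x) + β • σ 1 i e (e x) = 0) → α = 0 ∧ β = 0) :
    ∃ k, 0 < k ∧ HasMobilePair L k := by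
  obtain ⟨P⟩ := H508.exists_movingPart L hΛ.cont mm σ hσ hprop ⟨0, hne 0⟩
  obtain ⟨ρW, hW⟩ := exists_metric P.W
  obtain ⟨t, ht, ht0, u, hu, hc⟩ := mp_class hd h P hΛ hρ hn hq hnex hW hne
  have hT := isMetric_tens (i := P.i) (h := P.sub) (m := mm 0) hW hρ
  have hsc : SameClass (curvature (tens P.W L P.i P.sub (mm 0))
      (fun a z => ρW a z + mm 0 * ρ (P.i a) z)) (fun e z => ((t + mm 0 : ℝ) : ℂ) • curvature L ρ e z) := by
    refine ⟨u, hu, fun e x hx => ?_⟩
    rw [curvature_tens hW hρ hx, hc e x hx]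
    push_cast
    rw [add_smul]
    abel
  obtain ⟨n, a, hn0, hna, hiso, hiso1, hiso2⟩ := ratio_of_intX hρ hT hsc
    (INT.IsKahler.isClosedForm h.kahler) (fun e x hx => (h.kahler.posDef e x hx).isHermitian)
    (intX_ne hd h hρ hn hnex)
  have ha0 : 0 ≤ a := by
    have h1 : (0 : ℝ) ≤ t + mm 0 := by linarith [ht 0]
    have h3 : (0 : ℝ) ≤ a := by
      rw [hna]
      exact mul_nonneg (by exact_mod_cast hn0.le) h1
    exact_mod_cast h3
  obtain ⟨b, rfl⟩ := Int.eq_ofNat_of_zero_le ha0
  -- relations for the components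
  have hch : ∀ x x' y, y ∈ P.W.U x → y ∈ P.W.U x' → ∀ k,
      P.t x y k = (P.W.g x x' y * L.g (P.i x) (P.i x') y ^ mm 0) * P.t x' y k := by
    intro x x' y hx hx' k
    have h1 : mm k = mm 0 := by fin_cases k; exacts [rfl, hmm]
    have := P.ch x x' y hx hx' k
    rwa [h1] at this
  have htA : ∀ k x (e : Chart d X) y, At e y → y ∈ P.W.U x →
      AnalyticAt ℂ (fun z => P.t x (e.symm z) k) (e y) := fun k x e y hy hx => t_holo P k x hy hx
  -- independence of the `t k`
  have htind : ∀ α β : ℂ, (∀ x y, y ∈ P.W.U x → α * P.t x y 0 + β * P.t x y 1 = 0) →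
      α = 0 ∧ β = 0 := by
    intro α β hαβ
    refine hind α β fun i e x hx hi => ?_
    -- compare with the frame `P.i x` at the point `x`
    have e1 : ∀ k, σ k i e (e x) = L.g i (P.i x) x ^ mm 0 • σ k (P.i x) e (e x) := by
      intro k
      have h1 : mm k = mm 0 := by fin_cases k; exacts [rfl, hmm]
      have := (hσ k).chL i (P.i x) e x hx hi (P.sub x (P.mem x))
      rwa [h1] at this
    rw [e1, e1]
    funext c
    have f0 := P.fac x e x hx (P.mem x) 0 c
    have f1 := P.fac x e x hx (P.mem x) 1 c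
    simp only [Pi.add_apply, Pi.smul_apply, smul_eq_mul, Pi.zero_apply]
    rw [f0, f1]
    have := hαβ x x (P.mem x)
    linear_combination (L.g i (P.i x) x ^ mm 0 * P.τ x e (e x) c) * this
  -- `t 0` does not vanish on a dense open set
  have hdense : ∀ x y, y ∈ P.W.U x → ∃ᶠ z in 𝓝 y, z ∈ P.W.U x ∧ P.t x z 0 ≠ 0 := by
    intro x y hy
    have h1 := (isSec_tsec P 0).dense (nz_tsec P (hne 0))
    rw [frequently_nhds_iff]
    intro U hyU hU
    obtain ⟨z, hz, hz2⟩ := h1.inter_open_nonempty (U ∩ P.W.U x) (hU.inter (P.W.isOpen x)) ⟨y, hyU, hy⟩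
    have he := AMP.at_chartAt (n := d) z
    refine ⟨z, hz.1, hz.2, fun h0 => hz2 x _ he hz.2 ?_⟩
    funext a
    show P.t x ((chartAt (Cm d) z).symm (chartAt (Cm d) z z)) 0 = 0
    rw [(chartAt (Cm d) z).left_inv he.2, h0]
  -- continuity of `t k` on `X`
  have htc : ∀ k x y, y ∈ P.W.U x → ContinuousAt (fun z => P.t x z k) y := by
    intro k x y hy
    have he := AMP.at_chartAt (n := d) y
    have h1 : ContinuousAt (fun z => (fun z' => P.t x ((chartAt (Cm d) y).symm z') k)
        (chartAt (Cm d) y z)) y :=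
      ContinuousAt.comp (g := fun z' => P.t x ((chartAt (Cm d) y).symm z') k)
        (htA k x _ y he hy).continuousAt ((chartAt (Cm d) y).continuousAt he.2)
    refine h1.congr ?_
    filter_upwards [(chartAt (Cm d) y).open_source.mem_nhds he.2] with z hz
    rw [(chartAt (Cm d) y).left_inv hz]
  have hlin : ∀ α β : ℂ, (∀ x y, y ∈ P.W.U x → P.t x y 0 ≠ 0 →
      α * P.t x y 0 + β * P.t x y 1 = 0) → α = 0 ∧ β = 0 := by
    intro α β hαβ
    refine htind α β fun x y hy => ?_
    have hcy : ContinuousAt (fun z => α * P.t x z 0 + β * P.t x z 1) y :=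
      (continuousAt_const.mul (htc 0 x y hy)).add (continuousAt_const.mul (htc 1 x y hy))
    have h1 := H724.eq_zero_of_freq (h := fun z => α * P.t x z 0 + β * P.t x z 1) hcy
      ((hdense x y hy).mono fun z hz => hαβ x z hz.1 hz.2)
    exact h1
  have hx00 : ∃ x0, P.t x0 x0 0 ≠ 0 := by
    obtain ⟨x0, hx0⟩ := nz_tsec P (hne 0)
    have he0 := AMP.at_chartAt (n := d) x0
    refine ⟨x0, fun h0 => hx0 x0 _ he0 (P.mem x0) ?_⟩
    funext a
    show P.t x0 ((chartAt (Cm d) x0).symm (chartAt (Cm d) x0 x0)) 0 = 0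
    rw [(chartAt (Cm d) x0).left_inv he0.2, h0]
  -- `t 0` has zeros
  have hnv : ¬ ∀ x y, y ∈ P.W.U x → P.t x y 0 ≠ 0 := by
    intro htnz
    obtain ⟨x0, ht00⟩ := hx00
    set r : X → ℂ := fun y => P.t y y 1 / P.t y y 0 with hr
    have hrx : ∀ x y, y ∈ P.W.U x → r y = P.t x y 1 / P.t x y 0 := by
      intro x y hy
      have e1 := hch y x y (P.mem y) hy
      have e2 := htnz x y hy
      have e3 : P.W.g y x y * L.g (P.i y) (P.i x) y ^ mm 0 ≠ 0 :=
        (tens P.W L P.i P.sub (mm 0)).ne_zero y x y (P.mem y) hy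
      rw [hr]
      simp only
      rw [e1 1, e1 0, mul_div_mul_left _ _ e3]
    have hrh : ∀ y, H949.Hol d r y := by
      intro y e he
      have h1 : AnalyticAt ℂ (fun z => P.t y (e.symm z) 1 / P.t y (e.symm z) 0) (e y) := by
        refine (htA 1 y e y he (P.mem y)).div (htA 0 y e y he (P.mem y)) ?_
        rw [e.left_inv he.2]
        exact htnz y y (P.mem y)
      refine h1.congr ?_
      filter_upwards [H949.nhds_symm he ((P.W.isOpen y).mem_nhds (P.mem y))] with z hz
      exact (hrx y _ hz).symm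
    have hrc := hol_const (d := d) hrh
    have := hlin (r x0) (-1) fun x y hy hty => by
      rw [hrc x0 y, hrx x y hy]
      field_simp
      ring
    have h2 := this.2
    norm_num at h2
  have hF : ∀ k, ∃ f : ι → X → ℂ, IsSecPow L b f ∧
      ∀ x i y, y ∈ P.W.U x → y ∈ L.U i →
        f i y = P.t x y k ^ n / hiso x i y := fun k =>
    isSecPow_of_iso (q := n) hiso1 hiso2 (F := fun x y => P.t x y k ^ n)
    (fun x e y hy hx => (htA k x e y hy hx).pow n) (fun x x' y hx hx' => by
      show P.t x y k ^ n = (P.W.g x x' y * L.g (P.i x) (P.i x') y ^ mm 0) ^ n * P.t x' y k ^ n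
      rw [hch x x' y hx hx' k, mul_pow])
  obtain ⟨f, hf, hfe⟩ := hF 0
  obtain ⟨g, hg, hge⟩ := hF 1
  have hbp : 0 < b := by
    rcases Nat.eq_zero_or_pos b with rfl | hb
    swap
    · exact hb
    exfalso
    apply hnv
    obtain ⟨x0, ht00⟩ := hx00
    choose c hc' using L.cover
    have hglob : ∀ i y, y ∈ L.U i → f i y = f (c y) y := by
      intro i y hi
      have := hf.change i (c y) y hi (hc' y)
      rwa [pow_zero, one_mul] at this
    have hfconst : ∀ y y' : X, f (c y) y = f (c y') y' := by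
      refine hol_const (d := d) (f := fun y => f (c y) y) fun y e he => ?_
      refine (hf.holo (c y) e y he (hc' y)).congr ?_
      filter_upwards [H949.nhds_symm he ((L.isOpen (c y)).mem_nhds (hc' y))] with z hz
      exact hglob _ _ hz
    have hf0 : f (c x0) x0 ≠ 0 := by
      rw [hfe x0 (c x0) x0 (P.mem x0) (hc' x0)]
      exact div_ne_zero (pow_ne_zero _ ht00) (hiso1 x0 (c x0) x0 (P.mem x0) (hc' x0)).2
    intro x y hy h0
    apply hf0
    rw [hfconst x0 y, hfe x (c y) y hy (hc' y), h0, zero_pow hn0.ne', zero_div]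
  -- no common factor
  have hcop : NoCommonFactor L f g := by
    intro i e x hx hi h a b' hh hab
    refine no_common (P.prim x x (P.mem x) e hx) hn0 (f := fun z => hiso x i (e.symm z) * a z)
      (g := fun z => hiso x i (e.symm z) * b' z) hh ?_
    filter_upwards [hab, H949.nhds_symm hx ((P.W.isOpen x).mem_nhds (P.mem x)),
      H949.nhds_symm hx ((L.isOpen i).mem_nhds hi)] with z h1 h2 h3
    have h4 := (hiso1 x i _ h2 h3).2
    have h5 := hfe x i _ h2 h3
    have h6 := hge x i _ h2 h3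
    constructor
    · rw [h1.1, eq_div_iff h4] at h5
      rw [← h5]; ring
    · rw [h1.2, eq_div_iff h4] at h6
      rw [← h6]; ring
  refine ⟨b, hbp, f, g, hf, hg, fun α β hαβ => ?_, hcop⟩
  have hβ : β = 0 := by
    by_contra hβ
    apply hnv
    intro x y hy h0
    obtain ⟨i, hi⟩ := L.cover y
    have he := AMP.at_chartAt (n := d) y
    have h1 := hcop i _ y he hi (fun z => f i ((chartAt (Cm d) y).symm z)) (fun _ => 1)
      (fun _ => -(α / β)) (hf.holo i _ y he hi) (by
        filter_upwards [H949.nhds_symm he ((L.isOpen i).mem_nhds hi)] with z hz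
        refine ⟨(mul_one _).symm, ?_⟩
        have := hαβ i _ hz
        field_simp
        linear_combination this)
    apply h1
    show f i ((chartAt (Cm d) y).symm (chartAt (Cm d) y y)) = 0
    rw [(chartAt (Cm d) y).left_inv he.2, hfe x i y hy hi, h0, zero_pow hn0.ne', zero_div]
  refine ⟨?_, hβ⟩
  by_contra hα
  obtain ⟨x0, ht00⟩ := hx00
  obtain ⟨i, hi⟩ := L.cover x0
  have h1 := hαβ i x0 hi
  rw [hβ, zero_mul, add_zero] at h1
  have h2 := (mul_eq_zero.1 h1).resolve_left hα
  rw [hfe x0 i x0 (P.mem x0) hi] at h2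
  exact div_ne_zero (pow_ne_zero _ ht00) (hiso1 x0 i x0 (P.mem x0) hi).2 h2

end pencil

end Vale.Agent.P301.H450
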