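import Vale.Agent.P301.H450.Kap
import Vale.Agent.P301.H450.Mobile
import Vale.Agent.P301.H98.Two

/-!
# P301: one step of the effective argument
-/

open scoped Manifold ContDiff ComplexOrder Topology Matrix
open MeasureTheory Set Filter
open Vale.Agent.P272.K Vale.Agent.P272.K.C2 Vale.Agent.P272.K.AMP
open Vale.Agent.P299 Vale.Agent.P299.H954 Vale.Agent.P299.H937 Vale.Agent.P301.H599
open Vale.Agent.P272.K.INT (IsClosedForm IsDensity intX)
open Vale.Agent.P301.H724 (IsSec Nz Prop2 HasSec lamPow LinInd wedge)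
open Vale.Agent.P301.H508 (MovingPart tens invL PrimX Prim)
open Vale.Agent.P301.H897 (LamF)

set_option linter.all false

noncomputable section

namespace Vale.Agent.P301.H450

variable {d : ℕ} {X : Type} [TopologicalSpace X] [ChartedSpace (Cm d) X]
  {w w0 s a b θ : Chart d X → Cm d → Matrix (Fin d) (Fin d) ℂ} {e e' : Chart d X} {x : X}
  {A : Type} [Fintype A] [DecidableEq A] {ι : Type}
  {L : LineBundle d X ι} {Λ : Chart d X → Chart d X → X → Matrix A A ℂ}
  {ρ : ι → X → ℝ} {mm : Fin 2 → ℕ}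
  {σ : Fin 2 → ι → Chart d X → Cm d → A → ℂ} {κ : ℝ}

/-- a line bundle of class `τ c₁(L)` with a nonzero section, `0 < τ ≤ M` -/
def HasFrac (L : LineBundle d X ι) (ρ : ι → X → ℝ) (M : ℝ) : Prop :=
  ∃ (κ : Type) (P : LineBundle d X κ) (ρP : κ → X → ℝ) (τ : ℝ) (f : κ → X → ℂ),
    IsMetric P ρP ∧ 0 < τ ∧ τ ≤ M ∧
      SameClass (curvature P ρP) (fun e z => (τ : ℂ) • curvature L ρ e z) ∧
      IsSecPow P 1 f ∧ ∃ k x, x ∈ P.U k ∧ f k x ≠ 0

theorem HasFrac.mono {M M' : ℝ} (h : HasFrac L ρ M) (hM : M ≤ M') : HasFrac L ρ M' := by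
  obtain ⟨κ, P, ρP, τ, f, h1, h2, h3, h4⟩ := h
  exact ⟨κ, P, ρP, τ, f, h1, h2, h3.trans hM, h4⟩

/-- `P` has class `τ c₁(L)`, `0 < τ ≤ M`, and a pencil without fixed divisor -/
def HasFracPair (L : LineBundle d X ι) (ρ : ι → X → ℝ) (M : ℝ) : Prop :=
  ∃ (κ : Type) (P : LineBundle d X κ) (ρP : κ → X → ℝ) (τ : ℝ) (f : Fin 2 → κ → X → ℂ),
    IsMetric P ρP ∧ 0 ≤ τ ∧ τ ≤ M ∧
      SameClass (curvature P ρP) (fun e z => (τ : ℂ) • curvature L ρ e z) ∧
      (∀ j, IsSecPow P 1 (f j)) ∧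
      (∀ α β : ℂ, (∀ i x, x ∈ P.U i → α * f 0 i x + β * f 1 i x = 0) → α = 0 ∧ β = 0) ∧
      ∀ k (e : Chart d X) x, At e x → x ∈ P.U k → Prim (fun z j => f j k (e.symm z)) (e x)

variable [IsManifold 𝓘(ℂ, Cm d) ω X] [T2Space X] [CompactSpace X] [ConnectedSpace X]
  {ρW : X → X → ℝ}

/-- The moving part of a proportional pair. -/
theorem special_class (hd : 0 < d) (h : IsSymplectic d X w0 s) (hΛ : IsNeg Λ) (hρ : IsMetric L ρ)
    (hn : IsNef w0 (curvature L ρ)) (hq : q s (curvature L ρ) (curvature L ρ) = 0)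
    (hnex : ¬ IsExact (curvature L ρ)) (hσ : ∀ k, IsSec L Λ (mm k) (σ k))
    (hprop : ∀ k l, Prop2 L (σ k) (σ l)) (hne : ∀ k, ∃ x, Nz L (σ k) x) (hmm : mm 1 < mm 0) :
    HasFrac L ρ (mm 0) := by
  obtain ⟨P⟩ := H508.exists_movingPart L hΛ.cont mm σ hσ hprop ⟨0, hne 0⟩
  obtain ⟨ρW, hW⟩ := exists_metric P.W
  obtain ⟨t, ht, ht0, u, hu, hc⟩ := mp_class hd h P hΛ hρ hn hq hnex hW hne
  have hT := isMetric_tens (i := P.i) (h := P.sub) (m := mm 0) hW hρ
  refine ⟨X, tens P.W L P.i P.sub (mm 0), _, t + mm 0, fun x y => P.t x y 0, hT, ?_, ?_,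
    ⟨u, hu, fun e x hx => ?_⟩, ⟨fun x e y hy hx => t_holo P 0 x hy hx,
      fun x x' y hx hx' => ?_⟩, ?_⟩
  · have := ht 1
    have h2 : (mm 1 : ℝ) < mm 0 := by exact_mod_cast hmm
    linarith
  · linarith
  · rw [curvature_tens hW hρ hx, hc e x hx]
    push_cast
    rw [add_smul]
    abel
  · rw [pow_one]
    exact P.ch x x' y hx hx' 0
  · obtain ⟨x, hx⟩ := nz_tsec P (hne 0)
    have he := AMP.at_chartAt (n := d) x
    refine ⟨x, x, P.mem x, fun h0 => ?_⟩
    apply hx x _ he (P.mem x)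
    funext a
    show P.t x ((chartAt (Cm d) x).symm (chartAt (Cm d) x x)) 0 = 0
    rw [(chartAt (Cm d) x).left_inv he.2]
    exact h0

/-- The moving part of a pencil. -/
theorem special_class_two (hd : 0 < d) (h : IsSymplectic d X w0 s) (hΛ : IsNeg Λ)
    (hρ : IsMetric L ρ) (hn : IsNef w0 (curvature L ρ))
    (hq : q s (curvature L ρ) (curvature L ρ) = 0)
    (hnex : ¬ IsExact (curvature L ρ)) (hσ : ∀ k, IsSec L Λ (mm k) (σ k))
    (hprop : ∀ k l, Prop2 L (σ k) (σ l)) (hne : ∀ k, ∃ x, Nz L (σ k) x) (hmm : mm 1 = mm 0)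
    (hind : ∀ α β : ℂ, (∀ i e x, At e x → x ∈ L.U i →
      α • σ 0 i e (e x) + β • σ 1 i e (e x) = 0) → α = 0 ∧ β = 0) :
    HasFracPair L ρ (mm 0) := by
  obtain ⟨P⟩ := H508.exists_movingPart L hΛ.cont mm σ hσ hprop ⟨0, hne 0⟩
  obtain ⟨ρW, hW⟩ := exists_metric P.W
  obtain ⟨t, ht, ht0, u, hu, hc⟩ := mp_class hd h P hΛ hρ hn hq hnex hW hne
  have hT := isMetric_tens (i := P.i) (h := P.sub) (m := mm 0) hW hρ
  have hch : ∀ x x' y, y ∈ P.W.U x → y ∈ P.W.U x' → ∀ k,
      P.t x y k = (P.W.g x x' y * L.g (P.i x) (P.i x') y ^ mm 0) * P.t x' y k := by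
    intro x x' y hx hx' k
    have h1 : mm k = mm 0 := by fin_cases k; exacts [rfl, hmm]
    have := P.ch x x' y hx hx' k
    rwa [h1] at this
  refine ⟨X, tens P.W L P.i P.sub (mm 0), _, t + mm 0, fun j x y => P.t x y j, hT, ?_, ?_,
    ⟨u, hu, fun e x hx => ?_⟩, fun j => ⟨fun x e y hy hx => t_holo P j x hy hx,
      fun x x' y hx hx' => ?_⟩, ?_, ?_⟩
  · linarith [ht 0]
  · linarith
  · rw [curvature_tens hW hρ hx, hc e x hx]
    push_cast
    rw [add_smul]
    abel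
  · rw [pow_one]
    exact hch x x' y hx hx' j
  · intro α β hαβ
    refine hind α β fun i e x hx hi => ?_
    have e1 : ∀ k, σ k i e (e x) = L.g i (P.i x) x ^ mm 0 • σ k (P.i x) e (e x) := by
      intro k
      have h1 : mm k = mm 0 := by fin_cases k; exacts [rfl, hmm]
      have := (hσ k).chL i (P.i x) e x hx hi (P.sub x (P.mem x))
      rwa [h1] at this
    rw [e1, e1]
    funext c
    have f0 := P.fac x e x hx (P.mem x) 0 c
    have f1 := P.fac x e x hx (P.mem x) 1 c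
    simp only [Pi.add_apply, Pi.smul_apply, smul_eq_mul, Pi.zero_apply]
    rw [f0, f1]
    have := hαβ x x (P.mem x)
    linear_combination (L.g i (P.i x) x ^ mm 0 * P.τ x e (e x) c) * this
  · intro k e x hx hk
    exact P.prim k x hk e hx

/-- the weights -/
def wts (d : ℕ) : ℕ → ℕ
  | 0 => 1
  | j + 1 => (d + 1) * wts d j + 1

theorem wts_pos (d j : ℕ) : 1 ≤ wts d j := by
  cases j <;> simp [wts]

theorem wts_lt {d i j : ℕ} (h : i < j) : (d + 1) * wts d i < wts d j := by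
  induction j with
  | zero => omega
  | succ j ih =>
    show (d + 1) * wts d i < (d + 1) * wts d j + 1
    rcases Nat.lt_succ_iff_lt_or_eq.1 h with h1 | rfl
    · have h2 := ih h1
      have h3 : wts d j ≤ (d + 1) * wts d j := Nat.le_mul_of_pos_left _ (Nat.succ_pos d)
      omega
    · omega

/-- the bound -/
def Mb (d : ℕ) : ℕ := ∑ j ∈ Finset.range ((d + 1) * d ^ d + 1), (d + 1) * wts d j

/-- holomorphic forms with values in `L^{m k}` for some `1 ≤ m ≤ d + 1`, for every `k ≥ 1` -/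
def FormsFor (L : LineBundle d X ι) : Prop :=
  ∀ k, 1 ≤ k → ∃ m p : ℕ, 1 ≤ m ∧ m ≤ d + 1 ∧ p ≤ d ∧
    ∃ v : ι → Chart d X → Cm d → Finset (Fin d) → ℂ, IsSec L LamF (m * k) v ∧
      (∀ i e x, At e x → x ∈ L.U i → ∀ K : Finset (Fin d), K.card ≠ p → v i e (e x) K = 0) ∧
      ∃ x, Nz L v x

/-- **One step.** -/
theorem exists_frac (hd : 0 < d) (h : IsSymplectic d X w0 s) (hρ : IsMetric L ρ)
    (hn : IsNef w0 (curvature L ρ)) (hq : q s (curvature L ρ) (curvature L ρ) = 0)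
    (hnex : ¬ IsExact (curvature L ρ)) (hF : FormsFor L) : HasFrac L ρ (Mb d) := by
  classical
  have hF' : ∀ j : ℕ, ∃ (m : ℕ) (p : Fin (d + 1)), wts d j ≤ m ∧ m ≤ (d + 1) * wts d j ∧
      ∃ v : ι → Chart d X → Cm d → Finset (Fin d) → ℂ, IsSec L LamF m v ∧
        (∀ i e x, At e x → x ∈ L.U i → ∀ K : Finset (Fin d), K.card ≠ p → v i e (e x) K = 0) ∧
        ∃ x, Nz L v x := by
    intro j
    obtain ⟨m, p, h1, h2, h3, v, h4⟩ := hF (wts d j) (wts_pos d j)
    refine ⟨m * wts d j, ⟨p, Nat.lt_succ_of_le h3⟩, Nat.le_mul_of_pos_left _ h1,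
      Nat.mul_le_mul_right _ h2, v, h4⟩
  choose m p hm1 hm2 v hv hom hne using hF'
  -- pigeonhole
  set J := (d + 1) * d ^ d + 1 with hJ
  obtain ⟨p₀, hp₀⟩ := Fintype.exists_lt_card_fiber_of_mul_lt_card (fun j : Fin J => p j)
    (n := d ^ d) (by rw [Fintype.card_fin, Fintype.card_fin]; omega)
  obtain ⟨T, hT, hTc⟩ := Finset.exists_subset_card_eq (Nat.succ_le_of_lt hp₀)
  set R := d ^ d + 1 with hR
  have hTc' : T.card = R := hTc
  set φ : Fin R ↪o Fin J := T.orderEmbOfFin hTc' with hφ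
  have hφT : ∀ j, p (φ j) = p₀ := by
    intro j
    have h1 := T.orderEmbOfFin_mem hTc' j
    have h2 := hT h1
    simpa using h2
  have hcard : Fintype.card (Fin p₀ → Fin d) < R := by
    rw [Fintype.card_fun, Fintype.card_fin, Fintype.card_fin]
    have h1 : (p₀ : ℕ) ≤ d := Nat.le_of_lt_succ p₀.2
    have := Nat.pow_le_pow_right hd h1
    omega
  have hinj : Function.Injective fun j : Fin R => m (φ j) := by
    intro i j hij
    by_contra hne
    rcases lt_or_gt_of_ne hne with h1 | h1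
    · have h2 : ((φ i : Fin J) : ℕ) < φ j := φ.strictMono h1
      have h3 := wts_lt (d := d) h2
      have h4 := hm2 (φ i)
      have h5 := hm1 (φ j)
      simp only at hij
      omega
    · have h2 : ((φ j : Fin J) : ℕ) < φ i := φ.strictMono h1
      have h3 := wts_lt (d := d) h2
      have h4 := hm2 (φ j)
      have h5 := hm1 (φ i)
      simp only at hij
      omega
  obtain ⟨r, M₀, M₁, W₀, W₁, -, -, hM, hMle, hW0, hW1, hn0, hn1, hP⟩ := H98.exists_prop_two
    (L := L) (Λ := lamPow p₀ cot) hcard hinj (v := fun j => tenS p₀ (v (φ j)))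
    (fun j => isSec_tenS (hv (φ j)) p₀)
    (fun j => nz_tenS (hv (φ j)) (fun i e x he hi K hK => hom (φ j) i e x he hi K (by
      rw [hφT j]; exact hK)) (hne (φ j)))
  have key := special_class (mm := ![M₀, M₁]) (σ := ![W₀, W₁]) hd h ((isNeg_ten p₀).lamPow r) hρ hn
    hq hnex (fun k => ?_) (fun k l => ?_) (fun k => ?_) hM
  · refine key.mono ?_
    have h1 : M₀ ≤ Mb d := by
      refine hMle.trans ?_
      have h2 : ∑ j : Fin R, m (φ j) ≤ ∑ j : Fin R, (d + 1) * wts d (φ j) :=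
        Finset.sum_le_sum fun j _ => hm2 _
      have h3 : ∑ j : Fin R, (d + 1) * wts d (φ j) ≤ ∑ j : Fin J, (d + 1) * wts d j := by
        have h4 := Finset.sum_map Finset.univ φ.toEmbedding fun j : Fin J => (d + 1) * wts d j
        exact le_trans (le_of_eq h4.symm) (Finset.sum_le_sum_of_subset (Finset.subset_univ _))
      refine h2.trans (h3.trans (le_of_eq ?_))
      exact Fin.sum_univ_eq_sum_range (fun j => (d + 1) * wts d j) J
    show ((M₀ : ℕ) : ℝ) ≤ _
    exact_mod_cast h1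
  · fin_cases k
    · exact hW0
    · exact hW1
  · fin_cases k <;> fin_cases l
    · exact fun i e x he hi c c' => mul_comm _ _
    · exact hP
    · exact fun i e x he hi c c' => by
        have := hP i e x he hi c c'
        show W₁ i e (e x) c * W₀ i e (e x) c' = W₁ i e (e x) c' * W₀ i e (e x) c
        linear_combination -this
    · exact fun i e x he hi c c' => mul_comm _ _
  · fin_cases k
    · exact hn0
    · exact hn1

end Vale.Agent.P301.H450
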