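import Vale.Agent.P301.H450.EffCY
import Vale.Agent.P301.H724.Eff2
import Vale.Agent.P301.H599.BE.End4
import Vale.Agent.P301.H724.FinalN

/-!
# P301: effective theorems for line bundles with good Calabi-Yau approximations
-/

open scoped Manifold ContDiff ComplexOrder Topology Matrix ENNReal
open Filter Metric Set MeasureTheory

set_option linter.all false

noncomputable section

namespace Vale.Agent.P301.H450

open Vale.Agent.P272.K Vale.Agent.P299.IX
open Vale.Agent.P301.H599 Vale.Agent.P301.H862 Vale.Agent.P299.H954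
open Vale.Agent.P301.H724 (HasSec)

variable {d : ℕ} {X : Type} [TopologicalSpace X] [ChartedSpace (Cm d) X]
variable {ι κ : Type} {L : LineBundle d X ι} {Q : LineBundle d X κ}
variable [IsManifold 𝓘(ℂ, Cm d) ω X] [CompactSpace X] [T2Space X]
variable {w s : Fm d X} {ρ : ι → X → ℝ} {ρQ : κ → X → ℝ} {F : X → X} {r n m : ℕ}

/-- The approximations of `L` give approximations of the roots of `L`. -/
theorem IsRoot.cyApprox [ConnectedSpace X] [SimplyConnectedSpace X] (h : IsRoot L ρ r Q ρQ)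
    (hρ : IsMetric L ρ) {v : X → ℝ} (hv : Smooth (d := d) v)
    (hve : ∀ e x, At e x → (r : ℂ) • curvature Q ρQ e (e x) =
      curvature L ρ e (e x) + ddc v e (e x)) {H : ℝ} (hH : ∀ x, |v x| ≤ H)
    {δ C C₁ c₀ K ε : ℝ} {φ : X → ℝ} {τ : Fm d X}
    (hA : CYApprox F L ρ w n m δ C C₁ c₀ K ε φ τ) :
    CYApprox F Q ρQ w n m (δ / r) (C / r) ((C₁ + H) / r) c₀ K ε
      (fun x => (1 / r : ℝ) * (φ x - v x)) τ := by
  have hr : (0 : ℝ) < r := by exact_mod_cast h.pos
  have hrC : (r : ℂ) ≠ 0 := by exact_mod_cast h.pos.ne'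
  have hs := (hA.smooth.sub hv).const_mul (1 / r : ℝ)
  refine ⟨hs, hA.kahler, fun k e x hx hk => ?_, fun x => ?_, hA.det, hA.det_add, hA.tr⟩
  · obtain ⟨i, hi⟩ := L.cover x
    have h1 := hA.curv i e x hx hi
    have e1 : cHess (fun z => ρQ k (e.symm z) + (1 / r : ℝ) * (φ (e.symm z) - v (e.symm z)))
        (e x) = curvature Q ρQ e (e x) +
        ddc (fun x => (1 / r : ℝ) * (φ x - v x)) e (e x) := by
      rw [curvature_eq h.met hx hk]
      exact cHess_add ((h.met.smooth k e x hx hk).of_le (by norm_cast)) (hs.two e x hx)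
    have e2 : cHess (fun z => ρ i (e.symm z) + φ (e.symm z)) (e x) =
        curvature L ρ e (e x) + ddc φ e (e x) := by
      rw [curvature_eq hρ hx hi]
      exact cHess_add ((hρ.smooth i e x hx hi).of_le (by norm_cast)) (hA.smooth.two e x hx)
    have e3 : ddc (fun x => (1 / r : ℝ) * (φ x - v x)) e (e x) = ((1 / r : ℝ) : ℂ) •
        (ddc φ e (e x) - ddc v e (e x)) := by
      rw [ddc_const_mul (1 / r : ℝ) (hA.smooth.sub hv) e x hx]
      simp only
      rw [ddc_sub hA.smooth hv e x hx]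
    have e4 : curvature Q ρQ e (e x) = ((1 / r : ℝ) : ℂ) •
        (curvature L ρ e (e x) + ddc v e (e x)) := by
      rw [← hve e x hx, smul_smul]
      push_cast
      rw [one_div, inv_mul_cancel₀ hrC, one_smul]
    rw [e1, e3, e4]
    have h2 := h1.smul (a := ((1 / r : ℝ) : ℂ))
      (by exact_mod_cast (by positivity : (0 : ℝ) ≤ 1 / r))
    rw [e2] at h2
    have h5 : ((C / r * ε : ℝ) : ℂ) = ((1 / r : ℝ) : ℂ) * ((C * ε : ℝ) : ℂ) := by
      push_cast; ring
    have h6 : ((δ / r / m : ℝ) : ℂ) = ((1 / r : ℝ) : ℂ) * ((δ / m : ℝ) : ℂ) := by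
      push_cast; ring
    have h7 : ((1 / r : ℝ) : ℂ) • (curvature L ρ e (e x) + ddc v e (e x)) +
        ((1 / r : ℝ) : ℂ) • (ddc φ e (e x) - ddc v e (e x)) + ((C / r * ε : ℝ) : ℂ) • w e (e x) -
        ((δ / r / m : ℝ) : ℂ) • ∑ j ∈ Finset.range m, pull (F^[j]) τ e (e x) =
        ((1 / r : ℝ) : ℂ) • (curvature L ρ e (e x) + ddc φ e (e x) +
          ((C * ε : ℝ) : ℂ) • w e (e x) -
          ((δ / m : ℝ) : ℂ) • ∑ j ∈ Finset.range m, pull (F^[j]) τ e (e x)) := by
      rw [h5, h6, mul_smul, mul_smul]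
      simp only [smul_sub, smul_add]
      abel
    rw [h7]
    exact h2
  · have h1 := hA.upper x
    have h2 := (abs_le.1 (hH x)).1
    show (1 / r : ℝ) * (φ x - v x) ≤ (C₁ + H) / r
    rw [one_div, inv_mul_eq_div]
    exact div_le_div_of_nonneg_right (by linarith) hr.le

/-- The same for the statement. -/
theorem IsRoot.cy [ConnectedSpace X] [SimplyConnectedSpace X] (h : IsRoot L ρ r Q ρQ)
    (hρ : IsMetric L ρ) (hCY : ∀ p : ℝ, 0 ≤ p → CYStatement F L ρ w n m p) :
    ∀ p : ℝ, 0 ≤ p → CYStatement F Q ρQ w n m p := by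
  intro p hp
  have hr : (0 : ℝ) < r := by exact_mod_cast h.pos
  have hr1 : (1 : ℝ) ≤ r := by exact_mod_cast h.pos
  obtain ⟨v, hv, hve⟩ := h.cls
  obtain ⟨H, hH0, hH⟩ := H794.exists_abs_le hv
  obtain ⟨δ, C, C₁, c₀, K, hδ, hδ1, hC, hc₀, φ, τ, hA, hexp⟩ := hCY (p / r) (by positivity)
  refine ⟨δ / r, C / r, (C₁ + H) / r, c₀, K, by positivity, ?_, by positivity, hc₀,
    fun ε x => (1 / r : ℝ) * (φ ε x - v x), τ, fun ε h0 h1 =>
      h.cyApprox hρ hv hve hH (hA ε h0 h1), fun e he S hS hSe => ?_⟩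
  · rw [div_le_one hr]; exact hδ1.trans hr1
  · obtain ⟨B, hB, hBε⟩ := hexp e he S hS hSe
    refine ⟨ENNReal.ofReal (Real.exp (p / r * H)) * B, ENNReal.mul_ne_top (by simp) hB,
      fun ε h0 h1 => ?_⟩
    calc ∫⁻ z in S, ENNReal.ofReal (Real.exp (-(p * ((1 / r : ℝ) * (φ ε (e.symm z) -
          v (e.symm z))))))
        ≤ ∫⁻ z in S, ENNReal.ofReal (Real.exp (p / r * H)) *
          ENNReal.ofReal (Real.exp (-(p / r * φ ε (e.symm z)))) := by
          refine lintegral_mono fun z => ?_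
          rw [← ENNReal.ofReal_mul (Real.exp_pos _).le, ← Real.exp_add]
          refine ENNReal.ofReal_le_ofReal (Real.exp_le_exp.2 ?_)
          have h2 := (abs_le.1 (hH (e.symm z))).2
          have h3 : p / r * v (e.symm z) ≤ p / r * H := mul_le_mul_of_nonneg_left h2 (by positivity)
          have h4 : -(p * ((1 / r : ℝ) * (φ ε (e.symm z) - v (e.symm z)))) =
              p / r * v (e.symm z) + -(p / r * φ ε (e.symm z)) := by ring
          rw [h4]
          linarith
      _ = ENNReal.ofReal (Real.exp (p / r * H)) *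
          ∫⁻ z in S, ENNReal.ofReal (Real.exp (-(p / r * φ ε (e.symm z)))) := by
          rw [lintegral_const_mul' _ _ (by simp)]
      _ ≤ _ := by gcongr; exact hBε ε h0 h1

/-- **Effective nonvanishing** for nef isotropic line bundles with Calabi-Yau approximations of
bounded singularities. -/
theorem eff_nonvanishing_cy [ConnectedSpace X] [SimplyConnectedSpace X]
    (hs : IsSymplectic d X w s) (hρ : IsMetric L ρ)
    (hd : d = 2 * n) (hn0 : 0 < n) (hn : IsNef w (curvature L ρ))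
    (hq : q s (curvature L ρ) (curvature L ρ) = 0) (hnex : ¬ IsExact (curvature L ρ))
    (hCY : ∀ p : ℝ, 0 ≤ p → CYStatement F L ρ w n 1 p) : HasSec L (Mb d).factorial := by
  have hd0 : 0 < d := by omega
  have hχ := (H599.BE.chi0_pos_of_nef hd0 hs (isReal11_curvature hρ) hn hnex hq).ne'
  refine sec_of_frac hd0 hs hρ hn hnex fun r κ Q ρQ hQ => ?_
  exact exists_frac hd0 hs hQ.met (hQ.nef hn) (hQ.iso hs hρ hq) (hQ.not_exact hnex)
    (formsFor_cy hs.kahler hQ.met hd hn0 (hQ.cy hρ hCY) hχ)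

/-- **Pencils without fixed divisor** from fractional pencils of all line bundles of the class. -/
theorem mobile_cy [ConnectedSpace X] [SimplyConnectedSpace X] (hd : 0 < d)
    (hs : IsSymplectic d X w s) (hρ : IsMetric L ρ) (hn : IsNef w (curvature L ρ))
    (hq : q s (curvature L ρ) (curvature L ρ) = 0) (hnex : ¬ IsExact (curvature L ρ))
    (hCY : ∀ p : ℝ, 0 ≤ p → CYStatement F L ρ w n 1 p) {M : ℕ}
    (hfrac : ∀ (κ : Type) (Q : LineBundle d X κ) (ρQ : κ → X → ℝ), IsMetric Q ρQ →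
      IsNef w (curvature Q ρQ) → q s (curvature Q ρQ) (curvature Q ρQ) = 0 →
      ¬ IsExact (curvature Q ρQ) → (∀ p : ℝ, 0 ≤ p → CYStatement F Q ρQ w n 1 p) →
      HasFracPair Q ρQ M) : HasMobilePair L M.factorial :=
  mobile_of_fracPair hd hs hρ hn hnex fun _ κ Q ρQ hQ =>
    hfrac κ Q ρQ hQ.met (hQ.nef hn) (hQ.iso hs hρ hq) (hQ.not_exact hnex) (hQ.cy hρ hCY)

end Vale.Agent.P301.H450

namespace Vale.Agent.P301.H450

open Vale.Agent.P272.K Vale.Agent.P301.H599

variable {X : Type} [TopologicalSpace X] [ChartedSpace (Cm 4) X] [T2Space X] [CompactSpace X]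
  [SimplyConnectedSpace X] [IsManifold 𝓘(ℂ, Cm 4) ω X]
variable {ι : Type} {L : LineBundle 4 X ι}
variable {w s : Chart 4 X → Cm 4 → Matrix (Fin 4) (Fin 4) ℂ} {ρ : ι → X → ℝ} {F : X → X}

/-- **Pencils without fixed divisor in `|L^{50!}|`** on fourfolds. -/
theorem mobile_four_cy (hs : IsSymplectic 4 X w s) (hρ : IsMetric L ρ)
    (hn : IsNef w (curvature L ρ)) (hq : q s (curvature L ρ) (curvature L ρ) = 0)
    (hnex : ¬ IsExact (curvature L ρ)) (hCY : ∀ p : ℝ, 0 ≤ p → CYStatement F L ρ w 2 1 p) :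
    HasMobilePair L (Nat.factorial 50) :=
  mobile_cy (M := 50) (by norm_num) hs hρ hn hq hnex hCY fun κ Q ρQ h1 h2 h3 h4 h5 => by
    have := H724.frac_four hs h1 h2 h3 h4 h5
    exact_mod_cast this

end Vale.Agent.P301.H450
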