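import Vale.Agent.P301.H450.EffRoot
import Vale.Agent.P301.H450.EffStep

/-!
# P301: divisibility of the line bundle
-/

open scoped Manifold ContDiff ComplexOrder Topology Matrix
open MeasureTheory Set Filter
open Vale.Agent.P272.K Vale.Agent.P272.K.C2 Vale.Agent.P272.K.AMP
open Vale.Agent.P299 Vale.Agent.P299.H954 Vale.Agent.P299.H937 Vale.Agent.P301.H599
open Vale.Agent.P272.K.INT (IsClosedForm IsDensity intX)
open Vale.Agent.P301.H724 (IsSec Nz Prop2 HasSec lamPow LinInd wedge)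
open Vale.Agent.P301.H508 (MovingPart tens invL PrimX Prim)
open Vale.Agent.P301.H897 (LamF)
open Vale.Agent.P301.H949 (IsoPow tw isMetric_tw isoPow_of_curvature ddc_of_contDiff)

set_option linter.all false

noncomputable section

namespace Vale.Agent.P301.H450

variable {d : ℕ} {X : Type} [TopologicalSpace X] [ChartedSpace (Cm d) X]
  {w w0 s a b θ : Chart d X → Cm d → Matrix (Fin d) (Fin d) ℂ} {e e' : Chart d X} {x : X}
  {ι κ : Type} {L : LineBundle d X ι} {Q : LineBundle d X κ} {P : LineBundle d X κ}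
  {ρ : ι → X → ℝ} {ρP ρQ : κ → X → ℝ}

/-- the orders of vanishing of the sections of the powers of `L` grow at most linearly -/
def OrdBound (L : LineBundle d X ι) : Prop :=
  ∃ C : ℝ, ∀ (b : ℕ) (g : ι → X → ℂ), IsSecPow L b g → (∃ i x, x ∈ L.U i ∧ g i x ≠ 0) →
    ∀ i (e : Chart d X) x, At e x → x ∈ L.U i → ∀ (q : ℕ) (K : ℝ),
      (∀ᶠ z in 𝓝 (e x), ‖g i (e.symm z)‖ ≤ K * ‖z - e x‖ ^ q) → (q : ℝ) ≤ C * b

variable [IsManifold 𝓘(ℂ, Cm d) ω X]

/-- a line bundle with a nowhere vanishing section is trivial -/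
theorem exact_of_nowhere_zero (hP : IsMetric P ρP) {f : κ → X → ℂ} (hf : IsSecPow P 1 f)
    (h0 : ∀ k x, x ∈ P.U k → f k x ≠ 0) : IsExact (curvature P ρP) := by
  classical
  choose c hc using P.cover
  have hglob : ∀ k x, x ∈ P.U k →
      ρP k x - Real.log (‖f k x‖ ^ 2) = ρP (c x) x - Real.log (‖f (c x) x‖ ^ 2) := by
    intro k x hk
    have h1 := hf.change k (c x) x hk (hc x)
    rw [pow_one] at h1
    rw [h1, norm_mul, mul_pow, Real.log_mul, hP.change k (c x) x hk (hc x)]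
    · ring
    · exact pow_ne_zero _ (norm_ne_zero_iff.2 (P.ne_zero _ _ _ hk (hc x)))
    · exact pow_ne_zero _ (norm_ne_zero_iff.2 (h0 _ _ (hc x)))
  have hev : ∀ (e : Chart d X) x, At e x → (fun z => ρP (c (e.symm z)) (e.symm z) -
      Real.log (‖f (c (e.symm z)) (e.symm z)‖ ^ 2)) =ᶠ[𝓝 (e x)]
      fun z => ρP (c x) (e.symm z) - Real.log (‖f (c x) (e.symm z)‖ ^ 2) := by
    intro e x hx
    filter_upwards [H949.nhds_symm hx ((P.isOpen (c x)).mem_nhds (hc x))] with z hz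
    exact (hglob (c x) _ hz).symm
  have han : ∀ (e : Chart d X) x, At e x → ContDiffAt ℂ ω (fun z => f (c x) (e.symm z)) (e x) :=
    fun e x hx => (hf.holo (c x) e x hx (hc x)).contDiffAt
  have hne : ∀ (e : Chart d X) x, At e x → f (c x) (e.symm (e x)) ≠ 0 := fun e x hx => by
    rw [e.left_inv hx.2]; exact h0 _ _ (hc x)
  have hsm : ∀ (e : Chart d X) x, At e x →
      ContDiffAt ℝ ∞ (fun z => Real.log (‖f (c x) (e.symm z)‖ ^ 2)) (e x) := by
    intro e x hx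
    have h1 : ContDiffAt ℝ ∞ (fun z => f (c x) (e.symm z)) (e x) :=
      ((han e x hx).restrict_scalars ℝ).of_le (by exact_mod_cast le_top)
    have h2 : ContDiffAt ℝ ∞ (fun z => ‖f (c x) (e.symm z)‖ ^ 2) (e x) := h1.norm_sq ℂ
    exact h2.log (pow_ne_zero _ (norm_ne_zero_iff.2 (hne e x hx)))
  refine ⟨fun x => ρP (c x) x - Real.log (‖f (c x) x‖ ^ 2), fun e x hx => ?_, fun e x hx => ?_⟩
  · exact ((hP.smooth (c x) e x hx (hc x)).sub (hsm e x hx)).congr_of_eventuallyEq (hev e x hx)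
  · rw [curvature_eq hP hx (hc x)]
    show _ = cHess (fun z => ρP (c (e.symm z)) (e.symm z) -
      Real.log (‖f (c (e.symm z)) (e.symm z)‖ ^ 2)) (e x)
    rw [C2.cHess_congr (hev e x hx)]
    have h1 := ddc_of_contDiff (hP.smooth (c x) e x hx (hc x)) (hsm e x hx) 1 1
    simp only [one_mul] at h1
    rw [h1, cHess_log_norm_sq (han e x hx) (hne e x hx)]
    simp
    rfl

variable [T2Space X] [CompactSpace X] [ConnectedSpace X] [SimplyConnectedSpace X]

/-- transport of a section of `P` to a section of a power of `L` -/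
theorem transport (hL : IsMetric L ρ) (hP : IsMetric P ρP) {N K : ℕ}
    (h : SameClass (fun e z => (N : ℂ) • curvature P ρP e z)
      (fun e z => (K : ℂ) • curvature L ρ e z)) :
    ∃ hh : κ → ι → X → ℂ,
      (∀ k i x, x ∈ P.U k → x ∈ L.U i → H949.Hol d (hh k i) x ∧ hh k i x ≠ 0) ∧
      ∀ f : κ → X → ℂ, IsSecPow P 1 f → ∃ g : ι → X → ℂ, IsSecPow L K g ∧
        ∀ k i x, x ∈ P.U k → x ∈ L.U i → g i x = f k x ^ N / hh k i x := by
  obtain ⟨hh, h1, h2⟩ := isoPow_of_curvature hL hP (q := N) (a := (K : ℤ)) (by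
    refine sc_congr h (fun e x hx => rfl) fun e x hx => by push_cast; rfl)
  refine ⟨hh, h1, fun f hf => ?_⟩
  exact isSecPow_of_iso (q := N) h1 h2 (F := fun k x => f k x ^ N)
    (fun k e x hx hk => (hf.holo k e x hx hk).pow N) (fun k l x hk hl => by
      rw [hf.change k l x hk hl, pow_one, mul_pow])

/-- `Q` is an `r`-th root of `L` -/
structure IsRoot (L : LineBundle d X ι) (ρ : ι → X → ℝ) (r : ℕ) (Q : LineBundle d X κ)
    (ρQ : κ → X → ℝ) : Prop where
  pos : 0 < r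
  met : IsMetric Q ρQ
  cls : SameClass (fun e z => (r : ℂ) • curvature Q ρQ e z) (curvature L ρ)

theorem IsRoot.nef {r : ℕ} (h : IsRoot L ρ r Q ρQ) (hn : IsNef w0 (curvature L ρ)) :
    IsNef w0 (curvature Q ρQ) := by
  intro ε hε
  obtain ⟨v, hv, hve⟩ := h.cls
  have hr : (0 : ℝ) < r := by exact_mod_cast h.pos
  have hrC : (r : ℂ) ≠ 0 := by exact_mod_cast h.pos.ne'
  obtain ⟨u, hu', hp⟩ := hn (r * ε) (by positivity)
  have hu : Smooth (d := d) u := hu'
  refine ⟨fun x => (1 / r : ℝ) * (u x - v x), (hu.sub hv).const_mul _, fun e x hx => ?_⟩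
  have h1 := hp e x hx
  have h2 := hve e x hx
  simp only at h2
  rw [ddc_const_mul (1 / r : ℝ) (hu.sub hv) e x hx]
  simp only
  rw [ddc_sub hu hv e x hx]
  simp only
  have h3 : curvature Q ρQ e (e x) + (ε : ℂ) • w0 e (e x) + ((1 / r : ℝ) : ℂ) •
      (ddc u e (e x) - ddc v e (e x)) = ((1 / r : ℝ) : ℂ) •
      (curvature L ρ e (e x) + ((r * ε : ℝ) : ℂ) • w0 e (e x) + ddc u e (e x)) := by
    have h4 : curvature L ρ e (e x) = (r : ℂ) • curvature Q ρQ e (e x) - ddc v e (e x) := by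
      rw [h2]; abel
    rw [h4]
    simp only [smul_add, smul_sub, smul_smul]
    have h5 : ((1 / r : ℝ) : ℂ) * r = 1 := by push_cast; field_simp
    have h6 : ((1 / r : ℝ) : ℂ) * ((r * ε : ℝ) : ℂ) = ε := by push_cast; field_simp
    rw [h5, h6, one_smul]
    abel
  rw [h3]
  exact h1.smul (by exact_mod_cast (by positivity : (0 : ℝ) ≤ 1 / r))

theorem IsRoot.iso {r : ℕ} (h : IsRoot L ρ r Q ρQ) (hs : IsSymplectic d X w0 s)
    (hρ : IsMetric L ρ) (hq : q s (curvature L ρ) (curvature L ρ) = 0) :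
    q s (curvature Q ρQ) (curvature Q ρQ) = 0 := by
  obtain ⟨u0, κ0, hu0, hk0⟩ := exists_rf hs hs.kahler
  have S := SData.of hs hk0
  obtain ⟨v, hv, hve⟩ := h.cls
  have cL := H949.isClosedForm_curvature hρ
  have cQ := H949.isClosedForm_curvature h.met
  have h1 := q_addH (s := s) S cL hv
  rw [hq, ← q_congr (a := fun e z => ((r : ℝ) : ℂ) • curvature Q ρQ e z)
    (b := fun e z => ((r : ℝ) : ℂ) • curvature Q ρQ e z) (fun e x hx => by
      have := hve e x hx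
      push_cast
      exact this) (fun e x hx => by
      have := hve e x hx
      push_cast
      exact this), q_smul_left, q_smul_right S] at h1
  have hr : (r : ℝ) ≠ 0 := by exact_mod_cast h.pos.ne'
  simpa [hr] using h1

theorem IsRoot.not_exact {r : ℕ} (h : IsRoot L ρ r Q ρQ) (hnex : ¬ IsExact (curvature L ρ)) :
    ¬ IsExact (curvature Q ρQ) := by
  rintro ⟨u, hu', hue⟩
  have hu : Smooth (d := d) u := hu'
  obtain ⟨v, hv, hve⟩ := h.cls
  apply hnex
  refine ⟨fun x => r * u x - v x, (hu.const_mul _).sub hv, fun e x hx => ?_⟩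
  rw [ddc_sub (hu.const_mul _) hv e x hx]
  simp only
  rw [ddc_const_mul (r : ℝ) hu e x hx]
  have h2 := hve e x hx
  simp only at h2
  rw [hue e x hx] at h2
  have h3 : curvature L ρ e (e x) = (r : ℂ) • ddc u e (e x) - ddc v e (e x) := by
    rw [h2]; abel
  rw [h3]
  push_cast
  rfl

/-- **Bounded divisibility.** -/
theorem bounded_roots (hd : 0 < d) (hs : IsSymplectic d X w0 s) (hρ : IsMetric L ρ)
    (hn : IsNef w0 (curvature L ρ)) (hnex : ¬ IsExact (curvature L ρ)) {M : ℝ}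
    (hfrac : ∀ (r : ℕ) (κ : Type) (Q : LineBundle d X κ) (ρQ : κ → X → ℝ), IsRoot L ρ r Q ρQ →
      HasFrac Q ρQ M) (hord : OrdBound L) :
    ∃ B : ℕ, ∀ (r : ℕ) (κ : Type) (Q : LineBundle d X κ) (ρQ : κ → X → ℝ),
      IsRoot L ρ r Q ρQ → r ≤ B := by
  obtain ⟨C, hC⟩ := hord
  refine ⟨⌊C * M⌋₊, fun r κ Q ρQ hr => ?_⟩
  obtain ⟨κ', P, ρP, τ, f, hP, hτ0, hτM, hcl, hf, hne⟩ := hfrac r κ Q ρQ hr
  have hrR : (0 : ℝ) < r := by exact_mod_cast hr.pos
  -- the class of `P`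
  have hcl' : SameClass (curvature P ρP) (fun e z => ((τ / r : ℝ) : ℂ) • curvature L ρ e z) := by
    refine sc_trans hcl (sc_congr (sc_smul (τ / r) hr.cls) (fun e x hx => ?_) fun e x hx => rfl)
    rw [smul_smul]
    congr 1
    push_cast
    rw [div_mul_cancel₀]
    exact_mod_cast hr.pos.ne'
  obtain ⟨q, m, hq, hcop, hmt, hsc⟩ := exists_coprime_ratio hρ hP hcl'
    (INT.IsKahler.isClosedForm hs.kahler)
    (fun e x hx => (hs.kahler.posDef e x hx).isHermitian) (intX_ne hd hs hρ hn hnex)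
  have hqR : (0 : ℝ) < q := by exact_mod_cast hq
  have hm0 : 0 < m := by
    have h1 : (0 : ℝ) < m := by rw [hmt]; positivity
    exact_mod_cast h1
  obtain ⟨b, rfl⟩ := Int.eq_ofNat_of_zero_le hm0.le
  have hb : (0 : ℝ) < b := by exact_mod_cast hm0
  obtain ⟨hh, hh1, hh2⟩ := transport hρ hP (N := q) (K := b)
    (sc_congr hsc (fun e x hx => rfl) fun e x hx => by push_cast; rfl)
  obtain ⟨g, hg, hgf⟩ := hh2 f hf
  -- a zero of `f`
  obtain ⟨k, x, hk, hx0⟩ : ∃ k x, x ∈ P.U k ∧ f k x = 0 := by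
    by_contra hcon
    push Not at hcon
    obtain ⟨u, hu', hue⟩ := exact_of_nowhere_zero hP hf hcon
    have hu : Smooth (d := d) u := hu'
    apply hr.not_exact hnex
    obtain ⟨v, hv, hve⟩ := hcl
    refine ⟨fun x => (1 / τ) * (u x - v x), (hu.sub hv).const_mul (1 / τ), fun e x hx => ?_⟩
    have h1 := hve e x hx
    rw [hue e x hx] at h1
    simp only at h1
    rw [ddc_const_mul (1 / τ) (hu.sub hv) e x hx]
    simp only
    rw [ddc_sub hu hv e x hx]
    simp only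
    rw [h1, add_sub_cancel_right, smul_smul]
    have h2 : ((1 / τ : ℝ) : ℂ) * (τ : ℂ) = 1 := by
      push_cast
      rw [one_div, inv_mul_cancel₀]
      exact_mod_cast hτ0.ne'
    rw [h2, one_smul]
  obtain ⟨i, hi⟩ := L.cover x
  have he := AMP.at_chartAt (n := d) x
  set e := chartAt (Cm d) x with hedef
  -- `g ≢ 0`
  have hgne : ∃ i x, x ∈ L.U i ∧ g i x ≠ 0 := by
    obtain ⟨k', y, hy, hy0⟩ := hne
    obtain ⟨j, hj⟩ := L.cover y
    refine ⟨j, y, hj, ?_⟩
    rw [hgf k' j y hy hj]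
    exact div_ne_zero (pow_ne_zero _ hy0) (hh1 k' j y hy hj).2
  -- order of vanishing
  have hF := (hf.holo k e x he hk)
  have hF0 : f k (e.symm (e x)) = 0 := by rw [e.left_inv he.2, hx0]
  obtain ⟨K₁, hK₁⟩ := (hF.differentiableAt.isBigO_sub).bound
  have hHc : ContinuousAt (fun z => (hh k i (e.symm z))⁻¹) (e x) := by
    have h1 := ((hh1 k i x hk hi).1 e he).continuousAt
    refine h1.inv₀ ?_
    rw [e.left_inv he.2]
    exact (hh1 k i x hk hi).2
  have hH : ∀ᶠ z in 𝓝 (e x), ‖(hh k i (e.symm z))⁻¹‖ ≤ ‖(hh k i (e.symm (e x)))⁻¹‖ + 1 := by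
    have h1 := hHc.norm.eventually (gt_mem_nhds (lt_add_one _))
    filter_upwards [h1] with z hz using hz.le
  have hkey := hC b g hg hgne i e x he hi q (K₁ ^ q * (‖(hh k i (e.symm (e x)))⁻¹‖ + 1)) (by
    filter_upwards [hK₁, hH, H949.nhds_symm he ((P.isOpen k).mem_nhds hk),
      H949.nhds_symm he ((L.isOpen i).mem_nhds hi)] with z h1 h2 h3 h4
    rw [hF0, sub_zero] at h1
    rw [hgf k i _ h3 h4, div_eq_mul_inv, norm_mul, norm_pow]
    calc ‖f k (e.symm z)‖ ^ q * ‖(hh k i (e.symm z))⁻¹‖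
        ≤ (K₁ * ‖z - e x‖) ^ q * (‖(hh k i (e.symm (e x)))⁻¹‖ + 1) :=
          mul_le_mul (pow_le_pow_left₀ (norm_nonneg _) h1 _) h2 (norm_nonneg _)
            (pow_nonneg ((norm_nonneg _).trans h1) _)
      _ = _ := by rw [mul_pow]; ring)
  -- conclusion
  have h1 : (b : ℝ) = q * (τ / r) := by exact_mod_cast hmt
  have hCpos : 0 < C := by
    by_contra hCn
    push Not at hCn
    have : C * b ≤ 0 := mul_nonpos_of_nonpos_of_nonneg hCn hb.le
    linarith
  rw [h1] at hkey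
  have h2 : (r : ℝ) ≤ C * τ := by
    have h3 : (q : ℝ) * r ≤ q * (C * τ) := by
      have h4 := mul_le_mul_of_nonneg_right hkey hrR.le
      have h5 : C * (q * (τ / r)) * r = q * (C * τ) := by field_simp
      rw [h5] at h4
      exact h4
    exact le_of_mul_le_mul_left h3 hqR
  refine Nat.le_floor (h2.trans ?_)
  exact mul_le_mul_of_nonneg_left hτM hCpos.le

/-- a root of maximal order -/
theorem exists_max_root (hρ : IsMetric L ρ) {B : ℕ}
    (hB : ∀ (r : ℕ) (κ : Type) (Q : LineBundle d X κ) (ρQ : κ → X → ℝ),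
      IsRoot L ρ r Q ρQ → r ≤ B) :
    ∃ (r : ℕ) (κ : Type) (Q : LineBundle d X κ) (ρQ : κ → X → ℝ), IsRoot L ρ r Q ρQ ∧
      ∀ (r' : ℕ) (κ' : Type) (Q' : LineBundle d X κ') (ρ' : κ' → X → ℝ),
        IsRoot L ρ r' Q' ρ' → r' ≤ r := by
  classical
  set S : Set ℕ := {r | ∃ (κ : Type) (Q : LineBundle d X κ) (ρQ : κ → X → ℝ), IsRoot L ρ r Q ρQ}
    with hS
  have h1 : (1 : ℕ) ∈ S := ⟨ι, L, ρ, Nat.one_pos, hρ, sc_congr (sc_refl (curvature L ρ))
    (fun e x hx => by push_cast; rw [one_smul]) fun e x hx => rfl⟩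
  have hbd : BddAbove S := ⟨B, by rintro r ⟨κ, Q, ρQ, hr⟩; exact hB r κ Q ρQ hr⟩
  obtain ⟨κ, Q, ρQ, hr⟩ := Nat.sSup_mem ⟨1, h1⟩ hbd
  exact ⟨_, κ, Q, ρQ, hr, fun r' κ' Q' ρ' h => le_csSup hbd ⟨κ', Q', ρ', h⟩⟩

/-- every class proportional to the class of a primitive root is an integral multiple -/
theorem int_of_max (hd : 0 < d) (hs : IsSymplectic d X w0 s) (hρ : IsMetric L ρ)
    (hn : IsNef w0 (curvature L ρ)) (hnex : ¬ IsExact (curvature L ρ)) {r : ℕ}
    (hQ : IsRoot L ρ r Q ρQ)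
    (hmax : ∀ (r' : ℕ) (κ' : Type) (Q' : LineBundle d X κ') (ρ' : κ' → X → ℝ),
        IsRoot L ρ r' Q' ρ' → r' ≤ r) {κ' : Type} {P : LineBundle d X κ'} {ρP : κ' → X → ℝ}
    (hP : IsMetric P ρP) {τ : ℝ}
    (hcl : SameClass (curvature P ρP) (fun e z => (τ : ℂ) • curvature Q ρQ e z)) :
    ∃ m : ℤ, (m : ℝ) = τ := by
  obtain ⟨q, m, hq, hcop, hmt, hsc⟩ := exists_coprime_ratio hQ.met hP hcl
    (INT.IsKahler.isClosedForm hs.kahler)
    (fun e x hx => (hs.kahler.posDef e x hx).isHermitian)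
    (intX_ne hd hs hQ.met (hQ.nef hn) (hQ.not_exact hnex))
  obtain ⟨κ₂, Q₂, ρ₂, hQ₂, hc₂⟩ := (root_of_class hQ.met hP hq hcop hsc)
  obtain ⟨κ₃, Q₃, ρ₃, hQ₃, hc₃⟩ := HasRoot.trans hQ.cls ⟨κ₂, Q₂, ρ₂, hQ₂, hc₂⟩
  have h1 := hmax (r * q) κ₃ Q₃ ρ₃ ⟨Nat.mul_pos hQ.pos hq, hQ₃, hc₃⟩
  have h2 : q = 1 := by
    have h3 : r * q ≤ r * 1 := by rwa [mul_one]
    have := Nat.le_of_mul_le_mul_left h3 hQ.pos
    omega
  subst h2
  exact ⟨m, by rw [hmt]; push_cast; ring⟩

end Vale.Agent.P301.H450
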