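import Vale.Agent.P301.H450.EffDiv
import Vale.Agent.P301.H98.Ord

/-!
# P301: sections of a power of `L`, the exponent depending only on bounds for the roots of `L`
-/

open scoped Manifold ContDiff ComplexOrder Topology Matrix
open MeasureTheory Set Filter
open Vale.Agent.P272.K Vale.Agent.P272.K.C2 Vale.Agent.P272.K.AMP
open Vale.Agent.P299 Vale.Agent.P299.H954 Vale.Agent.P299.H937 Vale.Agent.P301.H599
open Vale.Agent.P272.K.INT (IsClosedForm IsDensity intX)
open Vale.Agent.P301.H724 (IsSec Nz Prop2 HasSec lamPow LinInd wedge)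
open Vale.Agent.P301.H508 (MovingPart tens invL PrimX Prim)
open Vale.Agent.P301.H897 (LamF)
open Vale.Agent.P301.H949 (IsoPow tw isMetric_tw isoPow_of_curvature ddc_of_contDiff)

set_option linter.all false

noncomputable section

namespace Vale.Agent.P301.H450

variable {d : ℕ} {X : Type} [TopologicalSpace X] [ChartedSpace (Cm d) X]
  {w w0 s a b θ : Chart d X → Cm d → Matrix (Fin d) (Fin d) ℂ} {e e' : Chart d X} {x : X}
  {ι κ κ' : Type} {L : LineBundle d X ι} {Q : LineBundle d X κ} {P : LineBundle d X κ'}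
  {ρ : ι → X → ℝ} {ρP : κ' → X → ℝ} {ρQ : κ → X → ℝ}
  [IsManifold 𝓘(ℂ, Cm d) ω X] [T2Space X] [CompactSpace X] [ConnectedSpace X]
  [SimplyConnectedSpace X]

theorem ordBound (hs : IsSymplectic d X w0 s) (hρ : IsMetric L ρ) : OrdBound L := by
  obtain ⟨C, hC⟩ := H98.exists_ord hs.kahler hρ
  exact ⟨C, fun b g hg hne i e x he hi q K hK => hC b g hg hne q i e x he hi ⟨K, hK⟩⟩

/-- the class of a multiple of `P` -/
theorem class_mul {r m j : ℕ} {τ : ℝ} (hQ : IsRoot L ρ r Q ρQ) (hmτ : (m : ℝ) = τ)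
    (hcl : SameClass (curvature P ρP) (fun e z => (τ : ℂ) • curvature Q ρQ e z)) :
    SameClass (fun e z => ((r * j : ℕ) : ℂ) • curvature P ρP e z)
      (fun e z => ((m * j : ℕ) : ℂ) • curvature L ρ e z) := by
  have h1 := sc_smul ((r : ℝ) * j) hcl
  have h2 := sc_smul ((m : ℝ) * j) hQ.cls
  refine sc_trans (sc_congr h1 (fun e x hx => by push_cast; rfl) fun e x hx => ?_)
    (sc_congr h2 (a' := fun e z => (((r : ℝ) * j * τ : ℝ) : ℂ) • curvature Q ρQ e z)
      (fun e x hx => ?_) fun e x hx => by push_cast; rfl)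
  · rw [smul_smul]
    push_cast
    rfl
  · rw [smul_smul, ← hmτ]
    congr 1
    push_cast
    ring

/-- **Sections with a uniform exponent.** -/
theorem sec_of_frac (hd : 0 < d) (hs : IsSymplectic d X w0 s) (hρ : IsMetric L ρ)
    (hn : IsNef w0 (curvature L ρ)) (hnex : ¬ IsExact (curvature L ρ)) {M : ℕ}
    (hfrac : ∀ (r : ℕ) (κ : Type) (Q : LineBundle d X κ) (ρQ : κ → X → ℝ), IsRoot L ρ r Q ρQ →
      HasFrac Q ρQ M) : HasSec L M.factorial := by
  obtain ⟨B, hB⟩ := bounded_roots hd hs hρ hn hnex hfrac (ordBound hs hρ)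
  obtain ⟨r, κ, Q, ρQ, hQ, hmax⟩ := exists_max_root hρ hB
  obtain ⟨κ', P, ρP, τ, f, hP, hτ0, hτM, hcl, hf, k, x, hk, hx⟩ := hfrac r κ Q ρQ hQ
  obtain ⟨m, hm⟩ := int_of_max hd hs hρ hn hnex hQ hmax hP hcl
  have hm0 : 0 < m := by
    have h1 : (0 : ℝ) < m := by rw [hm]; exact hτ0
    exact_mod_cast h1
  obtain ⟨m, rfl⟩ := Int.eq_ofNat_of_zero_le hm0.le
  have hm1 : 0 < m := by exact_mod_cast hm0
  have hmM : m ≤ M := by
    have h1 : ((m : ℤ) : ℝ) ≤ M := by rw [hm]; exact hτM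
    exact_mod_cast h1
  obtain ⟨j, hj⟩ := Nat.dvd_factorial hm1 hmM
  rw [hj]
  obtain ⟨hh, hh1, hh2⟩ := transport hρ hP (N := r * j) (K := m * j)
    (class_mul hQ (by exact_mod_cast hm) hcl)
  obtain ⟨g, hg, hgf⟩ := hh2 f hf
  obtain ⟨i, hi⟩ := L.cover x
  refine ⟨g, hg.holo, hg.change, i, x, hi, ?_⟩
  rw [hgf k i x hk hi]
  exact div_ne_zero (pow_ne_zero _ hx) (hh1 k i x hk hi).2

/-- sections of the trivial bundle are constant -/
theorem const_of_zero {g : ι → X → ℂ} (hg : IsSecPow L 0 g) :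
    ∃ c : ℂ, ∀ i x, x ∈ L.U i → g i x = c := by
  choose c hc' using L.cover
  have hglob : ∀ i y, y ∈ L.U i → g i y = g (c y) y := by
    intro i y hi
    have := hg.change i (c y) y hi (hc' y)
    rwa [pow_zero, one_mul] at this
  have hconst : ∀ y y' : X, g (c y) y = g (c y') y' := by
    refine hol_const (d := d) (f := fun y => g (c y) y) fun y e he => ?_
    refine (hg.holo (c y) e y he (hc' y)).congr ?_
    filter_upwards [H949.nhds_symm he ((L.isOpen (c y)).mem_nhds (hc' y))] with z hz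
    exact hglob _ _ hz
  haveI : Nonempty X := inferInstance
  obtain ⟨x₀⟩ : Nonempty X := inferInstance
  exact ⟨g (c x₀) x₀, fun i x hi => by rw [hglob i x hi, hconst x x₀]⟩

/-- the class of a bundle with a pencil is positive -/
theorem fracPair_pos {M : ℝ} (hρ : IsMetric L ρ) {τ : ℝ} {f : Fin 2 → κ' → X → ℂ}
    (hP : IsMetric P ρP)
    (hcl : SameClass (curvature P ρP) (fun e z => (τ : ℂ) • curvature L ρ e z))
    (hf : ∀ j, IsSecPow P 1 (f j))
    (hind : ∀ α β : ℂ, (∀ i x, x ∈ P.U i → α * f 0 i x + β * f 1 i x = 0) → α = 0 ∧ β = 0) :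
    τ ≠ 0 := by
  rintro rfl
  obtain ⟨hh, hh1, hh2⟩ := transport hρ hP (N := 1) (K := 0)
    (sc_congr hcl (fun e x hx => by push_cast; rw [one_smul]) fun e x hx => by push_cast; rfl)
  obtain ⟨g₀, hg₀, hgf₀⟩ := hh2 _ (hf 0)
  obtain ⟨g₁, hg₁, hgf₁⟩ := hh2 _ (hf 1)
  obtain ⟨c₀, hc₀⟩ := const_of_zero hg₀
  obtain ⟨c₁, hc₁⟩ := const_of_zero hg₁
  have key : ∀ k x, x ∈ P.U k → c₁ * f 0 k x + (-c₀) * f 1 k x = 0 := by
    intro k x hk
    obtain ⟨i, hi⟩ := L.cover x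
    have h1 := hgf₀ k i x hk hi
    have h2 := hgf₁ k i x hk hi
    have h3 := (hh1 k i x hk hi).2
    rw [hc₀ i x hi, pow_one, eq_div_iff h3] at h1
    rw [hc₁ i x hi, pow_one, eq_div_iff h3] at h2
    rw [← h1, ← h2]
    ring
  obtain ⟨h4, h5⟩ := hind _ _ key
  have h6 : c₀ = 0 := by simpa using h5
  have h7 := hind 1 0 fun k x hk => by
    obtain ⟨i, hi⟩ := L.cover x
    have h1 := hgf₀ k i x hk hi
    have h3 := (hh1 k i x hk hi).2
    rw [hc₀ i x hi, h6, pow_one, eq_div_iff h3, zero_mul] at h1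
    rw [← h1]
    ring
  exact one_ne_zero h7.1

theorem HasFracPair.hasFrac {M : ℝ} (hρ : IsMetric L ρ) (h : HasFracPair L ρ M) :
    HasFrac L ρ M := by
  obtain ⟨κ, P, ρP, τ, f, hP, hτ0, hτM, hcl, hf, hind, -⟩ := h
  have h1 := fracPair_pos (M := M) hρ hP hcl hf hind
  refine ⟨κ, P, ρP, τ, f 0, hP, lt_of_le_of_ne hτ0 h1.symm, hτM, hcl, hf 0, ?_⟩
  by_contra hcon
  push Not at hcon
  exact one_ne_zero (hind 1 0 fun k x hk => by rw [hcon k x hk]; ring).1

theorem not_exact_smul {τ : ℝ} (hτ : τ ≠ 0) (hnex : ¬ IsExact (curvature L ρ))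
    (hcl : SameClass (curvature P ρP) (fun e z => (τ : ℂ) • curvature L ρ e z)) :
    ¬ IsExact (curvature P ρP) := by
  rintro ⟨u, hu', hue⟩
  have hu : Smooth (d := d) u := hu'
  apply hnex
  obtain ⟨v, hv, hve⟩ := hcl
  refine ⟨fun x => (1 / τ) * (u x - v x), (hu.sub hv).const_mul (1 / τ), fun e x hx => ?_⟩
  have h1 := hve e x hx
  rw [hue e x hx] at h1
  simp only at h1
  rw [ddc_const_mul (1 / τ) (hu.sub hv) e x hx]
  simp only
  rw [ddc_sub hu hv e x hx]
  simp only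
  rw [h1, add_sub_cancel_right, smul_smul]
  have h2 : ((1 / τ : ℝ) : ℂ) * (τ : ℂ) = 1 := by
    push_cast
    rw [one_div, inv_mul_cancel₀]
    exact_mod_cast hτ
  rw [h2, one_smul]

/-- **Pencils without fixed divisor, with a uniform exponent.** -/
theorem mobile_of_fracPair (hd : 0 < d) (hs : IsSymplectic d X w0 s) (hρ : IsMetric L ρ)
    (hn : IsNef w0 (curvature L ρ)) (hnex : ¬ IsExact (curvature L ρ)) {M : ℕ}
    (hfrac : ∀ (r : ℕ) (κ : Type) (Q : LineBundle d X κ) (ρQ : κ → X → ℝ), IsRoot L ρ r Q ρQ →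
      HasFracPair Q ρQ M) : HasMobilePair L M.factorial := by
  obtain ⟨B, hB⟩ := bounded_roots hd hs hρ hn hnex
    (fun r κ Q ρQ hQ => (hfrac r κ Q ρQ hQ).hasFrac hQ.met) (ordBound hs hρ)
  obtain ⟨r, κ, Q, ρQ, hQ, hmax⟩ := exists_max_root hρ hB
  obtain ⟨κ', P, ρP, τ, f, hP, hτ0, hτM, hcl, hf, hind, hprim⟩ := hfrac r κ Q ρQ hQ
  have hτne := fracPair_pos (M := M) hQ.met hP hcl hf hind
  obtain ⟨m, hm⟩ := int_of_max hd hs hρ hn hnex hQ hmax hP hcl
  have hm0 : 0 < m := by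
    have h1 : (0 : ℝ) < m := by rw [hm]; exact lt_of_le_of_ne hτ0 hτne.symm
    exact_mod_cast h1
  obtain ⟨m, rfl⟩ := Int.eq_ofNat_of_zero_le hm0.le
  have hm1 : 0 < m := by exact_mod_cast hm0
  have hmM : m ≤ M := by
    have h1 : ((m : ℤ) : ℝ) ≤ M := by rw [hm]; exact hτM
    exact_mod_cast h1
  obtain ⟨j, hj⟩ := Nat.dvd_factorial hm1 hmM
  have hj0 : 0 < j := by
    rcases Nat.eq_zero_or_pos j with rfl | h1
    · have := M.factorial_pos
      rw [hj] at this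
      omega
    · exact h1
  have hN : 0 < r * j := Nat.mul_pos hQ.pos hj0
  rw [hj]
  obtain ⟨hh, hh1, hh2⟩ := transport hρ hP (N := r * j) (K := m * j)
    (class_mul hQ (by exact_mod_cast hm) hcl)
  obtain ⟨g₀, hg₀, hgf₀⟩ := hh2 _ (hf 0)
  obtain ⟨g₁, hg₁, hgf₁⟩ := hh2 _ (hf 1)
  -- no common factor
  have hcop : NoCommonFactor L g₀ g₁ := by
    intro i e x hx hi h a b' hh' hab
    obtain ⟨k, hk⟩ := P.cover x
    refine no_common (hprim k e x hx hk) hN (f := fun z => hh k i (e.symm z) * a z)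
      (g := fun z => hh k i (e.symm z) * b' z) hh' ?_
    filter_upwards [hab, H949.nhds_symm hx ((P.isOpen k).mem_nhds hk),
      H949.nhds_symm hx ((L.isOpen i).mem_nhds hi)] with z h1 h2 h3
    have h4 := (hh1 k i _ h2 h3).2
    have h5 := hgf₀ k i _ h2 h3
    have h6 := hgf₁ k i _ h2 h3
    constructor
    · rw [h1.1, eq_div_iff h4] at h5
      rw [← h5]; ring
    · rw [h1.2, eq_div_iff h4] at h6
      rw [← h6]; ring
  -- a zero of `f 0`
  obtain ⟨k, x, hk, hx0⟩ : ∃ k x, x ∈ P.U k ∧ f 0 k x = 0 := by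
    by_contra hcon
    push Not at hcon
    exact not_exact_smul hτne (hQ.not_exact hnex) hcl (exact_of_nowhere_zero hP (hf 0) hcon)
  refine ⟨g₀, g₁, hg₀, hg₁, fun α β hαβ => ?_, hcop⟩
  have hβ : β = 0 := by
    by_contra hβ
    obtain ⟨i, hi⟩ := L.cover x
    have he := AMP.at_chartAt (n := d) x
    have h1 := hcop i _ x he hi (fun z => g₀ i ((chartAt (Cm d) x).symm z)) (fun _ => 1)
      (fun _ => -(α / β)) (hg₀.holo i _ x he hi) (by
        filter_upwards [H949.nhds_symm he ((L.isOpen i).mem_nhds hi)] with z hz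
        refine ⟨(mul_one _).symm, ?_⟩
        have := hαβ i _ hz
        field_simp
        linear_combination this)
    apply h1
    show g₀ i ((chartAt (Cm d) x).symm (chartAt (Cm d) x x)) = 0
    rw [(chartAt (Cm d) x).left_inv he.2, hgf₀ k i x hk hi, hx0, zero_pow hN.ne', zero_div]
  refine ⟨?_, hβ⟩
  by_contra hα
  obtain ⟨k', y, hy, hfy⟩ : ∃ k' y, y ∈ P.U k' ∧ f 0 k' y ≠ 0 := by
    by_contra hcon
    push Not at hcon
    exact one_ne_zero (hind 1 0 fun k x hk => by rw [hcon k x hk]; ring).1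
  obtain ⟨i, hi⟩ := L.cover y
  have h1 := hαβ i y hi
  rw [hβ, zero_mul, add_zero] at h1
  have h2 := (mul_eq_zero.1 h1).resolve_left hα
  rw [hgf₀ k' i y hy hi] at h2
  exact div_ne_zero (pow_ne_zero _ hfy) (hh1 k' i y hy hi).2 h2

end Vale.Agent.P301.H450
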