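import Vale.Agent.P301.H450.EffPar
import Vale.Agent.P301.H724.Eff2

/-!
# P301: pencils on fourfolds, with a uniform exponent
-/

open scoped Manifold ContDiff ComplexOrder Topology Matrix
open MeasureTheory Set Filter
open Vale.Agent.P272.K Vale.Agent.P299 Vale.Agent.P301.H599

set_option linter.all false

noncomputable section

namespace Vale.Agent.P301.H450

variable {X : Type} [TopologicalSpace X] [ChartedSpace (Cm 4) X] [T2Space X] [CompactSpace X]
  [SimplyConnectedSpace X] [IsManifold 𝓘(ℂ, Cm 4) ω X]
variable {ι : Type} {L : LineBundle 4 X ι}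
variable {w s : Chart 4 X → Cm 4 → Matrix (Fin 4) (Fin 4) ℂ} {ρ : ι → X → ℝ} {c : ℝ}

/-- a fractional pencil for the line bundle of a parabolic automorphism -/
theorem frac_four_par (hs : IsSymplectic 4 X w s) (hρ : IsMetric L ρ) (F : Auto 4 X) (hc : 0 < c)
    (hθ : SameClass (pull F (curvature L ρ)) (curvature L ρ))
    (hdd : SameClass (fun e z => pull F (pull F w) e z - (2 : ℂ) • pull F w e z + w e z)
      (fun e z => (c : ℂ) • curvature L ρ e z)) (hnex : ¬ IsExact (curvature L ρ)) :
    HasFracPair L ρ 50 := by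
  obtain ⟨u, h, D⟩ := exists_dat hs hρ F hc hθ hdd
  exact H724.frac_four hs hρ D.isNef (q_par hs hρ F hc hθ hdd) hnex fun p hp =>
    exists_cy_symplectic hs D (n := 2) (by norm_num) (by norm_num) hnex le_rfl hp

/-- **Pencils without fixed divisor in `|L^{50!}|`** for the line bundle of a parabolic
automorphism of a fourfold. -/
theorem mobile_four_eff (hs : IsSymplectic 4 X w s) (hρ : IsMetric L ρ) (F : Auto 4 X)
    (hc : 0 < c) (hθ : SameClass (pull F (curvature L ρ)) (curvature L ρ))
    (hdd : SameClass (fun e z => pull F (pull F w) e z - (2 : ℂ) • pull F w e z + w e z)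
      (fun e z => (c : ℂ) • curvature L ρ e z)) (hnex : ¬ IsExact (curvature L ρ)) :
    HasMobilePair L (Nat.factorial 50) := by
  have hn := nef_par hs hρ F hc hθ hdd
  refine mobile_of_fracPair (M := 50) (by norm_num) hs hρ hn hnex fun r κ Q ρQ hQ => ?_
  have := frac_four_par hs hQ.met F (mul_pos hc (by exact_mod_cast hQ.pos : (0 : ℝ) < r))
      (hQ.par_one F hθ) (hQ.par_two hdd) (hQ.not_exact hnex)
  exact_mod_cast this

end Vale.Agent.P301.H450
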