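import Vale.Agent.P301.H450.Kap
import Vale.Agent.P301.H724.Asm
import Vale.Agent.P301.H794.FInv
import Vale.Agent.P301.H599.Final

/-!
# P301: nonvanishing for the line bundle of a parabolic automorphism
-/

open scoped Manifold ContDiff ComplexOrder Topology Matrix
open MeasureTheory Set Filter
open Vale.Agent.P272.K Vale.Agent.P299 Vale.Agent.P301.H599
open Vale.Agent.P301.H724 (IsSec Nz HasSec)

set_option linter.all false

noncomputable section

namespace Vale.Agent.P301.H450

variable {d : ℕ} {X : Type} [TopologicalSpace X] [ChartedSpace (Cm d) X]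
  [IsManifold 𝓘(ℂ, Cm d) ω X] [T2Space X] [CompactSpace X] [ConnectedSpace X]
  {w s : Chart d X → Cm d → Matrix (Fin d) (Fin d) ℂ} {ι : Type} {L : LineBundle d X ι}
  {ρ : ι → X → ℝ} {c : ℝ}

/-- the data of the proof -/
theorem exists_dat (hs : IsSymplectic d X w s) (hρ : IsMetric L ρ) (F : Auto d X) (hc : 0 < c)
    (hθ : SameClass (pull F (curvature L ρ)) (curvature L ρ))
    (hdd : SameClass (fun e z => pull F (pull F w) e z - (2 : ℂ) • pull F w e z + w e z)
      (fun e z => (c : ℂ) • curvature L ρ e z)) : ∃ u h, Dat F w L ρ c u h := by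
  obtain ⟨v, hv, hve⟩ := hθ
  obtain ⟨u, hu, hue⟩ := hdd
  have hF := F.contMDiff
  have hDD : FEq (DD F w) (fun e z => (c : ℂ) • curvature L ρ e z + ddc u e z) := hue
  have huF : Smooth (d := d) (fun y => u (F y)) := Smooth.comp hF hu
  set h₀ : X → ℝ := fun y => (c * v y + u (F y)) - u y with hh₀
  have hh₀s : Smooth (d := d) h₀ := ((hv.const_mul c).add huF).sub hu
  have hD₀ : FEq (pull F (DD F w)) (fun e z => DD F w e z + ddc h₀ e z) := by
    intro e x hx
    rw [pull_congr F hDD e x hx, pull_add F (fun e z => (c : ℂ) • curvature L ρ e z) (ddc u),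
      pull_smul]
    show (c : ℂ) • pull F (curvature L ρ) e (e x) + pull F (ddc u) e (e x) =
      DD F w e (e x) + ddc h₀ e (e x)
    rw [hve e x hx, hDD e x hx, ← ddc_comp hF hu e x hx, hh₀,
      ddc_sub ((hv.const_mul c).add huF) hu e x hx]
    show _ = _ + (ddc (fun y => c * v y + u (F y)) e (e x) - ddc u e (e x))
    rw [ddc_add (hv.const_mul c) huF e x hx]
    show _ = _ + (ddc (fun y => c * v y) e (e x) + ddc (fun y => u (F y)) e (e x) - ddc u e (e x))
    rw [ddc_const_mul c hv e x hx]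
    simp only [smul_add]
    abel
  obtain ⟨t, hup, hD, horb⟩ := exists_data F hs hh₀s hD₀
  exact ⟨u, fun y => h₀ y - t, hs.kahler, hρ, hc, hu, hh₀s.sub (Smooth.const _), hDD, hD, hup, horb⟩

theorem pos_of_not_exact {a : Chart d X → Cm d → Matrix (Fin d) (Fin d) ℂ} (h : ¬ IsExact a) :
    0 < d := by
  rcases Nat.eq_zero_or_pos d with rfl | hd
  · exfalso
    refine h ⟨fun _ => 0, fun e x hx => contDiffAt_const, fun e x hx => ?_⟩
    ext i
    exact i.elim0
  · exact hd

/-- isotropy of the invariant class -/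
theorem q_par (hs : IsSymplectic d X w s) (hρ : IsMetric L ρ) (F : Auto d X) (hc : 0 < c)
    (hθ : SameClass (pull F (curvature L ρ)) (curvature L ρ))
    (hdd : SameClass (fun e z => pull F (pull F w) e z - (2 : ℂ) • pull F w e z + w e z)
      (fun e z => (c : ℂ) • curvature L ρ e z)) :
    q s (curvature L ρ) (curvature L ρ) = 0 := by
  haveI : Nonempty X := inferInstance
  obtain ⟨u0, κ0, hu0, hk0⟩ := exists_rf hs hs.kahler
  have cθ := H949.isClosedForm_curvature hρ
  exact H794.q_fixed_theta F hs (SData.of hs hk0) cθ (INT.IsKahler.isClosedForm hs.kahler) cθ hθ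
    hc.ne' hdd

/-- **Nonvanishing** in the parabolic case, if `χ(O_X) ≠ 0`. -/
theorem nonvanishing_of_chi [SimplyConnectedSpace X] (hs : IsSymplectic d X w s)
    (hρ : IsMetric L ρ) (F : Auto d X) (hc : 0 < c)
    (hθ : SameClass (pull F (curvature L ρ)) (curvature L ρ))
    (hdd : SameClass (fun e z => pull F (pull F w) e z - (2 : ℂ) • pull F w e z + w e z)
      (fun e z => (c : ℂ) • curvature L ρ e z)) (hnex : ¬ IsExact (curvature L ρ))
    (hχ : H862.HB.chi0 d X ≠ 0) : ∃ k, 0 < k ∧ HasSec L k := by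
  obtain ⟨u, h, D⟩ := exists_dat hs hρ F hc hθ hdd
  refine kappa_nonneg (pos_of_not_exact hnex) hs hρ D.isNef (q_par hs hρ F hc hθ hdd) hnex
    fun N => ?_
  obtain ⟨m, p, hm, -, v, hv, -, hne⟩ := H724.exists_form_large D hχ N
  exact ⟨m, v, hm, hv, hne⟩

end Vale.Agent.P301.H450
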