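import Vale.Agent.P301.H450.EffFin
import Vale.Agent.P301.H450.EffAsm
import Vale.Agent.P301.H724.Par

/-!
# P301: effective nonvanishing for the line bundles of parabolic automorphisms
-/

open scoped Manifold ContDiff ComplexOrder Topology Matrix
open MeasureTheory Set Filter
open Vale.Agent.P272.K Vale.Agent.P299 Vale.Agent.P301.H599
open Vale.Agent.P301.H724 (IsSec Nz HasSec)

set_option linter.all false

noncomputable section

namespace Vale.Agent.P301.H450

variable {d : ℕ} {X : Type} [TopologicalSpace X] [ChartedSpace (Cm d) X]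
  [IsManifold 𝓘(ℂ, Cm d) ω X] [T2Space X] [CompactSpace X] [ConnectedSpace X]
  {w s : Chart d X → Cm d → Matrix (Fin d) (Fin d) ℂ} {ι κ : Type} {L : LineBundle d X ι}
  {Q : LineBundle d X κ} {ρ : ι → X → ℝ} {ρQ : κ → X → ℝ} {c : ℝ} {r : ℕ}

theorem IsRoot.par_one [SimplyConnectedSpace X] (h : IsRoot L ρ r Q ρQ) (F : Auto d X)
    (hθ : SameClass (pull F (curvature L ρ)) (curvature L ρ)) :
    SameClass (pull F (curvature Q ρQ)) (curvature Q ρQ) := by
  have hrC : (r : ℂ) ≠ 0 := by exact_mod_cast h.pos.ne'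
  have h1 := sc_pull F h.cls
  rw [show (fun e z => (r : ℂ) • curvature Q ρQ e z) =
    fun e z => (((r : ℝ)) : ℂ) • curvature Q ρQ e z by push_cast; rfl, pull_smul] at h1
  have h2 := sc_trans h1 (sc_trans hθ (sc_symm h.cls))
  have h3 := sc_smul (1 / (r : ℝ)) h2
  refine sc_congr h3 (fun e x hx => ?_) fun e x hx => ?_
  · rw [smul_smul]
    push_cast
    rw [one_div, inv_mul_cancel₀ hrC, one_smul]
  · rw [smul_smul]
    push_cast
    rw [one_div, inv_mul_cancel₀ hrC, one_smul]

theorem IsRoot.par_two [SimplyConnectedSpace X] (h : IsRoot L ρ r Q ρQ)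
    {a : Chart d X → Cm d → Matrix (Fin d) (Fin d) ℂ}
    (hdd : SameClass a (fun e z => (c : ℂ) • curvature L ρ e z)) :
    SameClass a (fun e z => ((c * r : ℝ) : ℂ) • curvature Q ρQ e z) := by
  refine sc_trans hdd (sc_congr (sc_smul c (sc_symm h.cls)) (fun e x hx => rfl) fun e x hx => ?_)
  rw [smul_smul]
  push_cast
  rfl

/-- twisted forms for the roots -/
theorem formsFor_par [SimplyConnectedSpace X] (hs : IsSymplectic d X w s) (hρ : IsMetric L ρ)
    (F : Auto d X) (hc : 0 < c) (hθ : SameClass (pull F (curvature L ρ)) (curvature L ρ))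
    (hdd : SameClass (fun e z => pull F (pull F w) e z - (2 : ℂ) • pull F w e z + w e z)
      (fun e z => (c : ℂ) • curvature L ρ e z)) (hnex : ¬ IsExact (curvature L ρ)) :
    FormsFor L := by
  intro k hk
  have hd := pos_of_not_exact hnex
  obtain ⟨u, h, D⟩ := exists_dat hs hρ F hc hθ hdd
  have hχ := (H599.BE.chi0_pos_of_nef hd hs (isReal11_curvature hρ) D.isNef hnex
    (q_par hs hρ F hc hθ hdd)).ne'
  obtain ⟨m, p, h1, h2, h3, v, hv, hh, i, e, x, hx, hi, hne⟩ := exists_form_eff D hχ k
  exact ⟨m, p, h1, h2, h3, v, H794.isSec_of_isHol hv, hh, x,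
    (H794.isSec_of_isHol hv).nz hx hi hne⟩

theorem nef_par [SimplyConnectedSpace X] (hs : IsSymplectic d X w s) (hρ : IsMetric L ρ)
    (F : Auto d X) (hc : 0 < c) (hθ : SameClass (pull F (curvature L ρ)) (curvature L ρ))
    (hdd : SameClass (fun e z => pull F (pull F w) e z - (2 : ℂ) • pull F w e z + w e z)
      (fun e z => (c : ℂ) • curvature L ρ e z)) : IsNef w (curvature L ρ) := by
  obtain ⟨u, h, D⟩ := exists_dat hs hρ F hc hθ hdd
  exact D.isNef

/-- **Effective nonvanishing.** The exponent `(Mb d)!` depends only on the dimension. -/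
theorem eff_nonvanishing [SimplyConnectedSpace X] (hs : IsSymplectic d X w s) (hρ : IsMetric L ρ)
    (F : Auto d X) (hc : 0 < c) (hθ : SameClass (pull F (curvature L ρ)) (curvature L ρ))
    (hdd : SameClass (fun e z => pull F (pull F w) e z - (2 : ℂ) • pull F w e z + w e z)
      (fun e z => (c : ℂ) • curvature L ρ e z)) : HasSec L (Mb d).factorial := by
  by_cases hex : IsExact (curvature L ρ)
  · exact H724.hasSec_of_exact hρ hex _
  have hd := pos_of_not_exact hex
  have hn := nef_par hs hρ F hc hθ hdd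
  have hq := q_par hs hρ F hc hθ hdd
  refine sec_of_frac hd hs hρ hn hex fun r κ Q ρQ hQ => ?_
  exact exists_frac hd hs hQ.met (hQ.nef hn) (hQ.iso hs hρ hq) (hQ.not_exact hex)
    (formsFor_par hs hQ.met F (mul_pos hc (by exact_mod_cast hQ.pos : (0 : ℝ) < r))
      (hQ.par_one F hθ) (hQ.par_two hdd) (hQ.not_exact hex))

end Vale.Agent.P301.H450
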