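import Vale.Agent.P301.H450.Q

/-!
# P301: the Hodge index theorem for `q`
-/

open scoped Manifold ContDiff ComplexOrder Topology Matrix
open Vale.Agent.P272.K Vale.Agent.P272.K.C2
open Vale.Agent.P299 Vale.Agent.P299.H954 Vale.Agent.P301.H599
open Vale.Agent.P272.K.INT (IsClosedForm IsDensity intX)

set_option linter.all false

noncomputable section

namespace Vale.Agent.P301.H450

variable {d : ℕ} {X : Type} [TopologicalSpace X] [ChartedSpace (Cm d) X]
  {w w0 w1 w2 χ s a a' b b' c θ : Chart d X → Cm d → Matrix (Fin d) (Fin d) ℂ} {e : Chart d X} {x : X}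

/-- a closed real `(1,1)`-form -/
structure IsReal11 [IsManifold 𝓘(ℂ, Cm d) ω X]
    (a : Chart d X → Cm d → Matrix (Fin d) (Fin d) ℂ) : Prop extends IsClosedForm a where
  herm : ∀ e x, At e x → (a e (e x)).IsHermitian

variable [IsManifold 𝓘(ℂ, Cm d) ω X]

theorem IsReal11.add (ha : IsReal11 a) (hb : IsReal11 b) : IsReal11 fun e z => a e z + b e z where
  toIsClosedForm := ha.toIsClosedForm.add hb.toIsClosedForm
  herm e x hx := (ha.herm e x hx).add (hb.herm e x hx)

theorem IsReal11.smul (ha : IsReal11 a) (r : ℝ) : IsReal11 fun e z => (r : ℂ) • a e z where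
  toIsClosedForm := ha.toIsClosedForm.smul (r : ℂ)
  herm e x hx := by
    have := ha.herm e x hx
    show ((r : ℂ) • a e (e x))ᴴ = _
    rw [Matrix.conjTranspose_smul, this.eq]
    congr 1
    exact Complex.conj_ofReal r

theorem isReal11_ddc {u : X → ℝ} (hu : SmoothFn (n := d) u) : IsReal11 (ddc (d := d) u) where
  toIsClosedForm := INT.isClosedForm_cHess hu
  herm e x hx := C2.cHess_isHermitian ((hu e x hx).of_le (by norm_cast))

theorem isReal11_kahler (hw : IsKahler w) : IsReal11 w where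
  toIsClosedForm := INT.IsKahler.isClosedForm hw
  herm e x hx := (hw.posDef e x hx).isHermitian

theorem isKahler_of (ha : IsReal11 a) (hp : ∀ e x, At e x → (a e (e x)).PosDef) : IsKahler a where
  smooth := ha.smooth
  posDef := hp
  change := ha.form
  closed e x h i j k := ha.closed e x h k i j

variable [T2Space X] [CompactSpace X]

/-- `w + r a` is a Kähler metric for small `r` -/
theorem exists_small (hw : IsKahler w) (ha : IsReal11 a) : ∃ r : ℝ, 0 < r ∧
    IsKahler fun e z => w e z + (r : ℂ) • a e z := by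
  have ha' := ha.smul (-1)
  obtain ⟨C, hC, h⟩ := QN.exists_comparison_form hw.toIsHermitian ha'.smooth ha'.herm ha'.form
  refine ⟨1 / (2 * C), by positivity, isKahler_of ((isReal11_kahler hw).add (ha.smul _)) fun e x hx => ?_⟩
  have h1 : (((1 / (2 * C) : ℝ) : ℂ) • ((C : ℂ) • w e (e x) - ((-1 : ℝ) : ℂ) • a e (e x))).PosSemidef :=
    (h e x hx).smul (by exact_mod_cast (by positivity : (0 : ℝ) ≤ 1 / (2 * C)))
  have h2 : (((1 / 2 : ℝ) : ℂ) • w e (e x)).PosDef :=
    (hw.posDef e x hx).smul (by exact_mod_cast (by norm_num : (0 : ℝ) < 1 / 2))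
  have h3 := Matrix.PosDef.add_posSemidef h2 h1
  have e1 : ((1 / 2 : ℝ) : ℂ) • w e (e x) +
      ((1 / (2 * C) : ℝ) : ℂ) • ((C : ℂ) • w e (e x) - ((-1 : ℝ) : ℂ) • a e (e x)) =
      w e (e x) + ((1 / (2 * C) : ℝ) : ℂ) • a e (e x) := by
    have hC' : (C : ℂ) ≠ 0 := by exact_mod_cast hC.ne'
    ext i j
    simp only [Matrix.add_apply, Matrix.smul_apply, Matrix.sub_apply, smul_eq_mul]
    push_cast
    field_simp
    ring
  rwa [e1] at h3

variable [ConnectedSpace X] {κ : ℝ}

theorem SData.of (h : IsSymplectic d X w0 s) (hw : IsHK s w κ) : SData s w κ :=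
  ⟨h.form, h.nondeg, hw⟩

/-- **Hodge index theorem** for `q`, primitive classes -/
theorem hodge_prim (hd : 0 < d) (h : IsSymplectic d X w0 s) (hw : IsHK s w κ) (ha : IsReal11 a)
    (h0 : q s a w = 0) : q s a a ≤ 0 ∧ (q s a a = 0 →
      ∃ u : X → ℝ, SmoothFn (n := d) u ∧ ∀ e x, At e x → a e (e x) = ddc u e (e x)) := by
  haveI : Nonempty X := inferInstance
  have S := SData.of h hw
  obtain ⟨r, hr, hχ⟩ := exists_small hw.kahler ha
  obtain ⟨u, κr, hu, hk⟩ := exists_rf h hχ
  have Sr := SData.of h hk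
  have cw := INT.IsKahler.isClosedForm hw.kahler
  have ca := ha.toIsClosedForm
  have cra : IsClosedForm fun e z => (r : ℂ) • a e z := ca.smul _
  have cχ : IsClosedForm fun e z => w e z + (r : ℂ) • a e z := cw.add cra
  have cu := isClosed_ddc hu
  set wr : Chart d X → Cm d → Matrix (Fin d) (Fin d) ℂ :=
    addH (fun e z => w e z + (r : ℂ) • a e z) u with hwr
  have ewr : wr = fun e z => (fun e z => w e z + (r : ℂ) • a e z) e z + ddc u e z := rfl
  have V := vol_pos S
  have hdR : (0 : ℝ) < d := by exact_mod_cast hd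
  set D : ℝ := d * vol s with hD
  have hDp : 0 < D := by positivity
  -- `q wr w = κ D`
  have q1 : q s wr w = κ * D := by
    rw [ewr, q_add_left S cχ cu cw, q_add_left S cw cra cw, q_smul_left, h0, q_hess_left S cw hu,
      q_self S]
    ring
  have q2 : q s wr wr = κ * D + r ^ 2 * q s a a := by
    have cwr : IsClosedForm wr := cχ.add cu
    have e1 : q s wr wr = q s wr (fun e z => w e z + (r : ℂ) • a e z) := by
      conv_lhs => rw [ewr]
      rw [q_add_left S cχ cu (by rw [← ewr]; exact cwr)]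
      rw [← ewr, q_hess_left S cwr hu, add_zero, q_symm S]
    rw [e1, ewr, q_add_left S cχ cu cχ, q_hess_left S cχ hu, add_zero,
      q_add_left S cw cra cχ, q_add_right S cw cw cra, q_add_right S cra cw cra, q_smul_left,
      q_smul_left, q_smul_right S, q_smul_right S, q_symm S w a, h0, q_self S]
    ring
  have q3 : q s wr wr = κr * D := q_self Sr
  have hp := hk_pair Sr S
  rw [q1] at hp
  have hκ := hw.pos
  have hκr := hk.pos
  -- `κr ≤ κ`
  have hle : κr ≤ κ := by
    have h1 : Real.sqrt (κr * κ) ≤ κ := by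
      have := hp.1
      rw [mul_comm κ D] at this
      exact le_of_mul_le_mul_left this hDp
    have h2 : κr * κ ≤ κ ^ 2 := by
      have h3 := Real.sq_sqrt (mul_pos hκr hκ).le
      nlinarith [Real.sqrt_nonneg (κr * κ)]
    nlinarith
  have hr2 : 0 < r ^ 2 := by positivity
  refine ⟨?_, fun hq0 => ?_⟩
  · have h5 : r ^ 2 * q s a a = (κr - κ) * D := by linarith
    have h6 : (κr - κ) * D ≤ 0 := mul_nonpos_of_nonpos_of_nonneg (by linarith) hDp.le
    by_contra hcon
    push Not at hcon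
    have := mul_pos hr2 hcon
    linarith
  · have h5 : κr = κ := by
      have : κr * D = κ * D := by rw [← q3, q2, hq0]; ring
      exact mul_right_cancel₀ hDp.ne' this
    have h6 := hp.2 h5 rfl
    refine ⟨fun x => -(1 / r) * u x, fun e x hx => contDiffAt_const.mul (hu e x hx),
      fun e x hx => ?_⟩
    have h7 := h6 e x hx
    have h8 : ddc (fun x => -(1 / r) * u x) e (e x) = ((-(1 / r) : ℝ) : ℂ) • ddc u e (e x) :=
      C2.cHess_const_mul (-(1 / r)) ((hu e x hx).of_le (by norm_cast))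
    have h9 : (r : ℂ) • a e (e x) + ddc u e (e x) = 0 := by
      have h10 : w e (e x) = w e (e x) + (r : ℂ) • a e (e x) + ddc u e (e x) := h7
      rw [add_assoc] at h10
      exact (left_eq_add.1 h10)
    have hrc : (r : ℂ) ≠ 0 := by exact_mod_cast hr.ne'
    rw [h8]
    have h11 : ddc u e (e x) = -((r : ℂ) • a e (e x)) := by
      rw [eq_neg_iff_add_eq_zero, add_comm]; exact h9
    rw [h11, smul_neg, smul_smul]
    push_cast
    rw [neg_mul, one_div, inv_mul_cancel₀ hrc, neg_smul, one_smul, neg_neg]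

/-- **Hodge index theorem** -/
theorem hodge_index (hd : 0 < d) (h : IsSymplectic d X w0 s) (hw : IsHK s w κ)
    (ha : IsReal11 a) (hθ : IsReal11 θ) (h1 : q s θ θ = 0) (h2 : 0 < q s θ w) (h3 : q s a θ = 0)
    (h4 : 0 ≤ q s a a) : ∃ u : X → ℝ, SmoothFn (n := d) u ∧ ∀ e x, At e x →
      a e (e x) = ((q s a w / q s θ w : ℝ) : ℂ) • θ e (e x) + ddc u e (e x) := by
  have S := SData.of h hw
  set t : ℝ := q s a w / q s θ w with ht
  have hc : IsReal11 fun e z => a e z + ((-t : ℝ) : ℂ) • θ e z := ha.add (hθ.smul _)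
  have cw := INT.IsKahler.isClosedForm hw.kahler
  have cθ' : IsClosedForm fun e z => ((-t : ℝ) : ℂ) • θ e z := hθ.toIsClosedForm.smul _
  have ca := ha.toIsClosedForm
  have e0 : q s (fun e z => a e z + ((-t : ℝ) : ℂ) • θ e z) w = 0 := by
    rw [q_add_left S ca cθ' cw, q_smul_left, ht]
    field_simp
    ring
  have e1 : q s (fun e z => a e z + ((-t : ℝ) : ℂ) • θ e z)
      (fun e z => a e z + ((-t : ℝ) : ℂ) • θ e z) = q s a a := by
    rw [q_add_left S ca cθ' hc.toIsClosedForm, q_add_right S ca ca cθ', q_add_right S cθ' ca cθ',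
      q_smul_left, q_smul_left, q_smul_right S, q_smul_right S, h1, h3, q_symm S θ a, h3]
    ring
  have h5 := hodge_prim hd h hw hc e0
  rw [e1] at h5
  obtain ⟨u, hu, heq⟩ := h5.2 (le_antisymm h5.1 h4)
  refine ⟨u, hu, fun e x hx => ?_⟩
  have := heq e x hx
  beta_reduce at this
  rw [← this]
  push_cast
  rw [neg_smul]
  abel

/-- the class of `θ` is nef -/
def IsNef (w θ : Chart d X → Cm d → Matrix (Fin d) (Fin d) ℂ) : Prop :=
  ∀ ε : ℝ, 0 < ε → ∃ u : X → ℝ, SmoothFn (n := d) u ∧ ∀ e x, At e x →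
    (θ e (e x) + (ε : ℂ) • w e (e x) + ddc u e (e x)).PosSemidef

/-- the class of `a` is zero -/
def IsExact (a : Chart d X → Cm d → Matrix (Fin d) (Fin d) ℂ) : Prop :=
  ∃ u : X → ℝ, SmoothFn (n := d) u ∧ ∀ e x, At e x → a e (e x) = ddc u e (e x)

/-- nef classes pair nonnegatively with semipositive forms -/
theorem q_nef_nonneg (h : IsSymplectic d X w0 s) (hw : IsHK s w κ) (hw0 : IsKahler w0)
    (hθ : IsReal11 θ) (hn : IsNef w0 θ) (ha : IsReal11 a)
    (hp : ∀ e x, At e x → (a e (e x)).PosSemidef) : 0 ≤ q s θ a := by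
  have S := SData.of h hw
  have c0 := INT.IsKahler.isClosedForm hw0
  refine le_of_forall_pos_lt_add fun ε hε => ?_
  have hq0 : 0 ≤ q s w0 a := q_nonneg S (fun e x hx => (hw0.posDef e x hx).posSemidef) hp
  obtain ⟨u, hu, hpos⟩ := hn (ε / (q s w0 a + 1)) (by positivity)
  set δ : ℝ := ε / (q s w0 a + 1) with hδ
  have h1 : 0 ≤ q s (fun e z => (θ e z + (δ : ℂ) • w0 e z) + ddc u e z) a := q_nonneg S hpos hp
  rw [q_add_left S (hθ.toIsClosedForm.add (c0.smul _)) (isClosed_ddc hu) ha.toIsClosedForm,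
    q_add_left S hθ.toIsClosedForm (c0.smul _) ha.toIsClosedForm, q_smul_left,
    q_hess_left S ha.toIsClosedForm hu, add_zero] at h1
  have h2 : δ * q s w0 a < ε := by
    rw [hδ, div_mul_eq_mul_div, div_lt_iff₀ (by positivity)]
    nlinarith
  linarith

/-- `q(θ,θ) ≥ 0` for nef classes -/
theorem q_nef_self (h : IsSymplectic d X w0 s) (hw : IsHK s w κ) (hw0 : IsKahler w0)
    (hθ : IsReal11 θ) (hn : IsNef w0 θ) : 0 ≤ q s θ θ := by
  have S := SData.of h hw
  have c0 := INT.IsKahler.isClosedForm hw0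
  have cθ := hθ.toIsClosedForm
  -- `q(θ + δ w0, θ + δ w0) ≥ 0`
  have key : ∀ δ : ℝ, 0 < δ → 0 ≤ q s θ θ + 2 * δ * q s θ w0 + δ ^ 2 * q s w0 w0 := by
    intro δ hδ
    obtain ⟨u, hu, hpos⟩ := hn δ hδ
    have c1 : IsClosedForm fun e z => θ e z + (δ : ℂ) • w0 e z := cθ.add (c0.smul _)
    have h1 : 0 ≤ q s (fun e z => (θ e z + (δ : ℂ) • w0 e z) + ddc u e z)
        (fun e z => (θ e z + (δ : ℂ) • w0 e z) + ddc u e z) := q_nonneg S hpos hpos
    rw [q_add_left S c1 (isClosed_ddc hu) (c1.add (isClosed_ddc hu)),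
      q_add_right S c1 c1 (isClosed_ddc hu), q_add_right S (isClosed_ddc hu) c1 (isClosed_ddc hu),
      q_hess_left S c1 hu, q_hess_right S c1 hu, q_hess_left S (isClosed_ddc hu) hu,
      q_add_left S cθ (c0.smul _) c1, q_add_right S cθ cθ (c0.smul _),
      q_add_right S (c0.smul _) cθ (c0.smul _), q_smul_left, q_smul_left, q_smul_right S,
      q_smul_right S, q_symm S w0 θ] at h1
    linarith
  refine le_of_forall_pos_lt_add fun ε hε => ?_
  have hlim : Filter.Tendsto (fun δ : ℝ => q s θ θ + 2 * δ * q s θ w0 + δ ^ 2 * q s w0 w0)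
      (𝓝[>] 0) (𝓝 (q s θ θ + 2 * 0 * q s θ w0 + 0 ^ 2 * q s w0 w0)) := by
    have : Continuous fun δ : ℝ => q s θ θ + 2 * δ * q s θ w0 + δ ^ 2 * q s w0 w0 := by fun_prop
    exact (this.tendsto 0).mono_left nhdsWithin_le_nhds
  have h2 : 0 ≤ q s θ θ + 2 * 0 * q s θ w0 + 0 ^ 2 * q s w0 w0 := by
    refine ge_of_tendsto hlim ?_
    filter_upwards [self_mem_nhdsWithin] with δ hδ using key δ hδ
  simp only [mul_zero, zero_mul, add_zero, ne_eq, OfNat.ofNat_ne_zero, not_false_eq_true,
    zero_pow] at h2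
  linarith

/-- a nef class which is not zero pairs positively with Kähler metrics -/
theorem q_nef_pos (hd : 0 < d) (h : IsSymplectic d X w0 s) (hw : IsHK s w κ) (hw0 : IsKahler w0)
    (hθ : IsReal11 θ) (hn : IsNef w0 θ) (hne : ¬ IsExact θ) : 0 < q s θ w := by
  have h1 := q_nef_nonneg h hw hw0 hθ hn (isReal11_kahler hw.kahler)
    fun e x hx => (hw.kahler.posDef e x hx).posSemidef
  refine lt_of_le_of_ne h1 fun h0 => hne ?_
  have h2 := hodge_prim hd h hw hθ h0.symm
  exact h2.2 (le_antisymm h2.1 (q_nef_self h hw hw0 hθ hn))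

end Vale.Agent.P301.H450
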