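import Vale.Agent.P301.H450.Par
import Vale.Agent.P299.H835.Yau

/-!
# P301: Ricci-flat Kähler metrics are compatible with the symplectic form
-/

open scoped Manifold ContDiff ComplexOrder Topology Matrix
open Vale.Agent.P272.K Vale.Agent.P272.K.C2 Vale.Agent.P272.K.AMP
open Vale.Agent.P299 Vale.Agent.P299.H954 Vale.Agent.P301.H599

set_option linter.all false

noncomputable section

namespace Vale.Agent.P301.H450

variable {d : ℕ} {X : Type} [TopologicalSpace X] [ChartedSpace (Cm d) X]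
  {w w0 χ s : Chart d X → Cm d → Matrix (Fin d) (Fin d) ℂ} {e : Chart d X} {x : X}

lemma isUnit_conjT {S : Matrix (Fin d) (Fin d) ℂ} (h : IsUnit S.det) : IsUnit Sᴴ.det := by
  rw [Matrix.det_conjTranspose]; exact h.star

/-- the constant in `w s⁻ᴴ wᵀ = c s` is positive -/
lemma const_pos [NeZero d] {A S : Matrix (Fin d) (Fin d) ℂ} (hA : A.PosDef) (hS : IsUnit S.det)
    {c : ℂ} (h : A * (Sᴴ)⁻¹ * Aᵀ = c • S) : ∃ κ : ℝ, 0 < κ ∧ c = κ := by
  have h1 : S⁻¹ * A * (S⁻¹)ᴴ * Aᵀ = c • 1 := by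
    have := congrArg (S⁻¹ * ·) h
    simp only [Matrix.mul_smul, Matrix.nonsing_inv_mul _ hS] at this
    rw [← this, Matrix.conjTranspose_nonsing_inv]
    simp only [Matrix.mul_assoc]
  have h2 : 0 ≤ (S⁻¹ * A * (S⁻¹)ᴴ * Aᵀ).trace :=
    trace_mul_nonneg (hA.posSemidef.mul_mul_conjTranspose_same _) hA.posSemidef.transpose
  rw [h1, Matrix.trace_smul, Matrix.trace_one, Fintype.card_fin, smul_eq_mul] at h2
  have hd : (0 : ℝ) < d := by exact_mod_cast Nat.pos_of_ne_zero (NeZero.ne d)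
  have h3 : 0 ≤ c := by
    have h4 := Complex.le_def.1 h2
    simp only [Complex.zero_re, Complex.zero_im, Complex.mul_re, Complex.mul_im,
      Complex.natCast_re, Complex.natCast_im, mul_zero, sub_zero, zero_add] at h4
    refine Complex.le_def.2 ⟨?_, ?_⟩
    · rw [Complex.zero_re]; exact nonneg_of_mul_nonneg_left h4.1 hd
    · rw [Complex.zero_im]
      have := h4.2
      rcases mul_eq_zero.1 (by linarith [this] : c.im * d = 0) with h | h
      · exact h.symm
      · exact absurd h hd.ne'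
  have h0 : c ≠ 0 := by
    rintro rfl
    rw [zero_smul] at h
    haveI hne : Nonempty (Fin d) := Fin.pos_iff_nonempty.1 (Nat.pos_of_ne_zero (NeZero.ne d))
    have hdt := congrArg Matrix.det h
    rw [Matrix.det_mul, Matrix.det_mul, Matrix.det_transpose, Matrix.det_zero] at hdt
    have hA0 := hA.det_pos.ne'
    have hS0 : ((Sᴴ)⁻¹).det ≠ 0 := by
      rw [Matrix.det_nonsing_inv, Ring.inverse_eq_inv']
      exact inv_ne_zero (isUnit_conjT hS).ne_zero
    exact mul_ne_zero (mul_ne_zero hA0 hS0) hA0 hdt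
  refine ⟨c.re, ?_, ?_⟩
  · have := Complex.lt_def.1 (lt_of_le_of_ne h3 h0.symm)
    exact this.1
  · exact Complex.ext rfl (Complex.le_def.1 h3).2.symm

/-- consequence for the inverse matrices -/
lemma inv_rel {A S : Matrix (Fin d) (Fin d) ℂ} (hA : IsUnit A.det) (hS : IsUnit S.det)
    {c : ℂ} (h : A * (Sᴴ)⁻¹ * Aᵀ = c • S) : (Sᴴ)⁻¹ * Aᵀ * S⁻¹ = c • A⁻¹ := by
  have h1 : (Sᴴ)⁻¹ * Aᵀ = A⁻¹ * (c • S) := by
    rw [← h]
    simp only [← Matrix.mul_assoc, Matrix.nonsing_inv_mul _ hA, Matrix.one_mul]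
  rw [h1, Matrix.mul_smul, Matrix.smul_mul, Matrix.mul_assoc, Matrix.mul_nonsing_inv _ hS,
    Matrix.mul_one]

/-- consequence for the determinants -/
lemma det_rel {A S : Matrix (Fin d) (Fin d) ℂ} (hA : A.PosDef) (hS : IsUnit S.det)
    {κ : ℝ} (h : A * (Sᴴ)⁻¹ * Aᵀ = (κ : ℂ) • S) : A.det.re ^ 2 = κ ^ d * ‖S.det‖ ^ 2 := by
  have h1 := congrArg Matrix.det h
  rw [Matrix.det_mul, Matrix.det_mul, Matrix.det_transpose, Matrix.det_nonsing_inv,
    Ring.inverse_eq_inv', Matrix.det_conjTranspose, Matrix.det_smul, Fintype.card_fin] at h1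
  have h2 : star S.det ≠ 0 := star_ne_zero.2 hS.ne_zero
  have h3 : A.det * A.det = (κ : ℂ) ^ d * (S.det * star S.det) := by
    field_simp at h1
    linear_combination h1
  have h4 : A.det = (A.det.re : ℂ) := by
    have := (Complex.lt_def.1 hA.det_pos).2
    exact Complex.ext rfl (by simpa using this.symm)
  have h5 : S.det * star S.det = ((‖S.det‖ ^ 2 : ℝ) : ℂ) := by
    rw [RCLike.star_def, Complex.mul_conj, Complex.normSq_eq_norm_sq]
  rw [h4, h5] at h3
  have h6 : ((A.det.re ^ 2 : ℝ) : ℂ) = ((κ ^ d * ‖S.det‖ ^ 2 : ℝ) : ℂ) := by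
    push_cast
    push_cast at h3
    rw [← h3]; ring
  exact_mod_cast h6

/-- `w` is compatible with `s`, with the constant `κ` -/
structure IsHK (s w : Chart d X → Cm d → Matrix (Fin d) (Fin d) ℂ) (κ : ℝ) : Prop where
  pos : 0 < κ
  kahler : IsKahler w
  ric : D.RicNonneg w
  rel : ∀ e x, At e x → w e (e x) * ((s e (e x))ᴴ)⁻¹ * (w e (e x))ᵀ = (κ : ℂ) • s e (e x)

variable [IsManifold 𝓘(ℂ, Cm d) ω X] [T2Space X] [CompactSpace X] [ConnectedSpace X]

/-- **Compatibility** of Kähler metrics with `Ric ≥ 0` with the symplectic form. -/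
theorem exists_isHK (h : IsSymplectic d X w0 s) (hw : IsKahler w) (hric : D.RicNonneg w) :
    ∃ κ : ℝ, IsHK s w κ := by
  obtain ⟨c, hc⟩ := h.unique _ (isHolTwoForm_eta hw hric h.form h.nondeg)
  by_cases hd : d = 0
  · subst hd
    refine ⟨1, one_pos, hw, hric, fun e x hx => ?_⟩
    ext i; exact i.elim0
  · haveI : NeZero d := ⟨hd⟩
    obtain ⟨x0⟩ : Nonempty X := inferInstance
    have hx0 := AMP.at_chartAt (n := d) x0
    obtain ⟨κ, hκ, rfl⟩ := const_pos (hw.posDef _ x0 hx0)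
      (isUnit_iff_ne_zero.2 (h.nondeg _ x0 hx0)) (hc _ x0 hx0)
    exact ⟨κ, hκ, hw, hric, fun e x hx => hc e x hx⟩

/-- the volume form of `s` as a metric on the canonical bundle -/
theorem isCanonical_s (h : IsHolTwoForm s) (hn : ∀ e x, At e x → (s e (e x)).det ≠ 0) :
    IsCanonicalMetric fun (e : Chart d X) z => Real.log ‖(s e z).det‖ where
  smooth e x hx := by
    have h1 : ContDiffAt ℝ ∞ (fun z => (s e z).det) (e x) := MC.det (MC_s h hx)
    have h2 : ContDiffAt ℝ ∞ (fun z => ‖(s e z).det‖) (e x) := h1.norm ℝ (hn e x hx)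
    exact h2.log (norm_ne_zero_iff.2 (hn e x hx))
  change e e' x hx hx' := by
    show Real.log ‖(s e (e x)).det‖ = Real.log ‖(s e' (e' x)).det‖ + _
    have hJ : ‖(jacM e e' x).det‖ ≠ 0 := norm_ne_zero_iff.2 (jacM_isUnit hx hx').ne_zero
    have hs : ‖(s e' (e' x)).det‖ ≠ 0 := norm_ne_zero_iff.2 (hn e' x hx')
    rw [h.change e e' x hx hx', Matrix.det_mul, Matrix.det_mul, Matrix.det_transpose, norm_mul,
      norm_mul, ← Real.log_mul hs (by positivity)]
    congr 1
    ring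

theorem cHess_log_det_s (h : IsHolTwoForm s) (hn : ∀ e x, At e x → (s e (e x)).det ≠ 0)
    (hx : At e x) : cHess (fun z => Real.log ‖(s e z).det‖) (e x) = 0 := by
  have hol : ContDiffAt ℂ ω (fun z => (s e z).det) (e x) := by
    simp only [Matrix.det_apply]
    refine ContDiffAt.sum fun σ _ => ?_
    have h1 : ContDiffAt ℂ ω (fun y => ∏ i, s e y (σ i) i) (e x) :=
      contDiffAt_prod fun i _ => (h.holo e x hx (σ i) i).contDiffAt
    exact h1.const_smul (Equiv.Perm.sign σ)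
  have h1 := cHess_log_norm_sq hol (hn e x hx)
  have h2 : (fun z => Real.log (‖(s e z).det‖ ^ 2)) = fun z => (2 : ℝ) * Real.log ‖(s e z).det‖ := by
    funext z; rw [Real.log_pow]; norm_num
  have h3 : ContDiffAt ℝ 2 (fun z => Real.log ‖(s e z).det‖) (e x) :=
    ((isCanonical_s h hn).smooth e x hx).of_le (by norm_cast)
  rw [h2, C2.cHess_const_mul (2 : ℝ) h3] at h1
  have : ((2 : ℝ) : ℂ) ≠ 0 := by norm_num
  exact (smul_eq_zero.1 h1).resolve_left this

/-- **HKC**: every Kähler class contains a Kähler metric compatible with `s`. -/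
theorem exists_rf (h : IsSymplectic d X w0 s) (hχ : IsKahler χ) :
    ∃ (u : X → ℝ) (κ : ℝ), SmoothFn (n := d) u ∧ IsHK s (addH χ u) κ := by
  have hφ := isCanonical_s h.form h.nondeg
  obtain ⟨u, c, hu, hk, hdet, hh⟩ := H835.yauMetric hχ hφ
  have hric : D.RicNonneg (addH χ u) := by
    intro e x hx
    have : D.ric (addH χ u) e (e x) = 0 := by
      rw [D.ric, hh e x hx, cHess_log_det_s h.form h.nondeg hx, neg_zero]
    rw [this]
    exact Matrix.PosSemidef.zero
  obtain ⟨κ, hκ⟩ := exists_isHK h hk hric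
  exact ⟨u, κ, hu, hκ⟩

end Vale.Agent.P301.H450
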