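import Vale.Agent.P301.H99.PairV
import Vale.Agent.P301.H99.Lim

/-! # Nef, effective and trivial line bundles; sums and proportional classes -/

open scoped Manifold ContDiff ComplexOrder Topology

noncomputable section

namespace Vale.Agent.P301.H450.HK

open Vale.Agent.P272.K Vale.Agent.P301.H599 Vale.Agent.P301.H99

variable {d : ℕ} {X : Type} [TopologicalSpace X] [ChartedSpace (Cm d) X] {ι κ α β : Type}

/-- `D` is nef: for every Kähler metric `w` and every `ε > 0` it has a smooth metric of curvature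
`≥ -ε w`. (On a compact Kähler manifold it suffices to know this for one Kähler metric `w`.) -/
def Nef (D : LineBundle d X κ) : Prop :=
  ∀ w : Chart d X → Cm d → Matrix (Fin d) (Fin d) ℂ, IsKahler w → ∀ ε : ℝ, 0 < ε →
    ∃ ρ : κ → X → ℝ, IsMetric D ρ ∧ ∀ e x, At e x →
      (curvature D ρ e (e x) + (ε : ℂ) • w e (e x)).PosSemidef

/-- `D` has a nonzero holomorphic section. -/
def Effective (D : LineBundle d X κ) : Prop :=
  ∃ f : κ → X → ℂ, Sec D 1 f ∧ ∃ i x, x ∈ D.U i ∧ f i x ≠ 0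

/-- `D` has a holomorphic section without zeros, that is, `D` is trivial. -/
def Trivial (D : LineBundle d X κ) : Prop :=
  ∃ f : κ → X → ℂ, Sec D 1 f ∧ ∀ i x, x ∈ D.U i → f i x ≠ 0

/-- `D` has `n` algebraically independent holomorphic sections; in particular the Iitaka dimension
of `D` is at least `n - 1`. -/
def HasAlgInd (D : LineBundle d X κ) (n : ℕ) : Prop :=
  ∃ f : Fin n → κ → X → ℂ, (∀ k, Sec D 1 (f k)) ∧
    ∀ (m : ℕ) (P : MvPolynomial (Fin n) ℂ), P.IsHomogeneous m →
      (∀ i x, x ∈ D.U i → MvPolynomial.eval (fun k => f k i x) P = 0) → P = 0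

/-- `D^p` has `r` linearly independent holomorphic sections. -/
def HasInd (D : LineBundle d X κ) (p r : ℕ) : Prop :=
  ∃ g : Fin r → κ → X → ℂ, (∀ a, Sec D p (g a)) ∧
    ∀ c : Fin r → ℂ, (∀ i x, x ∈ D.U i → ∑ a, c a * g a i x = 0) → c = 0

/-- `c₁(D) = c₁(A) + c₁(B)`. -/
def IsSum (D : LineBundle d X κ) (A : LineBundle d X α) (B : LineBundle d X β) : Prop :=
  ∃ (ρ : κ → X → ℝ) (ρA : α → X → ℝ) (ρB : β → X → ℝ),
    IsMetric D ρ ∧ IsMetric A ρA ∧ IsMetric B ρB ∧
    SameClass (curvature D ρ) (fun e z => curvature A ρA e z + curvature B ρB e z)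

/-- `p c₁(D) = q c₁(L)`. -/
def Proportional (p : ℕ) (D : LineBundle d X κ) (q : ℕ) (L : LineBundle d X ι) : Prop :=
  ∃ (ρ : κ → X → ℝ) (ρL : ι → X → ℝ), IsMetric D ρ ∧ IsMetric L ρL ∧
    SameClass (fun e z => (p : ℂ) • curvature D ρ e z) (fun e z => (q : ℂ) • curvature L ρL e z)

/-- `X` has a Kähler metric `w`, a holomorphic symplectic form `s` with `H⁰(X, Ω²) = ℂ s`, and an
automorphism `F` with `F^* c₁(L) = c₁(L)` and `(F^* - 1)² [w] = c c₁(L)`, `c > 0`: the line bundle
`L` is preserved by a parabolic automorphism. -/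
def IsPar (L : LineBundle d X ι) : Prop :=
  ∃ (w s : Chart d X → Cm d → Matrix (Fin d) (Fin d) ℂ) (ρ : ι → X → ℝ) (F : Auto d X) (c : ℝ),
    IsSymplectic d X w s ∧ IsMetric L ρ ∧ 0 < c ∧
    SameClass (pull F (curvature L ρ)) (curvature L ρ) ∧
    SameClass (fun e z => pull F (pull F w) e z - (2 : ℂ) • pull F w e z + w e z)
      (fun e z => (c : ℂ) • curvature L ρ e z)

end Vale.Agent.P301.H450.HK
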