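import Vale.Agent.P301.H450.HKPairs

/-!
# P301: line bundles proportional to limits
-/

open scoped Manifold ContDiff ComplexOrder Topology
open Filter Vale.Agent.P272.K Vale.Agent.P301.H599
open Vale.Agent.P301.H949 (IsoPow isoPow_of_curvature)
open Vale.Agent.P301.H99 (Sec IsPairV IsPair IsLimit)

set_option linter.all false

noncomputable section

namespace Vale.Agent.P301.H450

section

variable {d : ℕ} {X : Type} [TopologicalSpace X] [ChartedSpace (Cm d) X]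
  [IsManifold 𝓘(ℂ, Cm d) ω X] [T2Space X] [CompactSpace X] {ι μ : Type}
  {L : LineBundle d X ι} {D : LineBundle d X μ}

theorem isoPow_of_prop [SimplyConnectedSpace X] {a b : ℕ} (h : HK.Proportional a D b L) :
    IsoPow L b D (a : ℤ) := by
  obtain ⟨ρ, ρL, hρ, hL, u, hu, hue⟩ := h
  refine isoPow_of_curvature hρ hL (q := b) (a := (a : ℤ))
    ⟨fun x => (-1) * u x, Smooth.const_mul _ hu, fun e x hx => ?_⟩
  have h1 := hue e x hx
  rw [ddc_const_mul _ hu e x hx]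
  simp only at h1
  simp only [Int.cast_natCast]
  rw [h1]
  simp

variable {Y : ℕ → Type} [∀ k, TopologicalSpace (Y k)] [∀ k, T2Space (Y k)]
  [∀ k, CompactSpace (Y k)] [∀ k, SimplyConnectedSpace (Y k)] [∀ k, ChartedSpace (Cm d) (Y k)]
  [∀ k, IsManifold 𝓘(ℂ, Cm d) ω (Y k)] {κ : ℕ → Type} {M : ∀ k, LineBundle d (Y k) (κ k)}

/-- nonvanishing for line bundles proportional to limits -/
theorem limit_one (hM : ∀ k, IsPair (M k)) (hlim : IsLimit L Y κ M) {a b : ℕ}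
    (h : HK.Proportional a D b L) : ∃ f : μ → X → ℂ, Sec D (a * (Mb d).factorial) f ∧
      ∃ i x, x ∈ D.U i ∧ f i x ≠ 0 := by
  obtain ⟨N, ⟨C⟩⟩ := hlim
  haveI : SimplyConnectedSpace X := (C.φ 0).toHomotopyEquiv.simplyConnectedSpace
  obtain ⟨f, hf, hne⟩ := C.one_sec (K := (Mb d).factorial) fun n => by
    obtain ⟨f, h1, h2, h3⟩ := (hM n).hasSec
    exact ⟨f, ⟨h1, h2⟩, h3⟩
  obtain ⟨i, x, hx, h0⟩ := hne
  refine one_transport (isoPow_of_prop h) (Mb d).factorial (f := fun i x => f i x ^ b)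
    ⟨fun i e x he hx => (hf.1 i e x he hx).pow b, fun i j x hi hj => ?_⟩
    ⟨i, x, hx, pow_ne_zero _ h0⟩
  show f i x ^ b = L.g i j x ^ (b * (Mb d).factorial) * f j x ^ b
  rw [hf.2 i j x hi hj, mul_pow, ← pow_mul, mul_comm b]

theorem limit_hasInd (hM : ∀ k, HK.IsPar (M k)) (hlim : IsLimit L Y κ M) {a b : ℕ}
    (h : HK.Proportional a D b L) : HK.HasInd D (a * (Mb d).factorial) 1 := by
  obtain ⟨f, hf, i, x, hx, h0⟩ := limit_one (fun k => by
    obtain ⟨w, s, ρ, F, c, h1, h2, h3, h4, h5⟩ := hM k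
    exact ⟨w, s, ρ, h1, h2, Or.inl ⟨F, c, h3, h4, h5⟩⟩) hlim h
  refine ⟨fun _ => f, fun _ => hf, fun c hc => ?_⟩
  have h1 := hc i x hx
  rw [Fin.sum_univ_one] at h1
  funext j
  rw [Subsingleton.elim j 0]
  exact (mul_eq_zero.1 h1).resolve_right h0

end

/-- the growth of the sections of line bundles proportional to limits -/
theorem limit_growth {n : ℕ} (hn : n = 2 ∨ n = 3) {X : Type} [TopologicalSpace X]
    [ChartedSpace (Cm (2 * n)) X] [IsManifold 𝓘(ℂ, Cm (2 * n)) ω X] [T2Space X] [CompactSpace X]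
    {ι μ : Type} {L : LineBundle (2 * n) X ι} {D : LineBundle (2 * n) X μ}
    {Y : ℕ → Type} [∀ k, TopologicalSpace (Y k)] [∀ k, T2Space (Y k)]
    [∀ k, CompactSpace (Y k)] [∀ k, SimplyConnectedSpace (Y k)]
    [∀ k, ChartedSpace (Cm (2 * n)) (Y k)] [∀ k, IsManifold 𝓘(ℂ, Cm (2 * n)) ω (Y k)]
    {κ : ℕ → Type} {M : ∀ k, LineBundle (2 * n) (Y k) (κ k)}
    (hM : ∀ k, IsPairV (M k)) (hlim : IsLimit L Y κ M) {a b : ℕ} (h : HK.Proportional a D b L)
    (m : ℕ) : HK.HasInd D (a * m) ((b * m + n - 1).choose (n - 1)) := by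
  obtain ⟨N, ⟨C⟩⟩ := hlim
  haveI : SimplyConnectedSpace X := (C.φ 0).toHomotopyEquiv.simplyConnectedSpace
  obtain ⟨g, hg, hi⟩ := C.r_sec fun k => (hM k).growth hn (b * m)
  exact indSec_transport (isoPow_of_prop h) m hg hi

end Vale.Agent.P301.H450
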