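import Vale.Agent.P301.H450.NefNS

/-!
# P301: nef, effective and trivial line bundles on the manifolds of `PairV.lean`
-/

open scoped Manifold ContDiff ComplexOrder Topology Matrix
open MeasureTheory Set Filter
open Vale.Agent.P272.K Vale.Agent.P299
open Vale.Agent.P272.K.INT (IsClosedForm intX)
open Vale.Agent.P299.IX.Fock (ev)
open Vale.Agent.P301.H724 (IsSec Nz Homog)
open Vale.Agent.P301.H897 (LamF)
open Vale.Agent.P301.H395 (IntSec)
open Vale.Agent.P301.H599
open Vale.Agent.P301.H949 (IsoPow isoPow_of_curvature powZ isSec_form0 exists_parV ParV)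
open Vale.Agent.P301.H99 (Sec IsPairV IndSec AlgIndSec)

set_option linter.all false

noncomputable section

namespace Vale.Agent.P301.H450

section gen

variable {d : ℕ} {X : Type} [TopologicalSpace X] [ChartedSpace (Cm d) X]
  {w w0 s b θ : Chart d X → Cm d → Matrix (Fin d) (Fin d) ℂ} {ι κ ν α β : Type}
  {L : LineBundle d X ι} {D : LineBundle d X κ} {A : LineBundle d X α} {M : LineBundle d X β}
  {ρ ρ' : ι → X → ℝ}

/-- isomorphisms of powers, the other way round -/
theorem isoPow_symm {q a : ℕ} (h : IsoPow D q L (a : ℤ)) : IsoPow L a D (q : ℤ) := by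
  obtain ⟨h, h1, h2⟩ := h
  refine ⟨fun i k x => (h k i x)⁻¹, fun i k x hi hk => ⟨fun e he => ?_, inv_ne_zero (h1 k i x hk hi).2⟩,
    fun i j k l x hi hj hk hl => ?_⟩
  · refine ((h1 k i x hk hi).1 e he).inv ?_
    rw [he.left_inv]
    exact (h1 k i x hk hi).2
  · show (h k i x)⁻¹ = L.g i j x ^ a * (D.g k l x ^ (q : ℤ))⁻¹ * (h l j x)⁻¹
    rw [h2 k l i j x hk hl hi hj]
    have e1 := D.ne_zero k l x hk hl
    have e2 := L.ne_zero i j x hi hj
    have e3 := (h1 l j x hl hj).2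
    rw [zpow_natCast, zpow_natCast]
    field_simp

/-- homogeneous polynomials -/
theorem eval_mul_hom {n m : ℕ} {P : MvPolynomial (Fin n) ℂ} (hP : P.IsHomogeneous m) (c : ℂ)
    (v : Fin n → ℂ) :
    MvPolynomial.eval (fun j => c * v j) P = c ^ m * MvPolynomial.eval v P := by
  rw [MvPolynomial.eval_eq, MvPolynomial.eval_eq, Finset.mul_sum]
  refine Finset.sum_congr rfl fun e he => ?_
  have h1 := hP.degree_eq_sum_deg_support he
  have h2 : ∏ i ∈ e.support, (c * v i) ^ e i = c ^ m * ∏ i ∈ e.support, v i ^ e i := by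
    rw [h1, ← Finset.prod_pow_eq_pow_sum, ← Finset.prod_mul_distrib]
    exact Finset.prod_congr rfl fun i _ => mul_pow _ _ _
  rw [h2]
  ring

variable [IsManifold 𝓘(ℂ, Cm d) ω X] [T2Space X] [CompactSpace X] [SimplyConnectedSpace X]

/-- transport of sections through an isomorphism `D^q ≅ L^a`, and its powers -/
theorem sec_transport {q a : ℕ} (h : IsoPow D q L (a : ℤ)) (m : ℕ) :
    ∃ hh : κ → ι → X → ℂ, (∀ k i x, x ∈ D.U k → x ∈ L.U i → hh k i x ≠ 0) ∧
      ∀ f : κ → X → ℂ, Sec D (q * m) f → ∃ g : ι → X → ℂ, Sec L (a * m) g ∧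
        ∀ k i x, x ∈ D.U k → x ∈ L.U i → g i x = f k x / hh k i x := by
  obtain ⟨h, h1, h2⟩ := h
  refine ⟨fun k i x => h k i x ^ m, fun k i x hk hi => pow_ne_zero _ (h1 k i x hk hi).2,
    fun f hf => ?_⟩
  obtain ⟨g, hg, hge⟩ := isSecPow_of_iso (Q := D) (L := L) (q := q * m) (a := a * m)
    (h := fun k i x => h k i x ^ m)
    (fun k i x hk hi => ⟨fun e he => ((h1 k i x hk hi).1 e he).pow m,
      pow_ne_zero _ (h1 k i x hk hi).2⟩)
    (fun k l i j x hk hl hi hj => by
      rw [h2 k l i j x hk hl hi hj, mul_pow, mul_pow, ← pow_mul, inv_pow, zpow_natCast,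
        zpow_natCast, ← pow_mul]) hf.1 hf.2
  exact ⟨g, ⟨hg.holo, hg.change⟩, hge⟩

/-- independent sections -/
theorem indSec_transport {q a : ℕ} (h : IsoPow D q L (a : ℤ)) (m : ℕ) {r : ℕ}
    {f : Fin r → κ → X → ℂ} (hf : ∀ j, Sec D (q * m) (f j)) (hi : IndSec D f) :
    ∃ g : Fin r → ι → X → ℂ, (∀ j, Sec L (a * m) (g j)) ∧ IndSec L g := by
  obtain ⟨hh, h0, ht⟩ := sec_transport h m
  choose g hg hge using fun j => ht (f j) (hf j)
  refine ⟨g, hg, fun c hc => hi c fun k x hk => ?_⟩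
  obtain ⟨i, hx⟩ := L.cover x
  have h1 := hc i x hx
  have h2 : ∑ j, c j * g j i x = (∑ j, c j * f j k x) / hh k i x := by
    rw [Finset.sum_div]
    exact Finset.sum_congr rfl fun j _ => by rw [hge j k i x hk hx]; ring
  rw [h2] at h1
  exact (div_eq_zero_iff.1 h1).resolve_right (h0 k i x hk hx)

/-- a nonzero section -/
theorem one_transport {q a : ℕ} (h : IsoPow D q L (a : ℤ)) (m : ℕ)
    {f : κ → X → ℂ} (hf : Sec D (q * m) f) (hi : ∃ k x, x ∈ D.U k ∧ f k x ≠ 0) :
    ∃ g : ι → X → ℂ, Sec L (a * m) g ∧ ∃ i x, x ∈ L.U i ∧ g i x ≠ 0 := by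
  obtain ⟨hh, h0, ht⟩ := sec_transport h m
  obtain ⟨g, hg, hge⟩ := ht f hf
  obtain ⟨k, x, hk, hne⟩ := hi
  obtain ⟨i, hx⟩ := L.cover x
  exact ⟨g, hg, i, x, hx, by rw [hge k i x hk hx]; exact div_ne_zero hne (h0 k i x hk hx)⟩

/-- algebraically independent sections of a positive power -/
theorem algInd_transport {k n : ℕ} (hk : 0 < k) (h : IsoPow D 1 L (k : ℤ))
    {f : Fin n → ι → X → ℂ} (hf : ∀ j, Sec L 1 (f j)) (hi : AlgIndSec L f) :
    HK.HasAlgInd D n := by
  obtain ⟨hh, h0, ht⟩ := sec_transport (isoPow_symm h) 1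
  choose g hg hge using fun j => ht (fun i x => f j i x ^ k)
    ⟨fun i e x he hx => ((hf j).1 i e x he hx).pow k, fun i i' x hx hx' => by
      show f j i x ^ k = L.g i i' x ^ (k * 1) * f j i' x ^ k
      rw [(hf j).2 i i' x hx hx', mul_pow, pow_one, mul_one]⟩
  refine ⟨g, fun j => by simpa using hg j, fun m P hP hv => ?_⟩
  rw [← MvPolynomial.expand_eq_zero hk]
  have hhom : (MvPolynomial.expand k P).IsHomogeneous (k * m) := by
    have h1 := hP.aeval (g := fun i : Fin n => (MvPolynomial.X i : MvPolynomial (Fin n) ℂ) ^ k)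
      (n := k) (fun i => by simpa using (MvPolynomial.isHomogeneous_X ℂ i).pow k)
    exact h1
  refine hi (k * m) _ hhom fun i x hx => ?_
  obtain ⟨l, hl⟩ := D.cover x
  have h1 := hv l x hl
  rw [MvPolynomial.eval_expand]
  have h2 : (fun j => g j l x) = fun j => (hh i l x)⁻¹ * (fun j => f j i x ^ k) j := by
    funext j
    rw [hge j i l x hx hl]
    ring
  rw [h2, eval_mul_hom hP] at h1
  exact (mul_eq_zero.1 h1).resolve_left (pow_ne_zero _ (inv_ne_zero (h0 i l x hx hl)))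

/-- the product of a semipositive form and an effective line bundle is nonnegative -/
theorem q_eff_nonneg (hs : IsSymplectic d X w s) {ρA : α → X → ℝ} (hρA : IsMetric A ρA)
    (hA : HK.Effective A) (hb : IsReal11 b) (hbp : ∀ e x, At e x → (b e (e x)).PosSemidef) :
    0 ≤ q s (curvature A ρA) b := by
  obtain ⟨f, ⟨hf1, hf2⟩, i, x, hx, hne⟩ := hA
  have hwp : ∀ e x, At e x → (w e (e x)).PosSemidef := fun e x hx =>
    (hs.kahler.posDef e x hx).posSemidef
  have hfs : IntSec A 1 f :=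
    { holo := hf1
      ch := fun i j x hi hj => by rw [zpow_one, ← pow_one (A.g i j x)]; exact hf2 i j x hi hj }
  have hsec := isSec_form0 hfs
  have hx' := H724.at_chartAt (d := d) x
  have hmet : IsMetric (powZ A 1) ρA :=
    { smooth := hρA.smooth
      change := fun i j x hi hj => by
        show ρA i x = ρA j x + Real.log (‖A.g i j x ^ (1 : ℤ)‖ ^ 2)
        rw [zpow_one]
        exact hρA.change i j x hi hj }
  refine q_sec_nonneg (M := powZ A 1) (p := 0) hs hmet hsec (fun i e x hx hi I hI => by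
      have : I ≠ ∅ := fun h => hI (by rw [h, Finset.card_empty])
      show f i (e.symm (e x)) * (ev ∅ : Finset (Fin d) → ℂ) I = 0
      rw [ev, Pi.single_eq_of_ne this, mul_zero])
    ⟨x, hsec.nz hx' (i := i) hx fun h1 => by
      have h2 := congrFun h1 ∅
      have h3 : f i ((chartAt (Cm d) x).symm (chartAt (Cm d) x x)) *
        (ev ∅ : Finset (Fin d) → ℂ) ∅ = 0 := h2
      rw [hx'.left_inv, ev, Pi.single_eq_same, mul_one] at h3
      exact hne h3⟩ hb ?_
  intro ε hε
  refine ⟨fun _ => 0, Smooth.const 0, fun e x hx => ?_⟩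
  rw [ddc_const 0 e x hx, add_zero]
  exact (hbp e x hx).add ((hwp e x hx).smul (by exact_mod_cast hε.le))

/-- nef line bundles, for one metric of the line bundle -/
theorem isNef_of_nef (hw : IsKahler w) {ρM : β → X → ℝ} (hρM : IsMetric M ρM) (hM : HK.Nef M) :
    IsNef w (curvature M ρM) := by
  intro ε hε
  obtain ⟨ρ', hρ', hp⟩ := hM w hw ε hε
  obtain ⟨u, hu, hue⟩ := sameClass_metrics hρM hρ'
  refine ⟨u, hu, fun e x hx => ?_⟩
  have h1 := hp e x hx
  rw [hue e x hx] at h1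
  rwa [add_right_comm] at h1

/-- comparison of Kähler metrics -/
theorem exists_comp (hw : IsKahler w) (hw0 : IsKahler w0) : ∃ r : ℝ, 0 < r ∧
    ∀ e x, At e x → (w0 e (e x) - (r : ℂ) • w e (e x)).PosSemidef := by
  obtain ⟨r, hr, h⟩ := exists_small hw0 ((isReal11_kahler hw).smul (-1))
  refine ⟨r, hr, fun e x hx => ?_⟩
  have h1 := (h.posDef e x hx).posSemidef
  have h2 : w0 e (e x) - (r : ℂ) • w e (e x) =
      w0 e (e x) + (r : ℂ) • (((-1 : ℝ) : ℂ) • w e (e x)) := by
    rw [smul_smul]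
    push_cast
    rw [mul_neg_one, neg_smul, sub_eq_add_neg]
  rw [h2]
  exact h1

/-- powers of nef line bundles are nef -/
theorem nef_of_isoPow (hw : IsKahler w) (hρ : IsMetric L ρ) (hn : IsNef w (curvature L ρ)) {k : ℕ}
    (h : IsoPow D 1 L (k : ℤ)) : HK.Nef D := by
  intro w0 hw0 ε hε
  obtain ⟨r, hr, hcomp⟩ := exists_comp hw hw0
  obtain ⟨ρD, hρD⟩ := exists_metric D
  obtain ⟨u, hu, hue⟩ := H99.sameClass_of_isoPow hρ hρD h
  have hk : (0 : ℝ) < k + 1 := by positivity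
  obtain ⟨φ, hφ, hp⟩ := hn (ε * r / (k + 1)) (by positivity)
  have hv : Smooth (d := d) fun x => (k : ℝ) * φ x + (-1) * u x := 
    (Smooth.const_mul _ hφ).add (Smooth.const_mul _ hu)
  refine ⟨fun i x => ρD i x + ((k : ℝ) * φ x + (-1) * u x), H794.isMetric_add hρD hv,
    fun e x hx => ?_⟩
  obtain ⟨i, hi⟩ := D.cover x
  set δ : ℝ := ε * r / (k + 1) with hδ
  have hδε : ε * r = k * δ + δ := by
    rw [hδ]
    field_simp
  have h1 : curvature D (fun i x => ρD i x + ((k : ℝ) * φ x + (-1) * u x)) e (e x) =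
      curvature D ρD e (e x) + ((k : ℂ) • ddc φ e (e x) - ddc u e (e x)) := by
    rw [curvature_eq (H794.isMetric_add hρD hv) hx hi, curvature_eq hρD hx hi]
    have h2 := cHess_add ((hρD.smooth i e x hx hi).of_le (by norm_cast : (2 : WithTop ℕ∞) ≤ ∞))
      ((hv e x hx).of_le (by norm_cast))
    have h3 := ddc_add (Smooth.const_mul (k : ℝ) hφ) (Smooth.const_mul (-1) hu) e x hx
    simp only at h3
    rw [ddc_const_mul _ hφ e x hx, ddc_const_mul _ hu e x hx] at h3
    refine h2.trans ?_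
    congr 1
    refine Eq.trans h3 ?_
    push_cast
    rw [neg_one_smul, sub_eq_add_neg]
  have h4 : curvature D (fun i x => ρD i x + ((k : ℝ) * φ x + (-1) * u x)) e (e x) +
      (ε : ℂ) • w0 e (e x) =
      (k : ℂ) • (curvature L ρ e (e x) + (δ : ℂ) • w e (e x) + ddc φ e (e x)) +
        ((ε : ℂ) • (w0 e (e x) - (r : ℂ) • w e (e x)) + (δ : ℂ) • w e (e x)) := by
    rw [h1, hue e x hx]
    have h5 : (ε : ℂ) * r = k * δ + δ := by exact_mod_cast hδε
    have h6 : (ε : ℂ) • (r : ℂ) • w e (e x) = (k : ℂ) • (δ : ℂ) • w e (e x) + (δ : ℂ) • w e (e x) := by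
      rw [smul_smul, h5, add_smul, mul_smul]
    rw [smul_sub, smul_add, smul_add, h6]
    push_cast
    abel
  rw [h4]
  have hwp := (hw.posDef e x hx).posSemidef
  have hδ0 : 0 ≤ δ := by positivity
  exact ((hp e x hx).smul (by exact_mod_cast Nat.zero_le k)).add
    (((hcomp e x hx).smul (by exact_mod_cast hε.le)).add (hwp.smul (by exact_mod_cast hδ0)))

/-- sums of an effective and a nef line bundle are powers of `L` -/
theorem isoPow_of_sum (h : IsPairV L) (hs : HK.IsSum D A M) (hA : HK.Effective A)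
    (hM : HK.Nef M) : ∃ k : ℕ, IsoPow D 1 L (k : ℤ) := by
  obtain ⟨w, s, ρ, F, c, κ', V, ρV, a, h⟩ := exists_parV h
  obtain ⟨ρD, ρA, ρM, hρD, hρA, hρM, u, hu, hue⟩ := hs
  obtain ⟨u0, κ0, hu0, hk0⟩ := exists_rf h.symp h.symp.kahler
  have S := SData.of h.symp hk0
  have cA := (isReal11_curvature' hρA).toIsClosedForm
  have cM := (isReal11_curvature' hρM).toIsClosedForm
  refine nsl_gen h.symp h.met F h.cpos h.pull_L h.pull_w h.ne h.metV h.ane h.pull_V h.ns hρD
    fun b hb hbp => ?_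
  have h1 : q s (curvature D ρD) b = q s (fun e z => (curvature A ρA e z +
      curvature M ρM e z) + ddc u e z) b := q_congr hue fun _ _ _ => rfl
  rw [h1, q_add_left S (cA.add cM) (isClosed_ddc hu) hb.toIsClosedForm,
    q_hess_left S hb.toIsClosedForm hu, add_zero, q_add_left S cA cM hb.toIsClosedForm]
  exact add_nonneg (q_eff_nonneg h.symp hρA hA hb hbp)
    (q_nef_nonneg h.symp hk0 h.symp.kahler (isReal11_curvature' hρM)
      (isNef_of_nef h.symp.kahler hρM hM) hb hbp)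

/-- effective line bundles are powers of `L` -/
theorem isoPow_of_eff (h : IsPairV L) (hD : HK.Effective D) : ∃ k : ℕ, IsoPow D 1 L (k : ℤ) := by
  obtain ⟨w, s, ρ, F, c, κ', V, ρV, a, h⟩ := exists_parV h
  obtain ⟨ρD, hρD⟩ := exists_metric D
  exact nsl_gen h.symp h.met F h.cpos h.pull_L h.pull_w h.ne h.metV h.ane h.pull_V h.ns hρD
    fun b hb hbp => q_eff_nonneg h.symp hρD hD hb hbp

/-- powers of `L` are nef -/
theorem nef_of_pair (h : IsPairV L) {k : ℕ} (hD : IsoPow D 1 L (k : ℤ)) : HK.Nef D := by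
  obtain ⟨w, s, ρ, F, c, κ', V, ρV, a, h⟩ := exists_parV h
  exact nef_of_isoPow h.symp.kahler h.met h.nef hD

/-- `D` is trivial if it is isomorphic to `L^0` -/
theorem trivial_of_iso (hD : IsoPow D 1 L ((0 : ℕ) : ℤ)) : HK.Trivial D := by
  classical
  obtain ⟨h, h1, h2⟩ := hD
  choose c hc using L.cover
  have key : ∀ k i j x, x ∈ D.U k → x ∈ L.U i → x ∈ L.U j → h k i x = h k j x := by
    intro k i j x hk hi hj
    have e1 := h2 k k i j x hk hk hi hj
    rw [g_self D hk] at e1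
    simpa using e1
  refine ⟨fun k x => h k (c x) x, ⟨fun k e x he hk => ?_, fun k l x hk hl => ?_⟩,
    fun k x hk => (h1 k (c x) x hk (hc x)).2⟩
  · refine ((h1 k (c x) x hk (hc x)).1 e he).congr ?_
    have h3 : ∀ᶠ y in 𝓝 x, y ∈ D.U k ∩ L.U (c x) :=
      ((D.isOpen _).inter (L.isOpen _)).mem_nhds ⟨hk, hc x⟩
    filter_upwards [H949.nhds_symm he h3] with z hz
    exact key k _ _ _ hz.1 hz.2 (hc _)
  · have e1 := h2 k l (c x) (c x) x hk hl (hc x) (hc x)
    show h k (c x) x = D.g k l x ^ 1 * h l (c x) x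
    simpa using e1

end gen

/-- powers of `L` have class `k c₁(L)` -/
theorem prop_of_iso {d : ℕ} {X : Type} [TopologicalSpace X] [ChartedSpace (Cm d) X]
    [IsManifold 𝓘(ℂ, Cm d) ω X] [T2Space X] [CompactSpace X] [SimplyConnectedSpace X]
    {ι κ : Type} {L : LineBundle d X ι} {D : LineBundle d X κ} {k : ℕ}
    (hD : IsoPow D 1 L (k : ℤ)) : HK.Proportional 1 D k L := by
  obtain ⟨ρ, hρ⟩ := exists_metric D
  obtain ⟨ρL, hL⟩ := exists_metric L
  obtain ⟨u, hu, hue⟩ := H99.sameClass_of_isoPow hL hρ hD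
  refine ⟨ρ, ρL, hρ, hL, u, hu, fun e x hx => ?_⟩
  have h1 := hue e x hx
  simp only at h1 ⊢
  rw [Nat.cast_one, one_smul, h1]
  simp

/-- the alternative for powers of `L` -/
theorem alt_of_iso {n : ℕ} {X : Type} [TopologicalSpace X]
    [ChartedSpace (Cm (2 * n)) X] [IsManifold 𝓘(ℂ, Cm (2 * n)) ω X] [T2Space X] [CompactSpace X]
    [SimplyConnectedSpace X] {ι κ : Type} {L : LineBundle (2 * n) X ι} (h : IsPairV L)
    {D : LineBundle (2 * n) X κ} {k : ℕ} (hD : IsoPow D 1 L (k : ℤ)) :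
    HK.Nef D ∧ (∃ k : ℕ, HK.Proportional 1 D k L) ∧
      (n = 2 ∨ n = 3 → HK.Trivial D ∨ HK.HasAlgInd D n) := by
  refine ⟨nef_of_pair h hD, ⟨k, prop_of_iso hD⟩, fun hn => ?_⟩
  rcases Nat.eq_zero_or_pos k with rfl | hk
  · exact Or.inl (trivial_of_iso hD)
  · obtain ⟨f, hf, ha, -⟩ := h.sections hn
    exact Or.inr (algInd_transport hk hD hf ha)

end Vale.Agent.P301.H450
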