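import Vale.Agent.P301.H794.FInv
import Vale.Agent.P301.H862.Space
import Vale.Agent.P301.H599.CY1

/-!
# P301: pull-back of line bundles with metrics under automorphisms
-/

open scoped Manifold ContDiff ComplexOrder Topology Matrix
open Vale.Agent.P272.K Vale.Agent.P272.K.C2 Vale.Agent.P301.H599 Set Filter
open Vale.Agent.P301.H862 (HB)

set_option linter.all false

noncomputable section

namespace Vale.Agent.P301.H450

variable {d : ℕ} {X : Type} [TopologicalSpace X] {ι κ : Type} [ChartedSpace (Cm d) X]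
  [IsManifold 𝓘(ℂ, Cm d) ω X] {F : X → X}

theorem comp_near (hF : ContMDiff 𝓘(ℂ, Cm d) 𝓘(ℂ, Cm d) ω F) {e e' : Chart d X} {x : X}
    (h : At e x) (h' : At e' (F x)) {α : Type} (u : X → α) :
    (fun z => u (F (e.symm z))) =ᶠ[𝓝 (e x)]
      fun z => (fun y => u (e'.symm y)) (e' (F (e.symm z))) := by
  filter_upwards [map_near hF.continuous h h'] with z hz
  show _ = u (e'.symm (e' (F (e.symm z))))
  rw [hz.2.2.left_inv]

/-- `F^* L` -/
def pullL (hF : ContMDiff 𝓘(ℂ, Cm d) 𝓘(ℂ, Cm d) ω F) (L : LineBundle d X ι) :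
    LineBundle d X ι where
  U i := F ⁻¹' L.U i
  isOpen i := (L.isOpen i).preimage hF.continuous
  cover x := L.cover (F x)
  g i j x := L.g i j (F x)
  holo i j e x h hi hj := by
    have hc := atChart (d := d) (F x)
    have h1 := L.holo i j _ (F x) hc hi hj
    have h2 : AnalyticAt ℂ (fun z => chartAt (Cm d) (F x) (F (e.symm z))) (e x) :=
      (map_holo hF h hc).analyticAt
    have h3 : AnalyticAt ℂ ((fun y => L.g i j ((chartAt (Cm d) (F x)).symm y)) ∘
        fun z => chartAt (Cm d) (F x) (F (e.symm z))) (e x) := by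
      refine AnalyticAt.comp ?_ h2
      rw [h.left_inv]
      exact h1
    exact h3.congr (comp_near hF h hc (L.g i j)).symm
  ne_zero i j x hi hj := L.ne_zero i j (F x) hi hj
  cocycle i j l x hi hj hl := L.cocycle i j l (F x) hi hj hl

variable {L : LineBundle d X ι} {ρ : ι → X → ℝ}

theorem pullL_metric (hF : ContMDiff 𝓘(ℂ, Cm d) 𝓘(ℂ, Cm d) ω F) (hρ : IsMetric L ρ) :
    IsMetric (pullL hF L) (fun i x => ρ i (F x)) where
  smooth i e x h hi := by
    have hc := atChart (d := d) (F x)
    have h2 : ContDiffAt ℝ ∞ (fun z => chartAt (Cm d) (F x) (F (e.symm z))) (e x) :=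
      ((map_holo hF h hc).restrict_scalars ℝ).of_le (by exact le_top)
    refine ContDiffAt.congr_of_eventuallyEq ?_ (comp_near hF h hc (ρ i))
    refine ContDiffAt.comp (e x) (g := fun y => ρ i ((chartAt (Cm d) (F x)).symm y)) ?_ h2
    rw [h.left_inv]
    exact hρ.smooth i _ _ hc hi
  change i j x hi hj := hρ.change i j (F x) hi hj

theorem curvature_pullL (hF : ContMDiff 𝓘(ℂ, Cm d) 𝓘(ℂ, Cm d) ω F) (hρ : IsMetric L ρ) :
    FEq (curvature (pullL hF L) fun i x => ρ i (F x)) (pull F (curvature L ρ)) := by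
  intro e x h
  have hc := atChart (d := d) (F x)
  obtain ⟨i, hi⟩ := L.cover (F x)
  rw [curvature_eq (pullL_metric hF hρ) h (i := i) hi,
    pull_eq hF (H599.isClosedForm_curvature hρ).form h hc, curvature_eq hρ hc hi]
  unfold ddc
  rw [C2.cHess_congr (comp_near hF h hc (ρ i))]
  have h2 : chartAt (Cm d) (F x) (F (e.symm (e x))) = chartAt (Cm d) (F x) (F x) := by
    rw [h.left_inv]
  have := cHess_comp (τ := fun z => chartAt (Cm d) (F x) (F (e.symm z)))
    (f := fun y => ρ i ((chartAt (Cm d) (F x)).symm y)) (z := e x)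
    (by rw [h2]; exact (hρ.smooth i _ _ hc hi).of_le (by norm_cast)) (map_holo hF h hc)
  rw [h2] at this
  exact this

theorem jacF_det_ne_zero (F : Auto d X) {e e' : Chart d X} {x : X} (h : At e x)
    (h' : At e' (F x)) : (jacF F e e' (e x)).det ≠ 0 := by
  have h1 : At e (F.symm (F x)) := by rw [F.symm_apply_apply]; exact h
  have h2 := jacF_comp F.contMDiff F.symm.contMDiff h h' h1
  have h3 : (fun y => F.symm (F y)) = fun y : X => y := by
    funext y; exact F.symm_apply_apply y
  rw [h3, jacF_id h] at h2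
  intro h0
  have h4 := congrArg Matrix.det h2
  rw [Matrix.det_one, Matrix.det_mul, h0, mul_zero] at h4
  exact one_ne_zero h4

theorem isKahler_pull (F : Auto d X) {w : Chart d X → Cm d → Matrix (Fin d) (Fin d) ℂ}
    (hw : IsKahler w) : IsKahler (pull F w) := by
  refine isKahler_of_closed (H794.isClosedForm_pull F.contMDiff (INT.IsKahler.isClosedForm hw))
    fun e x h => ?_
  have hc := atChart (d := d) (F x)
  rw [pull_eq F.contMDiff (INT.IsKahler.isClosedForm hw).form h hc]
  set J := jacF F e (chartAt (Cm d) (F x)) (e x) with hJ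
  have h1 : (J.map (starRingEnd ℂ))ᴴ = J.transpose := by
    ext i j
    simp [Matrix.conjTranspose_apply, Matrix.map_apply]
  rw [← h1]
  refine (hw.posDef _ _ hc).conjTranspose_mul_mul_same ?_
  have h2 : (J.map (starRingEnd ℂ)).det ≠ 0 := by
    have h3 : (J.map (starRingEnd ℂ)).det = (starRingEnd ℂ) J.det :=
      (RingHom.map_det (starRingEnd ℂ) J).symm
    rw [h3]
    exact (map_ne_zero _).2 (jacF_det_ne_zero F h hc)
  exact Matrix.mulVec_injective_iff_isUnit.2 ((Matrix.isUnit_iff_isUnit_det _).2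
    (isUnit_iff_ne_zero.2 h2))

/-- `F^* B` -/
def pullB (F : Auto d X) (B : HB d X ι) : HB d X ι :=
  ⟨pullL F.contMDiff B.L, fun i x => B.ρ i (F x), pull F B.w, pullL_metric F.contMDiff B.metric,
    isKahler_pull F B.kahler⟩

end Vale.Agent.P301.H450
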