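import Vale.Agent.P301.H450.TwFin
import Vale.Agent.P301.H450.PullB
import Vale.Agent.P301.H949.Iso

/-!
# P301: isomorphic line bundles (on any covers) have the same index
-/

open scoped Manifold ContDiff ComplexOrder Topology Matrix
open Vale.Agent.P272.K Vale.Agent.P272.K.C2 Vale.Agent.P301.H599 Vale.Agent.P301.H862
open Vale.Agent.P301.H949 (IsoPow Hol)

set_option linter.all false

noncomputable section

namespace Vale.Agent.P301.H450

variable {d : ℕ} {X : Type} [TopologicalSpace X] {ι κ : Type} [ChartedSpace (Cm d) X]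

/-- the product cover as a refinement of the cover of the first factor -/
def prodRefnL (V : LineBundle d X κ) (L : LineBundle d X ι) : Refn V (κ × ι) where
  r := Prod.fst
  U p := V.U p.1 ∩ L.U p.2
  isOpen p := (V.isOpen p.1).inter (L.isOpen p.2)
  cover x := by
    obtain ⟨a, ha⟩ := V.cover x
    obtain ⟨b, hb⟩ := L.cover x
    exact ⟨(a, b), ha, hb⟩
  sub _ _ h := h.1

theorem smooth_of_hol {f : X → ℂ} {x : X} (hf : Hol d f x) {e : Chart d X} (hx : At e x) :
    ContDiffAt ℝ ∞ (fun z => f (e.symm z)) (e x) := by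
  exact (((hf e hx).contDiffAt (n := ω)).restrict_scalars ℝ).of_le (by exact le_top)

variable [IsManifold 𝓘(ℂ, Cm d) ω X] [T2Space X] [CompactSpace X]

/-- **Isomorphic line bundles have the same index.** -/
theorem index_isoPow {B' : HB d X κ} {B : HB d X ι} (h : IsoPow B'.L 1 B.L 1)
    (hw : B'.w = B.w) : B'.ell.P = B.ell.P := by
  obtain ⟨c, h1, h2⟩ := h
  rw [← index_ref (B := B) (R := prodRefn B'.L B.L),
    ← index_ref (B := B') (R := prodRefnL B'.L B.L)]
  have hc : MulG (refB B (prodRefn B'.L B.L)).L (refB B' (prodRefnL B'.L B.L)).L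
      (fun p x => c p.1 p.2 x) :=
    ⟨fun _ => subset_rfl, fun p e x hx hp => smooth_of_hol (h1 p.1 p.2 x hp.1 hp.2).1 hx,
      fun p q x hp hq => by
        have hp1 : x ∈ B'.L.U p.1 := hp.1
        have hp2 : x ∈ B.L.U p.2 := hp.2
        have hq1 : x ∈ B'.L.U q.1 := hq.1
        have hq2 : x ∈ B.L.U q.2 := hq.2
        show c p.1 p.2 x * B.L.g p.2 q.2 x = B'.L.g p.1 q.1 x * c q.1 q.2 x
        have h3 := B.L.ne_zero p.2 q.2 x hp2 hq2
        rw [h2 p.1 q.1 p.2 q.2 x hp1 hq1 hp2 hq2, pow_one, zpow_one]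
        field_simp⟩
  exact (index_iso (B := refB B (prodRefn B'.L B.L)) (B' := refB B' (prodRefnL B'.L B.L))
    (fun _ => rfl) hw hc fun p x hp => (h1 p.1 p.2 x hp.1 hp.2).2).symm

end Vale.Agent.P301.H450
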