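import Vale.Agent.P301.H599.Stmt
import Vale.Agent.P272.K.INT.Part

/-!
# P301: every holomorphic line bundle on a compact complex manifold has a smooth metric
-/

open scoped Manifold ContDiff ComplexOrder Topology
open Set Filter
open Vale.Agent.P272.K Vale.Agent.P301.H599

set_option linter.all false

noncomputable section

namespace Vale.Agent.P301.H450

variable {d : ℕ} {X : Type} [TopologicalSpace X] [ChartedSpace (Cm d) X]
  [IsManifold 𝓘(ℂ, Cm d) ω X] [T2Space X] [CompactSpace X] {ι : Type}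

/-- a finite smooth partition of unity subordinate to an open cover -/
theorem exists_partition (U : ι → Set X) (hU : ∀ i, IsOpen (U i)) (hc : ∀ x, ∃ i, x ∈ U i) :
    ∃ (N : ℕ) (c : Fin N → ι) (χ : Fin N → X → ℝ), (∀ a, SmoothFn (n := d) (χ a)) ∧
      (∀ a, tsupport (χ a) ⊆ U (c a)) ∧ (∀ a x, 0 ≤ χ a x) ∧ ∀ x, ∑ a, χ a x = 1 := by
  have := INT.isManifold_real d X
  obtain ⟨t, ht⟩ := isCompact_univ.elim_finite_subcover U hU
    (fun x _ => mem_iUnion.2 (hc x))
  set N := t.card with hN
  set eq := t.equivFin.symm with heq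
  obtain ⟨f, hf⟩ := SmoothPartitionOfUnity.exists_isSubordinate 𝓘(ℝ, Cm d) (s := (univ : Set X))
    isClosed_univ (fun k : Fin N => U (eq k)) (fun k => hU _) (fun x hx => by
      obtain ⟨i, hi, hxi⟩ := mem_iUnion₂.1 (ht hx)
      refine mem_iUnion.2 ⟨t.equivFin ⟨i, hi⟩, ?_⟩
      simpa [heq] using hxi)
  refine ⟨N, fun k => eq k, fun k x => f k x, fun k => ?_, hf, fun k x => f.nonneg k x,
    fun x => ?_⟩
  · exact INT.smoothFn_of_contMDiff (f k).contMDiff
  · have h1 := f.sum_eq_one (mem_univ x)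
    rwa [finsum_eq_sum_of_fintype] at h1

/-- existence of a smooth metric -/
theorem exists_metric (L : LineBundle d X ι) : ∃ ρ : ι → X → ℝ, IsMetric L ρ := by
  obtain ⟨N, c, χ, hχ, hs, h0, h1⟩ := exists_partition (d := d) L.U L.isOpen L.cover
  refine ⟨fun i x => ∑ a, χ a x * Real.log (‖L.g i (c a) x‖ ^ 2), ?_, ?_⟩
  · intro i e x hx hi
    refine ContDiffAt.sum fun a _ => ?_
    by_cases hxa : x ∈ L.U (c a)
    · have g1 : AnalyticAt ℂ (fun z => L.g i (c a) (e.symm z)) (e x) := L.holo i (c a) e x hx hi hxa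
      have g2 : ContDiffAt ℝ ∞ (fun z => L.g i (c a) (e.symm z)) (e x) :=
        (g1.contDiffAt (n := ∞)).restrict_scalars ℝ
      have g3 : L.g i (c a) (e.symm (e x)) ≠ 0 := by
        rw [e.left_inv hx.2]; exact L.ne_zero i (c a) x hi hxa
      have g4 : ContDiffAt ℝ ∞ (fun z => ‖L.g i (c a) (e.symm z)‖ ^ 2) (e x) :=
        (g2.norm ℝ g3).pow 2
      exact (hχ a e x hx).mul (g4.log (pow_ne_zero 2 (norm_ne_zero_iff.2 g3)))
    · have hn : x ∉ tsupport (χ a) := fun h => hxa (hs a h)
      have h2 : ∀ᶠ y in 𝓝 x, χ a y = 0 := by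
        filter_upwards [(isClosed_tsupport (χ a)).isOpen_compl.mem_nhds hn] with y hy
        exact image_eq_zero_of_notMem_tsupport hy
      have h3 : ∀ᶠ z in 𝓝 (e x), χ a (e.symm z) = 0 := by
        have hc : ContinuousAt e.symm (e x) := e.continuousAt_symm (e.map_source hx.2)
        have h4 := hc.tendsto
        rw [e.left_inv hx.2] at h4
        exact h4.eventually h2
      refine contDiffAt_const (c := (0 : ℝ)) |>.congr_of_eventuallyEq ?_
      filter_upwards [h3] with z hz
      rw [hz, zero_mul]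
  · intro i j x hi hj
    have key : ∀ a, χ a x * Real.log (‖L.g i (c a) x‖ ^ 2) =
        χ a x * Real.log (‖L.g j (c a) x‖ ^ 2) + χ a x * Real.log (‖L.g i j x‖ ^ 2) := by
      intro a
      by_cases hz : χ a x = 0
      · rw [hz]; ring
      · have hxa : x ∈ L.U (c a) := hs a (subset_tsupport _ hz)
        rw [← mul_add, ← L.cocycle i j (c a) x hi hj hxa, norm_mul, mul_pow, Real.log_mul, add_comm]
        · exact pow_ne_zero 2 (norm_ne_zero_iff.2 (L.ne_zero i j x hi hj))
        · exact pow_ne_zero 2 (norm_ne_zero_iff.2 (L.ne_zero j (c a) x hj hxa))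
    simp only [key, Finset.sum_add_distrib, ← Finset.sum_mul]
    rw [h1 x, one_mul]

end Vale.Agent.P301.H450
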