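import Vale.Agent.P301.H450.Mobile
import Vale.Agent.P301.H450.ParKap
import Vale.Agent.P301.H794.KapFour

/-!
# P301: pencils without fixed divisor on fourfolds
-/

open scoped Manifold ContDiff ComplexOrder Topology Matrix
open MeasureTheory Set Filter
open Vale.Agent.P272.K Vale.Agent.P299 Vale.Agent.P301.H599
open Vale.Agent.P301.H724 (IsSec Nz Prop2 HasSec lamPow wedge mnr LinInd)
open Vale.Agent.P301.H897 (LamF)

set_option linter.all false

noncomputable section

namespace Vale.Agent.P301.H450

section gen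

variable {d : ℕ} {X : Type} [TopologicalSpace X] [ChartedSpace (Cm d) X]
  {w0 s : Chart d X → Cm d → Matrix (Fin d) (Fin d) ℂ} {e e' : Chart d X} {x : X} {ι : Type}
  {L : LineBundle d X ι} {ρ : ι → X → ℝ} {m p r : ℕ}
  [IsManifold 𝓘(ℂ, Cm d) ω X] [T2Space X] [CompactSpace X] [ConnectedSpace X]
  [SimplyConnectedSpace X]

/-- **Pencils without fixed divisor.** `L` nef, isotropic and nonzero. If linearly independent
sections of `Λ^p ⊗ L^m` are linearly dependent at every point, then a positive power of `L` has two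
linearly independent sections without common divisor. -/
theorem kappa_mobile (hd : 0 < d) (h : IsSymplectic d X w0 s) (hρ : IsMetric L ρ)
    (hn : IsNef w0 (curvature L ρ)) (hq : q s (curvature L ρ) (curvature L ρ) = 0)
    (hnex : ¬ IsExact (curvature L ρ)) {u : Fin r → ι → Chart d X → Cm d → Finset (Fin d) → ℂ}
    (hu : ∀ b, IsSec L LamF m (u b))
    (hom : ∀ b i e x, At e x → x ∈ L.U i → ∀ K : Finset (Fin d), K.card ≠ p → u b i e (e x) K = 0)
    (hind : LinInd L u) (hw : ∀ i e x, At e x → x ∈ L.U i → wedge u i e (e x) = 0) :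
    ∃ k, 0 < k ∧ HasMobilePair L k := by
  obtain ⟨r', σ₀, σ₁, -, -, h0, h1, n0, n1, hp, hC⟩ :=
    H724.exists_prop_pair (u := fun b => tenS p (u b)) (fun b => isSec_tenS (hu b) p)
      (linInd_tenS hom hind) fun i e x hx hi => wedge_tenS (hw i e x hx hi) p
  refine special_mobile (mm := fun _ => r' * m) (σ := ![σ₀, σ₁]) hd h ((isNeg_ten p).lamPow r') hρ
    hn hq hnex (fun k => ?_) (fun k l => ?_) (fun k => ?_) rfl fun α β hαβ => ?_
  · fin_cases k
    · exact h0
    · exact h1
  · fin_cases k <;> fin_cases l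
    · exact fun i e x he hi c c' => mul_comm _ _
    · exact fun i e x he hi c c' => by
        have := hp i e x he hi c c'
        show σ₀ i e (e x) c * σ₁ i e (e x) c' = σ₀ i e (e x) c' * σ₁ i e (e x) c
        linear_combination -this
    · exact hp
    · exact fun i e x he hi c c' => mul_comm _ _
  · fin_cases k
    · exact n0
    · exact n1
  · have hβ : β = 0 := by
      by_contra hβ
      obtain ⟨i, e, x, he, hi, hne⟩ := hC (-α / β)
      apply hne
      have h2 := hαβ i e x he hi
      have h3 : β • σ₁ i e (e x) = -(α • σ₀ i e (e x)) := by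
        rw [eq_neg_iff_add_eq_zero, add_comm]; exact h2
      have h4 : σ₁ i e (e x) = β⁻¹ • (β • σ₁ i e (e x)) := by
        rw [smul_smul, inv_mul_cancel₀ hβ, one_smul]
      rw [h4, h3, smul_neg, smul_smul, ← neg_smul]
      congr 1
      field_simp
    subst hβ
    refine ⟨?_, rfl⟩
    by_contra hα
    obtain ⟨x, hx⟩ := n0
    obtain ⟨i, hi⟩ := L.cover x
    have he := AMP.at_chartAt (n := d) x
    have h2 := hαβ i _ x he hi
    rw [zero_smul, add_zero] at h2
    exact hx i _ he hi ((smul_eq_zero.1 h2).resolve_left hα)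

end gen

variable {X : Type} [TopologicalSpace X] [ChartedSpace (Cm 4) X] [T2Space X] [CompactSpace X]
  [SimplyConnectedSpace X] [IsManifold 𝓘(ℂ, Cm 4) ω X]
variable {ι : Type} {L : LineBundle 4 X ι}
variable {w s : Chart 4 X → Cm 4 → Matrix (Fin 4) (Fin 4) ℂ} {ρ : ι → X → ℝ} {c : ℝ}

/-- **Pencils on fourfolds.** The line bundle of a parabolic automorphism of a simply connected
irreducible holomorphic symplectic fourfold has a positive power with a pencil of sections without
fixed divisor. -/
theorem mobile_four (hs : IsSymplectic 4 X w s) (hρ : IsMetric L ρ) (F : Auto 4 X) (hc : 0 < c)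
    (hθ : SameClass (pull F (curvature L ρ)) (curvature L ρ))
    (hdd : SameClass (fun e z => pull F (pull F w) e z - (2 : ℂ) • pull F w e z + w e z)
      (fun e z => (c : ℂ) • curvature L ρ e z)) (hnex : ¬ IsExact (curvature L ρ)) :
    ∃ k, 0 < k ∧ HasMobilePair L k := by
  obtain ⟨u, h, D⟩ := exists_dat hs hρ F hc hθ hdd
  obtain ⟨m, p, r, hm, v, hv, hh, hi, hw⟩ := H794.exists_dependent_four hs D hnex (k0 := 1) le_rfl
  exact kappa_mobile (m := m * 1) (by norm_num) hs hρ D.isNef (q_par hs hρ F hc hθ hdd) hnex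
    hv (fun b i e x hx hi => hh b i e x hx hi) hi hw

end Vale.Agent.P301.H450
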