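import Vale.Agent.P301.H99.T12Sec
import Vale.Agent.P301.H99.LimN
import Vale.Agent.P301.H99.PairSec
import Vale.Agent.P301.H450.HKDef

/-!
# P301: pseudo-effective line bundles on the manifolds of Picard rank two of `PairV.lean`
-/

open scoped Manifold ContDiff ComplexOrder Topology Matrix
open MeasureTheory Set Filter
open Vale.Agent.P272.K Vale.Agent.P299
open Vale.Agent.P272.K.INT (IsClosedForm intX)
open Vale.Agent.P301.H724 (IsSec Nz Homog)
open Vale.Agent.P301.H897 (LamF)
open Vale.Agent.P301.H599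
open Vale.Agent.P301.H794 (q_pull q_fixed isClosedForm_pull)
open Vale.Agent.P301.H949 (IsoPow isoPow_of_curvature)

set_option linter.all false

noncomputable section

namespace Vale.Agent.P301.H450

section gen

variable {d : ℕ} {X : Type} [TopologicalSpace X] [ChartedSpace (Cm d) X]
  {w w0 s a b θ : Chart d X → Cm d → Matrix (Fin d) (Fin d) ℂ} {ι κ ν : Type}
  {L : LineBundle d X ι} {V : LineBundle d X κ}
  {ρ ρ' : ι → X → ℝ} {ρV : κ → X → ℝ} {c : ℝ}

variable [IsManifold 𝓘(ℂ, Cm d) ω X] [T2Space X] [CompactSpace X]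

/-- the curvature forms of two metrics have the same class -/
theorem sameClass_metrics [ConnectedSpace X] (h : IsMetric L ρ) (h' : IsMetric L ρ') :
    SameClass (curvature L ρ') (curvature L ρ) := by
  obtain ⟨u, hu, hue⟩ := H99.sameClass_of_isoPow (V := L) h h' (k := 1)
    ⟨L.g, fun k i x hk hi => ⟨fun e he => L.holo k i e x he hk hi, L.ne_zero k i x hk hi⟩,
      fun k l i j x hk hl hi hj => by
        have h1 := L.cocycle k l j x hk hl hj
        have h2 := L.cocycle k i j x hk hi hj
        have h3 := L.ne_zero i j x hi hj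
        rw [pow_one, Nat.cast_one, zpow_one]
        field_simp
        rw [h2, ← h1]⟩
  refine ⟨u, hu, fun e x hx => ?_⟩
  rw [hue e x hx]
  simp

/-- **Line bundles `M` whose product with semipositive forms is nonnegative are powers of `L`.** -/
theorem nsl_gen [SimplyConnectedSpace X] (hs : IsSymplectic d X w s) (hρ : IsMetric L ρ)
    (F : Auto d X) (hc : 0 < c) (hθ : SameClass (pull F (curvature L ρ)) (curvature L ρ))
    (hdd : SameClass (fun e z => pull F (pull F w) e z - (2 : ℂ) • pull F w e z + w e z)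
      (fun e z => (c : ℂ) • curvature L ρ e z))
    (hex : ¬ IsExact (curvature L ρ)) (hρV : IsMetric V ρV) {a : ℤ} (ha : a ≠ 0)
    (hF : SameClass (pull F (curvature V ρV))
      (fun e z => curvature V ρV e z + (a : ℂ) • curvature L ρ e z))
    (hNS : H99.NS L ρ V ρV) {M : LineBundle d X ν} {ρM : ν → X → ℝ} (hρM : IsMetric M ρM)
    (hq : ∀ b : Chart d X → Cm d → Matrix (Fin d) (Fin d) ℂ, IsReal11 b →
      (∀ e x, At e x → (b e (e x)).PosSemidef) → 0 ≤ q s (curvature M ρM) b) :
    ∃ k : ℕ, IsoPow M 1 L k := by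
  haveI : Nonempty X := inferInstance
  have hd := pos_of_not_exact hex
  have hn := nef_par hs hρ F hc hθ hdd
  obtain ⟨u0, κ0, hu0, hk0⟩ := exists_rf hs hs.kahler
  have S := SData.of hs hk0
  have cL := (isReal11_curvature' hρ).toIsClosedForm
  have cV := (isReal11_curvature' hρV).toIsClosedForm
  have cM := (isReal11_curvature' hρM).toIsClosedForm
  have cw := INT.IsKahler.isClosedForm hs.kahler
  have hwp : ∀ e x, At e x → (w e (e x)).PosSemidef := fun e x hx =>
    (hs.kahler.posDef e x hx).posSemidef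
  -- `q(L, w) > 0`
  have hLw : 0 < q s (curvature L ρ) w := by
    have h1 := q_nef_pos hd hs hk0 hs.kahler (isReal11_curvature' hρ) hn hex
    have h2 : q s (curvature L ρ) (addH w u0) = q s (curvature L ρ) w := by
      show q s (curvature L ρ) (fun e z => w e z + ddc u0 e z) = _
      rw [q_add_right S cL cw (isClosed_ddc hu0), q_hess_right S cL hu0, add_zero]
    rwa [h2] at h1
  -- the class of `M`
  obtain ⟨α, β', u, hu, hM⟩ := hNS.comb ν M ρM hρM
  have hqM : ∀ b : Chart d X → Cm d → Matrix (Fin d) (Fin d) ℂ, IsClosedForm b →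
      q s (curvature M ρM) b = α * q s (curvature L ρ) b + β' * q s (curvature V ρV) b := by
    intro b hb
    have h1 : q s (curvature M ρM) b = q s (fun e z => ((α : ℂ) • curvature L ρ e z +
        (β' : ℂ) • curvature V ρV e z) + ddc u e z) b := q_congr hM fun _ _ _ => rfl
    rw [h1, q_add_left S ((cL.smul _).add (cV.smul _)) (isClosed_ddc hu) hb, q_hess_left S hb hu,
      add_zero, q_add_left S (cL.smul _) (cV.smul _) hb, q_smul_left, q_smul_left]
  have hpos : ∀ b : Chart d X → Cm d → Matrix (Fin d) (Fin d) ℂ, IsClosedForm b →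
      (∀ e x, At e x → (b e (e x)).PosSemidef) →
      0 ≤ α * q s (curvature L ρ) b + β' * q s (curvature V ρV) b := by
    intro b hb hbp
    rw [← hqM b hb]
    exact hq b ⟨hb, fun e x hx => (hbp e x hx).isHermitian⟩ hbp
  -- iterates of `F` and of `F⁻¹`
  have hit : ∀ k : ℕ, q s (curvature L ρ) (itP F w k) = q s (curvature L ρ) w ∧
      q s (curvature V ρV) (itP F w k) = q s (curvature V ρV) w -
        k * (a * q s (curvature L ρ) w) := by
    intro k
    induction k with
    | zero => simp [itP]
    | succ k ih =>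
      obtain ⟨h1, h2⟩ := q_step hs S F hρ hρV hθ hF (itP_closed F.contMDiff cw k)
      refine ⟨h1.trans ih.1, ?_⟩
      show q s (curvature V ρV) (pull F (itP F w k)) = _
      rw [h2, ih.1, ih.2]
      push_cast
      ring
  have hit' : ∀ k : ℕ, q s (curvature L ρ) (itP F.symm w k) = q s (curvature L ρ) w ∧
      q s (curvature V ρV) (itP F.symm w k) = q s (curvature V ρV) w +
        k * (a * q s (curvature L ρ) w) := by
    intro k
    induction k with
    | zero => simp [itP]
    | succ k ih =>
      obtain ⟨h1, h2⟩ := q_step_symm hs S F hρ hρV hθ hF (itP_closed F.symm.contMDiff cw k)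
      refine ⟨h1.trans ih.1, ?_⟩
      show q s (curvature V ρV) (pull F.symm (itP F.symm w k)) = _
      rw [h2, ih.1, ih.2]
      push_cast
      ring
  set A : ℝ := q s (curvature L ρ) w with hA
  set B : ℝ := q s (curvature V ρV) w with hB
  have hineq : ∀ k : ℕ, 0 ≤ (α * A + β' * B) - k * (β' * (a * A)) ∧
      0 ≤ (α * A + β' * B) + k * (β' * (a * A)) := by
    intro k
    constructor
    · have h1 := hpos _ (itP_closed F.contMDiff cw k) (itP_pos F hwp k)
      rw [(hit k).1, (hit k).2] at h1
      linarith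
    · have h1 := hpos _ (itP_closed F.symm.contMDiff cw k) (itP_pos F.symm hwp k)
      rw [(hit' k).1, (hit' k).2] at h1
      linarith
  have hβ0 : β' = 0 := by
    have h1 : β' * (a * A) = 0 := by
      by_contra h0
      have h2 : 0 < |β' * (a * A)| := abs_pos.2 h0
      obtain ⟨k, hk⟩ := exists_nat_gt ((α * A + β' * B) / |β' * (a * A)|)
      rw [div_lt_iff₀ h2] at hk
      obtain ⟨h3, h4⟩ := hineq k
      rcases abs_cases (β' * (a * A)) with ⟨h5, -⟩ | ⟨h5, -⟩
      · rw [h5] at hk; linarith
      · rw [h5] at hk; linarith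
    have h6 : (a : ℝ) * A ≠ 0 := mul_ne_zero (by exact_mod_cast ha) hLw.ne'
    exact (mul_eq_zero.1 h1).resolve_right h6
  have hcls : SameClass (curvature M ρM) (fun e z => (α : ℂ) • curvature L ρ e z) := by
    refine ⟨u, hu, fun e x hx => ?_⟩
    rw [hM e x hx, hβ0]
    simp
  obtain ⟨m, hm⟩ := hNS.int ν M ρM hρM α hcls
  have hm0 : 0 ≤ m := by
    have h1 := (hineq 0).1
    rw [hβ0] at h1
    have h2 : 0 ≤ α * A := by
      simpa using h1
    have h3 : 0 ≤ α := nonneg_of_mul_nonneg_left h2 hLw
    rw [← hm] at h3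
    exact_mod_cast h3
  obtain ⟨k, rfl⟩ := Int.eq_ofNat_of_zero_le hm0
  refine ⟨k, isoPow_of_curvature hρ hρM (q := 1) (a := k) ?_⟩
  obtain ⟨v, hv, h1⟩ := hcls
  refine ⟨v, hv, fun e x hx => ?_⟩
  simp only [Nat.cast_one, one_smul]
  rw [h1 e x hx, ← hm]
  push_cast
  rfl

end gen

end Vale.Agent.P301.H450
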