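import Vale.Agent.P301.H450.HI
import Vale.Agent.P301.H98.Prim2
import Vale.Agent.P301.H98.Eff

/-!
# P301: the form `q` is a pairing in the sense of COP
-/

open scoped Manifold ContDiff ComplexOrder Topology Matrix
open Vale.Agent.P272.K Vale.Agent.P272.K.C2
open Vale.Agent.P299 Vale.Agent.P299.H954 Vale.Agent.P301.H599
open Vale.Agent.P272.K.INT (IsClosedForm IsDensity intX)
open Vale.Agent.P301.H98 (Pairing RForm)

set_option linter.all false

noncomputable section

namespace Vale.Agent.P301.H450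

variable {d : ℕ} {X : Type} [TopologicalSpace X] [ChartedSpace (Cm d) X]
  {w s a b : Chart d X → Cm d → Matrix (Fin d) (Fin d) ℂ} {e : Chart d X} {x : X}
  [IsManifold 𝓘(ℂ, Cm d) ω X] [T2Space X] [CompactSpace X] {κ : ℝ}

/-- the density of `q` -/
def qd (s : Chart d X → Cm d → Matrix (Fin d) (Fin d) ℂ) (e : Chart d X) (z : Cm d)
    (A B : Matrix (Fin d) (Fin d) ℂ) : ℝ :=
  (A * (((‖(s e z).det‖ : ℝ) : ℂ) • (((s e z)ᴴ)⁻¹ * Bᵀ * (s e z)⁻¹))).trace.re

theorem intX_qd : intX (fun e z => qd s e z (a e z) (b e z)) = q s a b := rfl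

theorem pairing (h : SData s w κ) : Pairing (d := d) (X := X) (qd s) where
  add_left e z A A' B := by
    simp only [qd]
    rw [Matrix.add_mul, Matrix.trace_add, Complex.add_re]
  add_right e z A B B' := by
    simp only [qd]
    rw [Matrix.transpose_add, Matrix.mul_add, Matrix.add_mul, smul_add, Matrix.mul_add,
      Matrix.trace_add, Complex.add_re]
  smul_left e z t A B := by
    simp only [qd]
    rw [Matrix.smul_mul, Matrix.trace_smul, smul_eq_mul, Complex.re_ofReal_mul]
  smul_right e z t A B := by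
    simp only [qd]
    simp only [Matrix.transpose_smul, Matrix.mul_smul, Matrix.smul_mul, Matrix.trace_smul,
      smul_eq_mul]
    rw [Complex.re_ofReal_mul, Complex.re_ofReal_mul, Complex.re_ofReal_mul]
    ring
  pos e x hx u v := by
    simp only [qd, Matrix.mul_smul, Matrix.trace_smul, smul_eq_mul]
    rw [Complex.re_ofReal_mul]
    refine mul_nonneg (norm_nonneg _) ?_
    have hA : (Matrix.vecMulVec u (star u)).PosSemidef := Matrix.posSemidef_vecMulVec_self_star u
    have hB : (Matrix.vecMulVec v (star v)).PosSemidef := Matrix.posSemidef_vecMulVec_self_star v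
    have h1 : (((s e (e x))ᴴ)⁻¹ * (Matrix.vecMulVec v (star v))ᵀ * (s e (e x))⁻¹).PosSemidef := by
      have := hB.transpose.conjTranspose_mul_mul_same (s e (e x))⁻¹
      rwa [Matrix.conjTranspose_nonsing_inv] at this
    exact (Complex.le_def.1 (trace_mul_nonneg hA h1)).1
  bound e he K hK hKe := by
    have hAt : ∀ z ∈ K, At e (e.symm z) ∧ e (e.symm z) = z := fun z hz =>
      ⟨⟨he, e.map_target (hKe hz)⟩, e.right_inv (hKe hz)⟩
    have hMC : ∀ z ∈ K, MC ∞ (s e) z := by
      intro z hz
      have := MC_s (r := ∞) h.form (hAt z hz).1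
      rwa [(hAt z hz).2] at this
    have hdet : ∀ z ∈ K, (s e z).det ≠ 0 := by
      intro z hz
      have := h.nondeg e _ (hAt z hz).1
      rwa [(hAt z hz).2] at this
    have c1 : ContinuousOn (fun z => ‖(s e z).det‖) K := fun z hz =>
      ((MC.det (hMC z hz)).continuousAt.norm).continuousWithinAt
    have c2 : ∀ i j, ContinuousOn (fun z => (s e z)⁻¹ i j) K := fun i j z hz =>
      (((hMC z hz).inv (hdet z hz)) i j).continuousAt.continuousWithinAt
    have c3 : ∀ i j, ContinuousOn (fun z => ((s e z)ᴴ)⁻¹ i j) K := by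
      intro i j z hz
      have h1 : MC ∞ (fun z => (s e z)ᴴ) z := (hMC z hz).conjTranspose
      have h2 : ((s e z)ᴴ).det ≠ 0 := by
        rw [Matrix.det_conjTranspose]; exact star_ne_zero.2 (hdet z hz)
      exact ((h1.inv h2) i j).continuousAt.continuousWithinAt
    obtain ⟨C1, hC1⟩ := hK.exists_bound_of_continuousOn c1
    choose C2 hC2 using fun i j => hK.exists_bound_of_continuousOn (c2 i j)
    choose C3 hC3 using fun i j => hK.exists_bound_of_continuousOn (c3 i j)
    set D2 : ℝ := ∑ i, ∑ j, |C2 i j| with hD2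
    set D3 : ℝ := ∑ i, ∑ j, |C3 i j| with hD3
    have hb2 : ∀ i j, ∀ z ∈ K, ‖(s e z)⁻¹ i j‖ ≤ D2 := by
      intro i j z hz
      refine (hC2 i j z hz).trans ((le_abs_self _).trans ?_)
      refine (Finset.single_le_sum (f := fun j => |C2 i j|) (fun _ _ => abs_nonneg _)
        (Finset.mem_univ j)).trans ?_
      exact Finset.single_le_sum (f := fun i => ∑ j, |C2 i j|)
        (fun _ _ => Finset.sum_nonneg fun _ _ => abs_nonneg _) (Finset.mem_univ i)
    have hb3 : ∀ i j, ∀ z ∈ K, ‖((s e z)ᴴ)⁻¹ i j‖ ≤ D3 := by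
      intro i j z hz
      refine (hC3 i j z hz).trans ((le_abs_self _).trans ?_)
      refine (Finset.single_le_sum (f := fun j => |C3 i j|) (fun _ _ => abs_nonneg _)
        (Finset.mem_univ j)).trans ?_
      exact Finset.single_le_sum (f := fun i => ∑ j, |C3 i j|)
        (fun _ _ => Finset.sum_nonneg fun _ _ => abs_nonneg _) (Finset.mem_univ i)
    have p2 : 0 ≤ D2 := Finset.sum_nonneg fun _ _ => Finset.sum_nonneg fun _ _ => abs_nonneg _
    have p3 : 0 ≤ D3 := Finset.sum_nonneg fun _ _ => Finset.sum_nonneg fun _ _ => abs_nonneg _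
    refine ⟨|C1| * (D3 * D2), by positivity, fun z hz A B => ?_⟩
    have hc : ‖(((‖(s e z).det‖ : ℝ) : ℂ))‖ ≤ |C1| := by
      rw [Complex.norm_real, norm_norm]
      exact ((le_of_eq (norm_norm _).symm).trans (hC1 z hz)).trans (le_abs_self _)
    unfold qd
    refine (Complex.abs_re_le_norm _).trans ?_
    rw [Matrix.mul_smul, Matrix.trace_smul, norm_smul, mul_assoc |C1|, mul_assoc |C1|]
    refine mul_le_mul hc ?_ (norm_nonneg _) (abs_nonneg _)
    have e1 : (A * (((s e z)ᴴ)⁻¹ * Bᵀ * (s e z)⁻¹)).trace =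
        ∑ i, ∑ j, ∑ l, ∑ k, A i j * (((s e z)ᴴ)⁻¹ j k * B l k * (s e z)⁻¹ l i) := by
      simp only [Matrix.trace, Matrix.diag, Matrix.mul_apply, Matrix.transpose_apply,
        Finset.mul_sum, Finset.sum_mul]
    rw [e1]
    have e2 : D3 * D2 * (∑ i, ∑ j, ‖A i j‖) * ∑ i, ∑ j, ‖B i j‖ =
        ∑ i, ∑ j, ∑ l, ∑ k, ‖A i j‖ * (D3 * ‖B l k‖ * D2) := by
      clear_value D2 D3
      have r1 : ∀ i j, ∑ l, ∑ k, ‖A i j‖ * (D3 * ‖B l k‖ * D2) =
          ‖A i j‖ * (D3 * D2 * ∑ i, ∑ j, ‖B i j‖) := by
        intro i j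
        simp only [Finset.mul_sum]
        refine Finset.sum_congr rfl fun l _ => Finset.sum_congr rfl fun k _ => ?_
        ring
      simp only [r1, ← Finset.sum_mul]
      ring
    rw [e2]
    refine (norm_sum_le _ _).trans (Finset.sum_le_sum fun i _ => ?_)
    refine (norm_sum_le _ _).trans (Finset.sum_le_sum fun j _ => ?_)
    refine (norm_sum_le _ _).trans (Finset.sum_le_sum fun l _ => ?_)
    refine (norm_sum_le _ _).trans (Finset.sum_le_sum fun k _ => ?_)
    rw [norm_mul, norm_mul, norm_mul]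
    have q3 := hb3 j k z hz
    have q2 := hb2 l i z hz
    gcongr
  dens a b ha hb := q_dens h ha.closed hb.closed
  stokes_left a b u ha hb hu := by
    show q s (fun e z => a e z + ddc u e z) b = q s a b
    rw [q_add_left h ha.closed (isClosed_ddc hu) hb.closed, q_hess_left h hb.closed hu, add_zero]
  stokes_right a b u ha hb hu := by
    show q s a (fun e z => b e z + ddc u e z) = q s a b
    rw [q_add_right h ha.closed hb.closed (isClosed_ddc hu), q_hess_right h ha.closed hu, add_zero]

end Vale.Agent.P301.H450
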