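import Vale.Agent.P299.H954.TenZero
import Vale.Agent.P301.H599.Stmt

/-!
# P301: a holomorphic 2-form on a compact Kähler manifold with `Ric ≥ 0` is parallel
-/

open scoped Manifold ContDiff ComplexOrder Topology Matrix
open Vale.Agent.P272.K Vale.Agent.P272.K.C2 Vale.Agent.P272.K.AMP
open Vale.Agent.P299 Vale.Agent.P299.H954 Vale.Agent.P301.H599

set_option linter.all false

noncomputable section

namespace Vale.Agent.P301.H450

variable {d : ℕ} {X : Type} [TopologicalSpace X] [ChartedSpace (Cm d) X]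
  {w s : Chart d X → Cm d → Matrix (Fin d) (Fin d) ℂ} {e : Chart d X} {x : X}

/-- the `2`-form as a tensor -/
def t2 (s : Chart d X → Cm d → Matrix (Fin d) (Fin d) ℂ) : D.Ten d 2 X :=
  fun e z I => s e z (I 0) (I 1)

theorem isTen_t2 (hs : IsHolTwoForm s) : D.IsTen 2 0 (t2 s) where
  holo e x hx I := hs.holo e x hx (I 0) (I 1)
  change e e' x hx hx' I := by
    rw [pow_zero, one_mul, t2, hs.change e e' x hx hx', D.tenPull]
    simp only [Matrix.mul_apply, Matrix.transpose_apply, Fin.prod_univ_two, t2, Finset.sum_mul]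
    rw [← (finTwoArrowEquiv (Fin d)).symm.sum_comp, Fintype.sum_prod_type, Finset.sum_comm]
    refine Finset.sum_congr rfl fun q _ => Finset.sum_congr rfl fun p _ => ?_
    simp only [finTwoArrowEquiv_symm_apply, Matrix.cons_val_zero, Matrix.cons_val_one]
    ring

/-- the identification `(Fin 1 → Fin d) ≃ Fin d` -/
def eq1 (d : ℕ) : (Fin 1 → Fin d) ≃ Fin d := Equiv.funUnique (Fin 1) (Fin d)

lemma matT_t2 (e : Chart d X) (z : Cm d) :
    matT (t2 s) e z = (s e z).submatrix id (eq1 d) := by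
  ext i A
  rfl

lemma metT_one (e : Chart d X) (z : Cm d) :
    metT 1 w e z = (dual (w e) z).submatrix (eq1 d) (eq1 d) := by
  ext A B
  simp only [metT, tp_apply, Matrix.submatrix_apply]
  rw [Fin.prod_univ_one]
  rfl

lemma nabG_t2 (k : Fin d) (e : Chart d X) (z : Cm d) :
    nabG k (w e) (matT (t2 s) e) (metT 1 w e) z =
      (nabG k (w e) (s e) (dual (w e)) z).submatrix id (eq1 d) := by
  have h1 : DM k (matT (t2 s) e) z = (DM k (s e) z).submatrix id (eq1 d) := by
    ext i A; rfl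
  have h2 : DM k (metT 1 w e) z = (DM k (dual (w e)) z).submatrix (eq1 d) (eq1 d) := by
    have : metT 1 w e = fun y => (dual (w e) y).submatrix (eq1 d) (eq1 d) := by
      funext y; exact metT_one e y
    rw [this]
    ext A B; rfl
  unfold nabG nab
  rw [h1, h2, matT_t2, metT_one, Matrix.inv_submatrix_equiv, Matrix.submatrix_sub,
    Matrix.submatrix_add]
  congr 1
  · congr 1
    rw [Matrix.submatrix_mul_equiv, Matrix.submatrix_mul_equiv]

variable [IsManifold 𝓘(ℂ, Cm d) ω X] [T2Space X] [CompactSpace X]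

/-- a holomorphic `2`-form is parallel -/
theorem nabG_zero (hw : IsKahler w) (hric : D.RicNonneg w) (hs : IsHolTwoForm s) (hx : At e x)
    (k : Fin d) : nabG k (w e) (s e) (dual (w e)) (e x) = 0 := by
  have h := (bochner_tensor hw hric (isTen_t2 hs) hx).1 k
  rw [nabG_t2] at h
  ext i j
  have := congrFun (congrFun h i) ((eq1 d).symm j)
  simpa using this

lemma MC_s (hs : IsHolTwoForm s) (hx : At e x) {r : WithTop ℕ∞} : MC r (s e) (e x) :=
  MC_of_analyticAt fun i j => hs.holo e x hx i j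

/-- the antiholomorphic matrix `w⁻¹ s w⁻ᵀ` -/
def tm (w s : Chart d X → Cm d → Matrix (Fin d) (Fin d) ℂ) (e : Chart d X) (z : Cm d) :
    Matrix (Fin d) (Fin d) ℂ := (w e z)⁻¹ * s e z * dual (w e) z

theorem DM_tm (hw : IsKahler w) (hric : D.RicNonneg w) (hs : IsHolTwoForm s) (hx : At e x)
    (k : Fin d) : DM k (tm w s e) (e x) = 0 := by
  have g0 := (hw.posDef e x hx).det_pos.ne'
  have hG : MC 1 (w e) (e x) := (hw.toIsHermitian.smooth e x hx · · |>.of_le (by norm_cast))
  have hS : MC 1 (s e) (e x) := MC_s hs hx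
  have hI : MC 1 (fun y => (w e y)⁻¹) (e x) := hG.inv g0
  have hD : MC 1 (dual (w e)) (e x) := MC_dual hG g0
  have one : (1 : WithTop ℕ∞) ≠ 0 := by norm_num
  have h := nabG_zero hw hric hs hx k
  have e1 : DM k (tm w s e) (e x) = (w e (e x))⁻¹ * (nabG k (w e) (s e) (dual (w e)) (e x)) *
      dual (w e) (e x) := by
    have hdd : (dual (w e) (e x))⁻¹ * dual (w e) (e x) = 1 :=
      Matrix.nonsing_inv_mul _ (isUnit_iff_ne_zero.2 (dual_posDef (hw.posDef e x hx)).det_pos.ne')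
    have e0 : tm w s e = fun y => (w e y)⁻¹ * s e y * dual (w e) y := rfl
    rw [e0, DM_mul ((hI.mul hS).md one) (hD.md one), DM_mul (hI.md one) (hS.md one),
      DM_inv hG g0]
    unfold nabG nab
    simp only [Matrix.mul_add, Matrix.add_mul, Matrix.mul_sub, Matrix.sub_mul, Matrix.neg_mul,
      Matrix.mul_assoc, hdd, Matrix.mul_one]
    abel
  rw [e1, h, Matrix.mul_zero, Matrix.zero_mul]

/-- `∂_k s = (∂_k w w⁻¹) s + s (∂_k w w⁻¹)ᵀ` -/
theorem DM_s (hw : IsKahler w) (hric : D.RicNonneg w) (hs : IsHolTwoForm s) (hx : At e x)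
    (k : Fin d) : DM k (s e) (e x) = DM k (w e) (e x) * (w e (e x))⁻¹ * s e (e x) +
      s e (e x) * (DM k (w e) (e x) * (w e (e x))⁻¹)ᵀ := by
  have h := nabG_zero hw hric hs hx k
  have g0 := (hw.posDef e x hx).det_pos.ne'
  have hu : IsUnit (w e (e x)).det := isUnit_iff_ne_zero.2 g0
  have hG : MC 1 (w e) (e x) := (hw.toIsHermitian.smooth e x hx · · |>.of_le (by norm_cast))
  have h1 : DM k (dual (w e)) (e x) = -((w e (e x))⁻¹ * DM k (w e) (e x) * (w e (e x))⁻¹)ᵀ := by
    have : DM k (fun y => (w e y)⁻¹) (e x) = -((w e (e x))⁻¹ * DM k (w e) (e x) * (w e (e x))⁻¹) :=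
      DM_inv hG g0
    rw [← Matrix.transpose_neg, ← this]
    rfl
  have h2 : (dual (w e) (e x))⁻¹ = (w e (e x))ᵀ := by
    unfold dual
    rw [← Matrix.transpose_nonsing_inv, Matrix.nonsing_inv_nonsing_inv _ hu]
  have h3 : s e (e x) * DM k (dual (w e)) (e x) * (dual (w e) (e x))⁻¹ =
      - (s e (e x) * (DM k (w e) (e x) * (w e (e x))⁻¹)ᵀ) := by
    rw [h1, h2, Matrix.mul_neg, Matrix.neg_mul, Matrix.mul_assoc, ← Matrix.transpose_mul]
    congr 2
    rw [← Matrix.mul_assoc, ← Matrix.mul_assoc, Matrix.mul_nonsing_inv _ hu, Matrix.one_mul]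
  unfold nabG nab at h
  rw [h3] at h
  rw [← sub_eq_zero, ← h]
  abel

/-- the `2`-form `w s⁻ᴴ wᵀ` -/
def eta (w s : Chart d X → Cm d → Matrix (Fin d) (Fin d) ℂ) :
    Chart d X → Cm d → Matrix (Fin d) (Fin d) ℂ :=
  fun e z => w e z * ((s e z)ᴴ)⁻¹ * (w e z)ᵀ

lemma eta_eq {A S : Matrix (Fin d) (Fin d) ℂ} (hA : A.IsHermitian) (hd : IsUnit A.det) :
    ((A⁻¹ * S * (A⁻¹)ᵀ)ᴴ)⁻¹ = A * (Sᴴ)⁻¹ * Aᵀ := by
  have h0 : (A⁻¹)ᴴ = A⁻¹ := hA.inv
  have h1 : ((A⁻¹)ᵀ)ᴴ = (A⁻¹)ᵀ := by
    ext i j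
    have := congrFun (congrFun h0 j) i
    simpa [Matrix.conjTranspose_apply] using this
  rw [Matrix.conjTranspose_mul, Matrix.conjTranspose_mul, h0, h1, Matrix.mul_inv_rev,
    Matrix.mul_inv_rev, Matrix.nonsing_inv_nonsing_inv _ hd, ← Matrix.transpose_nonsing_inv,
    Matrix.nonsing_inv_nonsing_inv _ hd]

lemma eta_eq_tm (hw : IsKahler w) (hx : At e x) :
    eta w s e (e x) = ((tm w s e (e x))ᴴ)⁻¹ :=
  (eta_eq (hw.posDef e x hx).isHermitian
    (isUnit_iff_ne_zero.2 (hw.posDef e x hx).det_pos.ne')).symm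

theorem isHolTwoForm_eta (hw : IsKahler w) (hric : D.RicNonneg w) (hs : IsHolTwoForm s)
    (hn : ∀ e x, At e x → (s e (e x)).det ≠ 0) : IsHolTwoForm (eta w s) where
  holo e x hx i j := by
    have one : (1 : WithTop ℕ∞) ≠ 0 := by norm_num
    refine analyticAt_of_dzb ?_
    filter_upwards [eventually_at hx, eventually_eventually_nhds.2 (eventually_at hx)]
      with y hy hye
    obtain ⟨hA, hAe⟩ := hy
    set x' := e.symm y with hx'
    have g0 := (hw.posDef e x' hA).det_pos.ne'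
    have hG : MC 1 (w e) (e x') := (hw.toIsHermitian.smooth e x' hA · · |>.of_le (by norm_cast))
    have hS : MC 1 (s e) (e x') := MC_s hs hA
    have hI : MC 1 (fun y => (w e y)⁻¹) (e x') := hG.inv g0
    have hD : MC 1 (dual (w e)) (e x') := MC_dual hG g0
    have hT : MC 1 (tm w s e) (e x') := (hI.mul hS).mul hD
    have hT0 : (tm w s e (e x'))ᴴ.det ≠ 0 := by
      rw [Matrix.det_conjTranspose]
      refine star_ne_zero.2 ?_
      unfold tm
      rw [Matrix.det_mul, Matrix.det_mul]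
      refine mul_ne_zero (mul_ne_zero ?_ (hn e x' hA)) ?_
      · exact (hw.posDef e x' hA).inv.det_pos.ne'
      · exact (dual_posDef (hw.posDef e x' hA)).det_pos.ne'
    have hev : eta w s e =ᶠ[𝓝 (e x')] fun y => ((tm w s e y)ᴴ)⁻¹ := by
      rw [hAe]
      filter_upwards [hye] with y' hy'
      have := eta_eq_tm (s := s) hw hy'.1
      rwa [hy'.2] at this
    have hE : MC 1 (eta w s e) (e x') := by
      intro a b
      refine ((hT.conjTranspose).inv hT0 a b).congr_of_eventuallyEq ?_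
      filter_upwards [hev] with y' hy'
      rw [hy']
    rw [← hAe]
    refine ⟨(hE.md one) i j, fun l => ?_⟩
    have h1 : DMb l (eta w s e) (e x') = 0 := by
      rw [DMb_congr hev, DMb_inv hT.conjTranspose hT0, DMb_conjTranspose (hT.md one),
        DM_tm hw hric hs hA, Matrix.conjTranspose_zero, Matrix.mul_zero, Matrix.zero_mul, neg_zero]
    exact congrFun (congrFun h1 i) j
  alt e x hx := by
    unfold eta
    have h1 : (((s e (e x))ᴴ)⁻¹)ᵀ = -((s e (e x))ᴴ)⁻¹ := by
      rw [Matrix.transpose_nonsing_inv]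
      have h2 : ((s e (e x))ᴴ)ᵀ = -(s e (e x))ᴴ := by
        ext i j
        have := congrFun (congrFun (hs.alt e x hx) i) j
        simp only [Matrix.transpose_apply, Matrix.neg_apply] at this
        simp only [Matrix.transpose_apply, Matrix.conjTranspose_apply, Matrix.neg_apply]
        rw [this, star_neg, neg_neg]
      rw [h2]
      refine Matrix.inv_eq_right_inv ?_
      rw [neg_mul_neg]
      refine Matrix.mul_nonsing_inv _ ?_
      rw [Matrix.det_conjTranspose]
      exact (isUnit_iff_ne_zero.2 (hn e x hx)).star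
    rw [Matrix.transpose_mul, Matrix.transpose_mul, Matrix.transpose_transpose, h1,
      Matrix.neg_mul, Matrix.mul_neg, Matrix.mul_assoc]
  change e e' x hx hx' := by
    have hJ : IsUnit (jacM e e' x).det := jacM_isUnit hx hx'
    set J := jacM e e' x with hJd
    have hw1 := hw.change e e' x hx hx'
    rw [← hJd] at hw1
    have hs1 := hs.change e e' x hx hx'
    rw [← hJd] at hs1
    unfold eta
    rw [hw1, hs1]
    have e1 : (Jᵀ * s e' (e' x) * J)ᴴ = Jᴴ * (s e' (e' x))ᴴ * J.map (starRingEnd ℂ) := by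
      rw [Matrix.conjTranspose_mul, Matrix.conjTranspose_mul, ← Matrix.mul_assoc]
      rfl
    have e2 : (Jᵀ * w e' (e' x) * J.map (starRingEnd ℂ))ᵀ = Jᴴ * (w e' (e' x))ᵀ * J := by
      rw [Matrix.transpose_mul, Matrix.transpose_mul, Matrix.transpose_transpose, ← Matrix.mul_assoc]
      rfl
    have hJb : IsUnit (J.map (starRingEnd ℂ)).det := by
      have : (J.map (starRingEnd ℂ)).det = (starRingEnd ℂ) J.det :=
        (RingHom.map_det (starRingEnd ℂ) J).symm
      rw [this]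
      exact hJ.map _
    have hJh : IsUnit Jᴴ.det := by rw [Matrix.det_conjTranspose]; exact hJ.star
    rw [e1, e2, Matrix.mul_inv_rev, Matrix.mul_inv_rev]
    calc Jᵀ * w e' (e' x) * J.map (starRingEnd ℂ) * ((J.map (starRingEnd ℂ))⁻¹ *
          (((s e' (e' x))ᴴ)⁻¹ * (Jᴴ)⁻¹)) * (Jᴴ * (w e' (e' x))ᵀ * J)
        = Jᵀ * w e' (e' x) * (J.map (starRingEnd ℂ) * (J.map (starRingEnd ℂ))⁻¹) *
          ((s e' (e' x))ᴴ)⁻¹ * ((Jᴴ)⁻¹ * Jᴴ) * (w e' (e' x))ᵀ * J := by
          simp only [Matrix.mul_assoc]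
      _ = Jᵀ * (w e' (e' x) * ((s e' (e' x))ᴴ)⁻¹ * (w e' (e' x))ᵀ) * J := by
          rw [Matrix.mul_nonsing_inv _ hJb, Matrix.nonsing_inv_mul _ hJh]
          simp only [Matrix.mul_assoc, Matrix.one_mul, Matrix.mul_one]

end Vale.Agent.P301.H450
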