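import Vale.Agent.P301.H450.TwIso
import Vale.Agent.P301.H103.Ext

/-!
# P301, index theorem: the index does not change under refinement of the cover
-/

open scoped Manifold ContDiff ComplexOrder Topology Matrix ComplexConjugate
open Vale.Agent.P272.K Vale.Agent.P272.K.C2 Vale.Agent.P299.H954 Vale.Agent.P299.IX
open Vale.Agent.P301.H599 MeasureTheory Set Filter Vale.Agent.P299.H863
open Vale.Agent.P299.IX.Fock Vale.Agent.P301.H862 Vale.Agent.P301.H103
open Vale.Agent.P272.K.INT (intX_congr)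
open UniformSpace

set_option linter.unusedSectionVars false

noncomputable section

namespace Vale.Agent.P301.H450

section abs

variable {H H' : Type*} [NormedAddCommGroup H] [InnerProductSpace ℂ H] [NormedAddCommGroup H']
  [InnerProductSpace ℂ H'] {D : H →ₗ[ℂ] H} {D' : H' →ₗ[ℂ] H'} {K : Submodule ℂ H}
  {K' : Submodule ℂ H'}

theorem completion_mem_skOn (Φ : H →L[ℂ] H') (hD : ∀ u, D' (Φ u) = Φ (D u))
    (hK : ∀ u ∈ K, Φ u ∈ K') (x : Completion H) (hx : x ∈ skOn D K) :
    Φ.completion x ∈ skOn D' K' := by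
  obtain ⟨w, h1, h2, h3⟩ := hx
  refine ⟨fun n => Φ (w n), fun n => hK _ (h1 n), ?_, ?_⟩
  · have h4 := (Φ.completion.continuous.tendsto x).comp h2
    refine h4.congr fun n => ?_
    exact ContinuousLinearMap.completion_apply_coe Φ (w n)
  · have h4 := (Φ.continuous.tendsto 0).comp h3
    rw [map_zero] at h4
    refine h4.congr fun n => ?_
    exact (hD (w n)).symm

theorem completion_inv (Φ : H →L[ℂ] H') (Ψ : H' →L[ℂ] H) (h : ∀ u, Ψ (Φ u) = u)
    (x : Completion H) : Ψ.completion (Φ.completion x) = x := by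
  refine Completion.induction_on x ?_ fun u => ?_
  · exact isClosed_eq (Ψ.completion.continuous.comp Φ.completion.continuous) continuous_id
  · rw [ContinuousLinearMap.completion_apply_coe, ContinuousLinearMap.completion_apply_coe, h]

/-- transport of the strong kernels -/
def skOnEquiv (Φ : H →L[ℂ] H') (Ψ : H' →L[ℂ] H) (h1 : ∀ u, Ψ (Φ u) = u)
    (h2 : ∀ v, Φ (Ψ v) = v) (hD : ∀ u, D' (Φ u) = Φ (D u)) (hK : ∀ u ∈ K, Φ u ∈ K')
    (hK' : ∀ v ∈ K', Ψ v ∈ K) : skOn D K ≃ₗ[ℂ] skOn D' K' where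
  toFun x := ⟨Φ.completion x, completion_mem_skOn Φ hD hK x x.2⟩
  invFun y := ⟨Ψ.completion y, completion_mem_skOn Ψ (fun v => by
    have h3 := congrArg Ψ (hD (Ψ v))
    rw [h2, h1] at h3
    exact h3.symm) hK' y y.2⟩
  map_add' x y := Subtype.ext (map_add Φ.completion _ _)
  map_smul' c x := Subtype.ext (map_smul Φ.completion _ _)
  left_inv x := Subtype.ext (completion_inv Φ Ψ h1 x)
  right_inv y := Subtype.ext (completion_inv Ψ Φ h2 y)

end abs

variable {d : ℕ} {X : Type} [TopologicalSpace X] {ι κ : Type} [ChartedSpace (Cm d) X]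

/-- a refinement of the cover -/
structure Refn (L : LineBundle d X ι) (κ : Type) where
  r : κ → ι
  U : κ → Set X
  isOpen : ∀ k, IsOpen (U k)
  cover : ∀ x, ∃ k, x ∈ U k
  sub : ∀ k, U k ⊆ L.U (r k)

/-- the line bundle on a finer cover -/
def refL (L : LineBundle d X ι) (R : Refn L κ) : LineBundle d X κ where
  U := R.U
  isOpen := R.isOpen
  cover := R.cover
  g k l := L.g (R.r k) (R.r l)
  holo k l e x h hk hl := L.holo _ _ e x h (R.sub k hk) (R.sub l hl)
  ne_zero k l x hk hl := L.ne_zero _ _ x (R.sub k hk) (R.sub l hl)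
  cocycle k l m x hk hl hm := L.cocycle _ _ _ x (R.sub k hk) (R.sub l hl) (R.sub m hm)

theorem refL_metric {L : LineBundle d X ι} {ρ : ι → X → ℝ} (h : IsMetric L ρ) (R : Refn L κ) :
    IsMetric (refL L R) (fun k => ρ (R.r k)) where
  smooth k e x hx hk := h.smooth _ e x hx (R.sub k hk)
  change k l x hk hl := h.change _ _ x (R.sub k hk) (R.sub l hl)

/-- the line bundle on a finer cover -/
def refB (B : HB d X ι) (R : Refn B.L κ) : HB d X κ :=
  ⟨refL B.L R, fun k => B.ρ (R.r k), B.w, refL_metric B.metric R, B.kahler⟩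

variable {L : LineBundle d X ι} {B : HB d X ι} {R : Refn L κ}
  {g h : Fam d X ι} {i j : ι} {k l : κ} {e e' : Chart d X} {x : X} {z : Cm d}

/-- restriction to the finer cover -/
def resF (R : Refn L κ) (g : Fam d X ι) : Fam d X κ := fun k => g (R.r k)

theorem isSec_resF (hg : IsSec L g) : IsSec (refL L R) (resF R g) where
  smooth k e x hx hk := hg.smooth _ e x hx (R.sub k hk)
  change k l e e' x hx hx' hk hl := hg.change _ _ e e' x hx hx' (R.sub k hk) (R.sub l hl)

/-- gluing -/
def gluF (R : Refn L κ) (g : Fam d X κ) : Fam d X ι := fun i e z =>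
  L.g i (R.r (ix (refL L R) (e.symm z))) (e.symm z) • g (ix (refL L R) (e.symm z)) e z

variable [IsManifold 𝓘(ℂ, Cm d) ω X]

theorem gluF_at {g : Fam d X κ} (hg : IsSec (refL L R) g) (hx : At e x) (hi : x ∈ L.U i)
    (hk : x ∈ R.U k) : gluF R g i e (e x) = L.g i (R.r k) x • g k e (e x) := by
  have h1 : x ∈ (refL L R).U (ix (refL L R) x) := mem_ix _ x
  have h2 : x ∈ L.U (R.r (ix (refL L R) x)) := R.sub _ h1
  have h3 := hg.change (ix (refL L R) x) k e e x hx hx h1 hk
  unfold gluF
  rw [hx.left_inv, h3, jacM_self hx, Matrix.transpose_one, lam_one, Matrix.smul_mulVec,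
    Matrix.one_mulVec, smul_smul]
  congr 1
  exact L.cocycle i _ _ x hi h2 (R.sub k hk)

theorem isSec_gluF {g : Fam d X κ} (hg : IsSec (refL L R) g) : IsSec L (gluF R g) where
  smooth i e x hx hi := by
    obtain ⟨k, hk⟩ := R.cover x
    have h1 : VC ∞ (fun z => L.g i (R.r k) (e.symm z) • g k e z) (e x) :=
      VC.smul ((((L.holo i (R.r k) e x hx hi (R.sub k hk)).contDiffAt
        (n := ω)).restrict_scalars ℝ).of_le (by exact le_top)) (hg.smooth k e x hx hk)
    refine VC.congr h1 ?_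
    filter_upwards [nhds_on (L := L) hx hx hi (R.sub k hk), nhds_on (L := refL L R) hx hx hk hk]
      with z hz hz'
    obtain ⟨hz1, hz2, -, hz4, -⟩ := hz
    obtain ⟨-, -, -, hz4', -⟩ := hz'
    have h2 := gluF_at hg hz2 hz4 hz4'
    rw [e.right_inv hz1] at h2
    exact h2
  change i j e e' x hx hx' hi hj := by
    obtain ⟨k, hk⟩ := R.cover x
    rw [gluF_at hg hx hi hk, gluF_at hg hx' hj hk, hg.change k k e e' x hx hx' hk hk]
    have h1 : (refL L R).g k k x = 1 := by
      have h2 := (refL L R).cocycle k k k x hk hk hk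
      exact mul_eq_left₀ ((refL L R).ne_zero k k x hk hk) |>.1 h2
    rw [h1, one_smul, Matrix.smul_mulVec, Matrix.mulVec_smul, smul_smul,
      L.cocycle i j (R.r k) x hi hj (R.sub k hk)]

variable [T2Space X] [CompactSpace X]

theorem intC_ref {D : ι → Chart d X → Cm d → ℂ} {D' : κ → Chart d X → Cm d → ℂ}
    (hD : IsDens L D) (hD' : IsDens (refL L R) D')
    (h : ∀ k e x, At e x → x ∈ R.U k → D (R.r k) e (e x) = D' k e (e x)) :
    H862.intC L D = H862.intC (refL L R) D' := by
  have h1 : INT.intX (reD L D) = INT.intX (reD (refL L R) D') := intX_congr fun e x hx => by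
    have hk : x ∈ (refL L R).U (ix (refL L R) x) := mem_ix _ x
    rw [reD_eq hD hx (R.sub _ hk), reD_eq hD' hx hk, h _ e x hx hk]
  have h2 : INT.intX (imD L D) = INT.intX (imD (refL L R) D') := intX_congr fun e x hx => by
    have hk : x ∈ (refL L R).U (ix (refL L R) x) := mem_ix _ x
    rw [imD_eq hD hx (R.sub _ hk), imD_eq hD' hx hk, h _ e x hx hk]
  rw [H862.intC, H862.intC, h1, h2]

section ref

variable {R : Refn B.L κ}

theorem isSec_resB (s : B.S) : IsSec (refB B R).L (resF R s.f) := isSec_resF (L := B.L) s.isSec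

theorem isSec_gluB (s : (refB B R).S) : IsSec B.L (gluF R s.f) := isSec_gluF (L := B.L) s.isSec

/-- restriction -/
def resS (B : HB d X ι) (R : Refn B.L κ) : B.S →ₗ[ℂ] (refB B R).S where
  toFun s := HB.mkS (resF R s.f) (isSec_resB s)
  map_add' s t := by
    apply HB.S.ext_f
    intro k e x hx hk
    have h1 := HB.mkS_at (B := refB B R) (isSec_resB (s + t)) hx hk
    have h2 := HB.mkS_at (B := refB B R) (isSec_resB s) hx hk
    have h3 := HB.mkS_at (B := refB B R) (isSec_resB t) hx hk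
    exact h1.trans (congrArg₂ (· + ·) h2 h3).symm
  map_smul' c s := by
    apply HB.S.ext_f
    intro k e x hx hk
    have h1 := HB.mkS_at (B := refB B R) (isSec_resB (c • s)) hx hk
    have h2 := HB.mkS_at (B := refB B R) (isSec_resB s) hx hk
    exact h1.trans (congrArg (c • ·) h2).symm

theorem resS_at (s : B.S) (hx : At e x) (hk : x ∈ R.U k) :
    (resS B R s).f k e (e x) = s.f (R.r k) e (e x) :=
  HB.mkS_at (B := refB B R) (isSec_resB s) hx hk

theorem resS_near (s : B.S) (hx : At e x) (hk : x ∈ R.U k) :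
    (resS B R s).f k e =ᶠ[𝓝 (e x)] s.f (R.r k) e :=
  HB.mkS_near (B := refB B R) (isSec_resB s) hx hk

theorem gluB_at (s : (refB B R).S) (hx : At e x) (hi : x ∈ B.L.U i) (hk : x ∈ R.U k) :
    gluF R s.f i e (e x) = B.L.g i (R.r k) x • s.f k e (e x) := gluF_at (L := B.L) s.isSec hx hi hk

/-- gluing -/
def gluS (B : HB d X ι) (R : Refn B.L κ) : (refB B R).S →ₗ[ℂ] B.S where
  toFun s := HB.mkS (gluF R s.f) (isSec_gluB s)
  map_add' s t := by
    apply HB.S.ext_f
    intro i e x hx hi
    obtain ⟨k, hk⟩ := R.cover x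
    have h1 := (HB.mkS_at (B := B) (isSec_gluB (s + t)) hx hi).trans (gluB_at _ hx hi hk)
    have h2 := (HB.mkS_at (B := B) (isSec_gluB s) hx hi).trans (gluB_at _ hx hi hk)
    have h3 := (HB.mkS_at (B := B) (isSec_gluB t) hx hi).trans (gluB_at _ hx hi hk)
    exact (h1.trans (smul_add _ _ _)).trans (congrArg₂ (· + ·) h2 h3).symm
  map_smul' c s := by
    apply HB.S.ext_f
    intro i e x hx hi
    obtain ⟨k, hk⟩ := R.cover x
    have h1 := (HB.mkS_at (B := B) (isSec_gluB (c • s)) hx hi).trans (gluB_at _ hx hi hk)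
    have h2 := (HB.mkS_at (B := B) (isSec_gluB s) hx hi).trans (gluB_at _ hx hi hk)
    exact (h1.trans (smul_comm _ c (s.f k e (e x)))).trans (congrArg (c • ·) h2).symm

theorem gluS_at (s : (refB B R).S) (hx : At e x) (hi : x ∈ B.L.U i) (hk : x ∈ R.U k) :
    (gluS B R s).f i e (e x) = B.L.g i (R.r k) x • s.f k e (e x) :=
  (HB.mkS_at (B := B) (isSec_gluB s) hx hi).trans (gluB_at s hx hi hk)

theorem g_self1 (L : LineBundle d X ι) (hi : x ∈ L.U i) : L.g i i x = 1 :=
  mul_eq_left₀ (L.ne_zero i i x hi hi) |>.1 (L.cocycle i i i x hi hi hi)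

theorem res_glu (s : (refB B R).S) : resS B R (gluS B R s) = s := by
  apply HB.S.ext_f
  intro k e x hx hk
  rw [resS_at _ hx hk, gluS_at s hx (R.sub k hk) hk, g_self1 B.L (R.sub k hk), one_smul]

theorem glu_res (s : B.S) : gluS B R (resS B R s) = s := by
  apply HB.S.ext_f
  intro i e x hx hi
  obtain ⟨k, hk⟩ := R.cover x
  rw [gluS_at _ hx hi hk, resS_at s hx hk, s.isSec.change i (R.r k) e e x hx hx hi (R.sub k hk),
    jacM_self hx, Matrix.transpose_one, lam_one, Matrix.smul_mulVec, Matrix.one_mulVec]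

theorem norm_resS (s : B.S) : ‖resS B R s‖ = ‖s‖ := by
  have h : ‖resS B R s‖ ^ 2 = ‖s‖ ^ 2 := by
    rw [HB.norm_sq_eq, HB.norm_sq_eq]
    congr 1
    refine (intC_ref (L := B.L) (R := R) (B.dens s.isSec s.isSec)
      ((refB B R).dens (resS B R s).isSec (resS B R s).isSec) fun k e x hx hk => ?_).symm
    show hw (wt B.ρ (R.r k) e) (B.w e) (e x) (s.f (R.r k) e (e x)) (s.f (R.r k) e (e x)) =
      hw (wt B.ρ (R.r k) e) (B.w e) (e x) ((resS B R s).f k e (e x)) ((resS B R s).f k e (e x))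
    rw [resS_at s hx hk]
  exact (sq_eq_sq₀ (norm_nonneg _) (norm_nonneg _)).1 h

theorem resS_D (s : B.S) : (refB B R).D (resS B R s) = resS B R (B.D s) := by
  apply HB.S.ext_f
  intro k e x hx hk
  have h1 := HB.D_at (B := refB B R) (resS B R s) hx hk
  have h2 := HB.D_at (B := B) s hx (R.sub k hk)
  rw [Dw_congr (resS_near s hx hk), De_congr (resS_near s hx hk)] at h1
  rw [h1, resS_at _ hx hk, h2]
  rfl

theorem resS_dgc (c : ℕ → ℂ) (s : B.S) :
    (refB B R).dgc c (resS B R s) = resS B R (B.dgc c s) := by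
  apply HB.S.ext_f
  intro k e x hx hk
  rw [HB.dgc_at c _ hx hk, resS_at _ hx hk, resS_at _ hx hk, HB.dgc_at c _ hx (R.sub k hk)]

/-- restriction as a continuous map -/
def resC (B : HB d X ι) (R : Refn B.L κ) : B.S →L[ℂ] (refB B R).S :=
  (resS B R).mkContinuous 1 fun s => by rw [one_mul, norm_resS]

/-- gluing as a continuous map -/
def gluC (B : HB d X ι) (R : Refn B.L κ) : (refB B R).S →L[ℂ] B.S :=
  (gluS B R).mkContinuous 1 fun s => by
    rw [one_mul, ← norm_resS (R := R) (gluS B R s), res_glu]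

theorem gluS_dgc (c : ℕ → ℂ) (s : (refB B R).S) :
    B.dgc c (gluS B R s) = gluS B R ((refB B R).dgc c s) := by
  have h := resS_dgc (R := R) c (gluS B R s)
  rw [res_glu] at h
  rw [h, glu_res]

/-- **The dimensions of the strong kernels do not change under refinement.** -/
theorem finrank_skd_ref (p : ℕ) : Module.finrank ℂ (skd (refB B R).grading p) =
    Module.finrank ℂ (skd B.grading p) := by
  refine (skOnEquiv (resC B R) (gluC B R) glu_res res_glu (fun u => resS_D u) ?_ ?_).finrank_eq.symm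
  · rintro _ ⟨v, rfl⟩
    exact ⟨resS B R v, resS_dgc _ v⟩
  · rintro _ ⟨v, rfl⟩
    exact ⟨gluS B R v, gluS_dgc _ v⟩

theorem finrank_sk_ref (σ : ℤˣ) : Module.finrank ℂ ((refB B R).ell.sk σ) =
    Module.finrank ℂ (B.ell.sk σ) := by
  refine (skOnEquiv (resC B R) (gluC B R) glu_res res_glu (fun u => resS_D u) ?_ ?_).finrank_eq.symm
  · intro u hu
    show (refB B R).dgc _ (resS B R u) = _ • resS B R u
    rw [resS_dgc, ← map_smul]
    exact congrArg (resS B R) hu
  · intro u hu
    show B.dgc _ (gluS B R u) = _ • gluS B R u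
    rw [gluS_dgc, ← map_smul]
    exact congrArg (gluS B R) hu

/-- **The index does not change under refinement of the cover.** -/
theorem index_ref : (refB B R).ell.P = B.ell.P := by
  rw [Ell.P, Ell.P, finrank_sk_ref, finrank_sk_ref]

end ref

/-- the product cover as a refinement of the cover of the second factor -/
def prodRefn (V : LineBundle d X κ) (L : LineBundle d X ι) : Refn L (κ × ι) where
  r := Prod.snd
  U p := V.U p.1 ∩ L.U p.2
  isOpen p := (V.isOpen p.1).inter (L.isOpen p.2)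
  cover x := by
    obtain ⟨a, ha⟩ := V.cover x
    obtain ⟨b, hb⟩ := L.cover x
    exact ⟨(a, b), ha, hb⟩
  sub _ _ h := h.2

/-- the index of `V^0 ⊗ L^m` on the product cover is the index of `L^m` -/
theorem ind2_zero_left (V : HB d X κ) (B : HB d X ι) (m : ℕ) :
    ind2 V B 0 m = (B.pow m).ell.P := by
  rw [← index_ref (B := B.pow m) (R := prodRefn V.L (B.pow m).L)]
  refine index_iso (c := fun _ _ => 1) (fun _ => rfl) rfl
    ⟨fun _ => subset_rfl, fun _ _ _ _ _ => contDiffAt_const, fun p q x _ _ => ?_⟩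
    fun _ _ _ => one_ne_zero
  show (1 : ℂ) * (V.L.g p.1 q.1 x ^ 0 * B.L.g p.2 q.2 x ^ m) = B.L.g p.2 q.2 x ^ m * 1
  rw [pow_zero, one_mul, one_mul, mul_one]

end Vale.Agent.P301.H450
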