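import Vale.Agent.P301.H450.PullB
import Vale.Agent.P301.H450.TwRef
import Vale.Agent.P301.H599.Vol

/-!
# P301: the index of the pull-back under an automorphism
-/

open scoped Manifold ContDiff ComplexOrder Topology Matrix ComplexConjugate
open Vale.Agent.P272.K Vale.Agent.P272.K.C2 Vale.Agent.P299.H954 Vale.Agent.P299.IX
open Vale.Agent.P301.H599 MeasureTheory Set Filter Vale.Agent.P299.H863
open Vale.Agent.P299.IX.Fock Vale.Agent.P301.H862 Vale.Agent.P301.H103
open Vale.Agent.P272.K.INT (intX intX_congr)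

set_option linter.all false

noncomputable section

namespace Vale.Agent.P301.H450

variable {d : ℕ} {X : Type} [TopologicalSpace X] {ι κ : Type} [ChartedSpace (Cm d) X]
  [IsManifold 𝓘(ℂ, Cm d) ω X] {F : Auto d X} {L : LineBundle d X ι} {B : HB d X ι}
  {g h : Fam d X ι} {i j : ι} {e e' : Chart d X} {x : X} {z : Cm d}

omit [IsManifold 𝓘(ℂ, Cm d) ω X] in
theorem g_self2 (L : LineBundle d X ι) (hi : x ∈ L.U i) : L.g i i x = 1 :=
  mul_eq_left₀ (L.ne_zero i i x hi hi) |>.1 (L.cocycle i i i x hi hi hi)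

/-- `F` in charts -/
def cF (F : X → X) (e e' : Chart d X) : Cm d → Cm d := fun z => e' (F (e.symm z))

theorem cF_eq (F : X → X) (hx : At e x) : cF F e e' (e x) = e' (F x) := by
  show e' (F (e.symm (e x))) = _
  rw [hx.left_inv]

theorem trF (F : Auto d X) (hx : At e x) (h' : At e' (F x)) :
    TrAt (cF F e e') (fun _ => 1) (e x) where
  hτ := map_holo F.contMDiff hx h'
  hγ := contDiffAt_const
  det := jacF_det_ne_zero F hx h'
  ne := one_ne_zero

theorem tmF_eq (F : X → X) (z : Cm d) :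
    H862.tm (cF F e e') (fun _ => 1) z = lam (jacF F e e' z)ᵀ := by
  rw [H862.tm, one_smul]
  rfl

/-- the pull-back of a family -/
def pullF (F : X → X) (g : Fam d X ι) : Fam d X ι := fun i e z =>
  lam (jacF F e (chartAt (Cm d) (F (e.symm z))) z)ᵀ *ᵥ
    g i (chartAt (Cm d) (F (e.symm z))) (chartAt (Cm d) (F (e.symm z)) (F (e.symm z)))

theorem pullF_at (hg : IsSec L g) (hx : At e x) (h' : At e' (F x)) (hi : F x ∈ L.U i) :
    pullF F g i e (e x) = lam (jacF F e e' (e x))ᵀ *ᵥ g i e' (e' (F x)) := by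
  have hc := atChart (d := d) (F x)
  unfold pullF
  rw [hx.left_inv, hg.change i i _ e' (F x) hc h' hi hi, g_self2 L hi, one_smul,
    Matrix.mulVec_mulVec, ← lam_mul, ← Matrix.transpose_mul, ← jacF_change F.contMDiff hx hc h']

theorem pullF_ev (hg : IsSec L g) (hx : At e x) (h' : At e' (F x)) (hi : F x ∈ L.U i) :
    pullF F g i e =ᶠ[𝓝 (e x)] fun z => H862.tm (cF F e e') (fun _ => 1) z *ᵥ
      g i e' (cF F e e' z) := by
  have h1 : ContinuousAt (fun z => F (e.symm z)) (e x) :=
    F.contMDiff.continuous.continuousAt.comp (e.continuousAt_symm hx.mem_target)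
  have h2 : ∀ᶠ z in 𝓝 (e x), F (e.symm z) ∈ L.U i := by
    apply h1.eventually
    show ∀ᶠ y in 𝓝 (F (e.symm (e x))), y ∈ L.U i
    rw [hx.left_inv]
    exact (L.isOpen i).mem_nhds hi
  filter_upwards [map_near F.contMDiff.continuous hx h', h2] with z hz hz'
  have h3 := pullF_at hg hz.2.1 hz.2.2 hz'
  rw [e.right_inv hz.1] at h3
  rw [h3, tmF_eq]
  rfl

theorem isSec_pullF (hg : IsSec L g) : IsSec (pullL F.contMDiff L) (pullF F g) where
  smooth i e x hx hi := by
    have hc := atChart (d := d) (F x)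
    have ht := trF F hx hc
    refine VC.congr (VC.mulVec ht.MC_tm (ht.VC_comp le_rfl ?_)) (pullF_ev hg hx hc hi)
    rw [cF_eq F hx]
    exact hg.smooth i _ _ hc hi
  change i j e1 e2 x h1 h2 hi hj := by
    have hc := atChart (d := d) (F x)
    show pullF F g i e1 (e1 x) = (L.g i j (F x) • lam (jacM e1 e2 x)ᵀ) *ᵥ pullF F g j e2 (e2 x)
    rw [pullF_at hg h1 hc hi, pullF_at hg h2 hc hj, hg.change i j _ _ (F x) hc hc hi hj,
      jacM_self hc, Matrix.transpose_one, lam_one, jacF_source F.contMDiff h1 h2 hc,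
      Matrix.transpose_mul, lam_mul, Matrix.smul_mulVec, Matrix.smul_mulVec, Matrix.one_mulVec,
      Matrix.mulVec_smul, Matrix.mulVec_mulVec]

theorem pullF_D (hk : IsKahler B.w) (hg : IsSec B.L g) (hx : At e x) (hi : F x ∈ B.L.U i) :
    Dw (wt (pullB F B).ρ i e) (pullF F g i e) (e x) + De ((pullB F B).w e) (pullF F g i e) (e x) =
      pullF F (DX B.ρ g + dX B.w g) i e (e x) := by
  have hc := atChart (d := d) (F x)
  have ht := trF F hx hc
  have hv : VC 1 (g i (chartAt (Cm d) (F x))) (cF F e (chartAt (Cm d) (F x)) (e x)) := by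
    rw [cF_eq F hx]; exact vc1 hg hc hi
  have h1 := ht.cov_Dw (f := wt (pullB F B).ρ i e) (f' := wt B.ρ i (chartAt (Cm d) (F x)))
    (a := pullF F g i e) (a' := g i (chartAt (Cm d) (F x))) hv
    (by rw [cF_eq F hx]; exact (B.metric.smooth i _ _ hc hi).of_le TrAt.one_le_inf)
    (pullF_ev hg hx hc hi) (by
      filter_upwards [comp_near F.contMDiff hx hc (B.ρ i)] with z hz
      show B.ρ i (F (e.symm z)) = B.ρ i ((chartAt (Cm d) (F x)).symm
        (chartAt (Cm d) (F x) (F (e.symm z)))) + Real.log (‖(1 : ℂ)‖ ^ 2)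
      rw [norm_one, one_pow, Real.log_one, add_zero]
      exact hz)
  have h2 := ht.cov_De (w := (pullB F B).w e) (w' := B.w (chartAt (Cm d) (F x)))
    (a := pullF F g i e) (a' := g i (chartAt (Cm d) (F x))) (by
      show pull F B.w e (e x) = (jmat (cF F e (chartAt (Cm d) (F x))) (e x))ᵀ *
        B.w (chartAt (Cm d) (F x)) (cF F e (chartAt (Cm d) (F x)) (e x)) * _
      rw [cF_eq F hx]
      exact pull_eq F.contMDiff (INT.IsKahler.isClosedForm hk).form hx hc) hv
    (pullF_ev hg hx hc hi)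
  rw [h1, h2, pullF_at ((hg.DX B.metric).add (hg.dX hk)) hx hc hi, ← Matrix.mulVec_add, tmF_eq,
    cF_eq F hx]
  rfl

theorem pullF_dglX (c : ℕ → ℂ) (hg : IsSec L g) (hx : At e x) (hi : F x ∈ L.U i) :
    dgl c *ᵥ pullF F g i e (e x) = pullF F (dglX c g) i e (e x) := by
  have hc := atChart (d := d) (F x)
  rw [pullF_at hg hx hc hi, pullF_at (hg.dglX c) hx hc hi, dglX, Matrix.mulVec_mulVec,
    Matrix.mulVec_mulVec, dgl_lam]

variable [T2Space X] [CompactSpace X]

theorem intC_pull {D : ι → Chart d X → Cm d → ℂ} {D' : ι → Chart d X → Cm d → ℂ}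
    (hD : IsDens L D) (hD' : IsDens (pullL F.contMDiff L) D')
    (h : ∀ i e e' x, At e x → At e' (F x) → F x ∈ L.U i →
      D' i e (e x) = ((‖(jacF F e e' (e x)).det‖ ^ 2 : ℝ) : ℂ) * D i e' (e' (F x))) :
    H862.intC (pullL F.contMDiff L) D' = H862.intC L D := by
  have h1 : intX (reD (pullL F.contMDiff L) D') = intX (reD L D) := by
    rw [← intX_pullD F hD.isDensity_re]
    refine intX_congr fun e x hx => ?_
    have hc := atChart (d := d) (F x)
    have hi : F x ∈ L.U (ix L (F x)) := mem_ix L (F x)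
    rw [pullD_eq F.contMDiff hD.isDensity_re hx hc, reD_eq hD' hx (i := ix L (F x)) hi,
      reD_eq hD hc hi, h _ e _ x hx hc hi, Complex.re_ofReal_mul, mul_comm]
  have h2 : intX (imD (pullL F.contMDiff L) D') = intX (imD L D) := by
    rw [← intX_pullD F hD.isDensity_im]
    refine intX_congr fun e x hx => ?_
    have hc := atChart (d := d) (F x)
    have hi : F x ∈ L.U (ix L (F x)) := mem_ix L (F x)
    rw [pullD_eq F.contMDiff hD.isDensity_im hx hc, imD_eq hD' hx (i := ix L (F x)) hi,
      imD_eq hD hc hi, h _ e _ x hx hc hi, Complex.im_ofReal_mul, mul_comm]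
  rw [H862.intC, H862.intC, h1, h2]

theorem hw_pullF (hg : IsSec B.L g) (hh : IsSec B.L h) (hx : At e x) (h' : At e' (F x))
    (hi : F x ∈ B.L.U i) :
    hX (pullB F B).ρ (pullB F B).w (pullF F g) (pullF F h) i e (e x) =
      ((‖(jacF F e e' (e x)).det‖ ^ 2 : ℝ) : ℂ) * hX B.ρ B.w g h i e' (e' (F x)) := by
  have ht := trF F hx h'
  have h1 := ht.cov_hw (w := (pullB F B).w e) (w' := B.w e') (by
      show pull F B.w e (e x) = (jmat (cF F e e') (e x))ᵀ * B.w e' (cF F e e' (e x)) * _
      rw [cF_eq F hx]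
      exact pull_eq F.contMDiff (INT.IsKahler.isClosedForm B.kahler).form hx h')
    (f := wt (pullB F B).ρ i e) (f' := wt B.ρ i e') (by
      show B.ρ i (F (e.symm (e x))) = B.ρ i (e'.symm (e' (F (e.symm (e x))))) +
        Real.log (‖(1 : ℂ)‖ ^ 2)
      rw [norm_one, one_pow, Real.log_one, add_zero, hx.left_inv, h'.left_inv])
    (g i e' (e' (F x))) (h i e' (e' (F x)))
  rw [tmF_eq, cF_eq F hx, ← pullF_at hg hx h' hi, ← pullF_at hh hx h' hi] at h1
  exact h1

theorem isSec_pullS (s : B.S) : IsSec (pullB F B).L (pullF F s.f) := isSec_pullF s.isSec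

/-- pull-back of sections -/
def pullS (F : Auto d X) (B : HB d X ι) : B.S →ₗ[ℂ] (pullB F B).S where
  toFun s := HB.mkS (pullF F s.f) (isSec_pullS s)
  map_add' s t := by
    apply HB.S.ext_f
    intro i e x hx hi
    have hc := atChart (d := d) (F x)
    have hi' : F x ∈ B.L.U i := hi
    have h1 := HB.mkS_at (B := pullB F B) (isSec_pullS (s + t)) hx hi
    have h2 := HB.mkS_at (B := pullB F B) (isSec_pullS s) hx hi
    have h3 := HB.mkS_at (B := pullB F B) (isSec_pullS t) hx hi
    refine (h1.trans ?_).trans (congrArg₂ (· + ·) h2 h3).symm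
    show _ = pullF F s.f i e (e x) + pullF F t.f i e (e x)
    rw [pullF_at (s + t).isSec hx hc hi', pullF_at s.isSec hx hc hi', pullF_at t.isSec hx hc hi',
      ← Matrix.mulVec_add]
    rfl
  map_smul' c s := by
    apply HB.S.ext_f
    intro i e x hx hi
    have hc := atChart (d := d) (F x)
    have hi' : F x ∈ B.L.U i := hi
    have h1 := HB.mkS_at (B := pullB F B) (isSec_pullS (c • s)) hx hi
    have h2 := HB.mkS_at (B := pullB F B) (isSec_pullS s) hx hi
    refine (h1.trans ?_).trans (congrArg (c • ·) h2).symm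
    show _ = c • pullF F s.f i e (e x)
    rw [pullF_at (c • s).isSec hx hc hi', pullF_at s.isSec hx hc hi', ← Matrix.mulVec_smul]
    rfl

theorem pullS_at (s : B.S) (hx : At e x) (hi : F x ∈ B.L.U i) :
    (pullS F B s).f i e (e x) = pullF F s.f i e (e x) :=
  HB.mkS_at (B := pullB F B) (isSec_pullS s) hx hi

theorem pullS_at' (s : B.S) (hx : At e x) (h' : At e' (F x)) (hi : F x ∈ B.L.U i) :
    (pullS F B s).f i e (e x) = lam (jacF F e e' (e x))ᵀ *ᵥ s.f i e' (e' (F x)) := by
  rw [pullS_at s hx hi, pullF_at s.isSec hx h' hi]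

theorem pullS_near (s : B.S) (hx : At e x) (hi : F x ∈ B.L.U i) :
    (pullS F B s).f i e =ᶠ[𝓝 (e x)] pullF F s.f i e :=
  HB.mkS_near (B := pullB F B) (isSec_pullS s) hx hi

theorem norm_pullS (s : B.S) : ‖pullS F B s‖ = ‖s‖ := by
  have h : ‖pullS F B s‖ ^ 2 = ‖s‖ ^ 2 := by
    rw [HB.norm_sq_eq, HB.norm_sq_eq]
    congr 1
    refine intC_pull (B.dens s.isSec s.isSec)
      ((pullB F B).dens (pullS F B s).isSec (pullS F B s).isSec) fun i e e' x hx h' hi => ?_
    rw [← hw_pullF s.isSec s.isSec hx h' hi]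
    show hw _ _ _ ((pullS F B s).f i e (e x)) ((pullS F B s).f i e (e x)) =
      hw _ _ _ (pullF F s.f i e (e x)) (pullF F s.f i e (e x))
    rw [pullS_at s hx hi]
  exact (sq_eq_sq₀ (norm_nonneg _) (norm_nonneg _)).1 h

theorem pullS_D (s : B.S) : (pullB F B).D (pullS F B s) = pullS F B (B.D s) := by
  apply HB.S.ext_f
  intro i e x hx hi
  have hi' : F x ∈ B.L.U i := hi
  have hc := atChart (d := d) (F x)
  have h1 := HB.D_at (B := pullB F B) (pullS F B s) hx hi
  rw [Dw_congr (pullS_near s hx hi'), De_congr (pullS_near s hx hi'),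
    pullF_D B.kahler s.isSec hx hi',
    pullF_at ((s.isSec.DX B.metric).add (s.isSec.dX B.kahler)) hx hc hi'] at h1
  rw [h1, pullS_at' _ hx hc hi', HB.D_at s hc hi']
  rfl

theorem pullS_dgc (c : ℕ → ℂ) (s : B.S) :
    (pullB F B).dgc c (pullS F B s) = pullS F B (B.dgc c s) := by
  apply HB.S.ext_f
  intro i e x hx hi
  have hi' : F x ∈ B.L.U i := hi
  have hc := atChart (d := d) (F x)
  rw [HB.dgc_at c _ hx hi, pullS_at s hx hi', pullF_dglX c s.isSec hx hi',
    pullF_at (s.isSec.dglX c) hx hc hi', pullS_at' _ hx hc hi', HB.dgc_at c s hc hi']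
  rfl

/-! ### the inverse -/

theorem isSec_push {g : Fam d X ι} (hg : IsSec (pullL F.contMDiff L) g) :
    IsSec L (pullF F.symm g) := by
  have h := isSec_pullF (F := F.symm) hg
  refine ⟨fun i e x hx hi => h.smooth i e x hx ?_, fun i j e e' x hx hx' hi hj => ?_⟩
  · show F (F.symm x) ∈ L.U i
    rw [F.apply_symm_apply]; exact hi
  · have h1 := h.change i j e e' x hx hx' (by
      show F (F.symm x) ∈ L.U i
      rw [F.apply_symm_apply]; exact hi) (by
      show F (F.symm x) ∈ L.U j
      rw [F.apply_symm_apply]; exact hj)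
    have h2 : (pullL F.symm.contMDiff (pullL F.contMDiff L)).g i j x = L.g i j x := by
      show L.g i j (F (F.symm x)) = _
      rw [F.apply_symm_apply]
    rw [h2] at h1
    exact h1

theorem isSec_pushS (s : (pullB F B).S) : IsSec B.L (pullF F.symm s.f) :=
  isSec_push (L := B.L) s.isSec

theorem mem_push (hi : x ∈ B.L.U i) : F.symm x ∈ (pullB F B).L.U i := by
  show F (F.symm x) ∈ B.L.U i
  rw [F.apply_symm_apply]; exact hi

/-- the inverse of the pull-back of sections -/
def pushS (F : Auto d X) (B : HB d X ι) : (pullB F B).S →ₗ[ℂ] B.S where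
  toFun s := HB.mkS (pullF F.symm s.f) (isSec_pushS s)
  map_add' s t := by
    apply HB.S.ext_f
    intro i e x hx hi
    have hc := atChart (d := d) (F.symm x)
    have hi' := mem_push (F := F) hi
    have h1 := HB.mkS_at (B := B) (isSec_pushS (s + t)) hx hi
    have h2 := HB.mkS_at (B := B) (isSec_pushS s) hx hi
    have h3 := HB.mkS_at (B := B) (isSec_pushS t) hx hi
    refine (h1.trans ?_).trans (congrArg₂ (· + ·) h2 h3).symm
    show _ = pullF F.symm s.f i e (e x) + pullF F.symm t.f i e (e x)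
    rw [pullF_at (s + t).isSec hx hc hi', pullF_at s.isSec hx hc hi', pullF_at t.isSec hx hc hi',
      ← Matrix.mulVec_add]
    rfl
  map_smul' c s := by
    apply HB.S.ext_f
    intro i e x hx hi
    have hc := atChart (d := d) (F.symm x)
    have hi' := mem_push (F := F) hi
    have h1 := HB.mkS_at (B := B) (isSec_pushS (c • s)) hx hi
    have h2 := HB.mkS_at (B := B) (isSec_pushS s) hx hi
    refine (h1.trans ?_).trans (congrArg (c • ·) h2).symm
    show _ = c • pullF F.symm s.f i e (e x)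
    rw [pullF_at (c • s).isSec hx hc hi', pullF_at s.isSec hx hc hi', ← Matrix.mulVec_smul]
    rfl

theorem pushS_at (s : (pullB F B).S) (hx : At e x) (h' : At e' (F.symm x)) (hi : x ∈ B.L.U i) :
    (pushS F B s).f i e (e x) = lam (jacF F.symm e e' (e x))ᵀ *ᵥ s.f i e' (e' (F.symm x)) :=
  (HB.mkS_at (B := B) (isSec_pushS s) hx hi).trans
    (pullF_at s.isSec hx h' (mem_push (F := F) hi))

theorem lam_comp (F G : Auto d X) (hGF : ∀ y, G (F y) = y) (hx : At e x) (h' : At e' (F x)) :
    lam (jacF F e e' (e x))ᵀ * lam (jacF G e' e (e' (F x)))ᵀ = 1 := by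
  have h1 : At e (G (F x)) := by rw [hGF]; exact hx
  have h2 := jacF_comp F.contMDiff G.contMDiff hx h' h1
  have h3 : (fun y => G (F y)) = fun y : X => y := by funext y; exact hGF y
  rw [h3, jacF_id hx] at h2
  rw [← lam_mul, ← Matrix.transpose_mul, ← h2, Matrix.transpose_one, lam_one]

theorem push_pull (s : B.S) : pushS F B (pullS F B s) = s := by
  apply HB.S.ext_f
  intro i e x hx hi
  have hc := atChart (d := d) (F.symm x)
  have h1 : At e (F (F.symm x)) := by rw [F.apply_symm_apply]; exact hx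
  rw [pushS_at _ hx hc hi, pullS_at' s hc h1 (mem_push (F := F) hi), Matrix.mulVec_mulVec,
    lam_comp F.symm F (fun y => F.apply_symm_apply y) hx hc, Matrix.one_mulVec,
    F.apply_symm_apply]

theorem pull_push (s : (pullB F B).S) : pullS F B (pushS F B s) = s := by
  apply HB.S.ext_f
  intro i e x hx hi
  have hi' : F x ∈ B.L.U i := hi
  have hc := atChart (d := d) (F x)
  have h1 : At e (F.symm (F x)) := by rw [F.symm_apply_apply]; exact hx
  rw [pullS_at' _ hx hc hi', pushS_at s hc h1 hi', Matrix.mulVec_mulVec,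
    lam_comp F F.symm (fun y => F.symm_apply_apply y) hx hc, Matrix.one_mulVec,
    F.symm_apply_apply]

/-- pull-back as a continuous map -/
def pullC (F : Auto d X) (B : HB d X ι) : B.S →L[ℂ] (pullB F B).S :=
  (pullS F B).mkContinuous 1 fun s => by rw [one_mul, norm_pullS]

/-- the inverse as a continuous map -/
def pushC (F : Auto d X) (B : HB d X ι) : (pullB F B).S →L[ℂ] B.S :=
  (pushS F B).mkContinuous 1 fun s => by
    rw [one_mul, ← norm_pullS (F := F) (pushS F B s), pull_push]

theorem pushS_dgc (c : ℕ → ℂ) (s : (pullB F B).S) :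
    B.dgc c (pushS F B s) = pushS F B ((pullB F B).dgc c s) := by
  have h := pullS_dgc (F := F) c (pushS F B s)
  rw [pull_push] at h
  rw [h, push_pull]

/-- **The dimensions of the strong kernels do not change under pull-back.** -/
theorem finrank_skd_pull (F : Auto d X) (B : HB d X ι) (p : ℕ) :
    Module.finrank ℂ (skd (pullB F B).grading p) = Module.finrank ℂ (skd B.grading p) := by
  refine (skOnEquiv (pullC F B) (pushC F B) push_pull pull_push
    (fun u => pullS_D u) ?_ ?_).finrank_eq.symm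
  · rintro _ ⟨v, rfl⟩
    exact ⟨pullS F B v, pullS_dgc _ v⟩
  · rintro _ ⟨v, rfl⟩
    exact ⟨pushS F B v, pushS_dgc _ v⟩

theorem finrank_sk_pull (F : Auto d X) (B : HB d X ι) (σ : ℤˣ) :
    Module.finrank ℂ ((pullB F B).ell.sk σ) = Module.finrank ℂ (B.ell.sk σ) := by
  refine (skOnEquiv (pullC F B) (pushC F B) push_pull pull_push
    (fun u => pullS_D u) ?_ ?_).finrank_eq.symm
  · intro u hu
    show (pullB F B).dgc _ (pullS F B u) = _ • pullS F B u
    rw [pullS_dgc, ← map_smul]
    exact congrArg (pullS F B) hu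
  · intro u hu
    show B.dgc _ (pushS F B u) = _ • pushS F B u
    rw [pushS_dgc, ← map_smul]
    exact congrArg (pushS F B) hu

/-- **The index does not change under pull-back.** -/
theorem index_pull (F : Auto d X) (B : HB d X ι) : (pullB F B).ell.P = B.ell.P := by
  rw [Ell.P, Ell.P, finrank_sk_pull, finrank_sk_pull]

end Vale.Agent.P301.H450
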