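import Vale.Agent.P301.H450.QForm
import Vale.Agent.P272.K.QN.H327.Frame
import Vale.Agent.P272.K.QN.H527.Tools

/-!
# P301: the bilinear form `q` on closed `(1,1)`-forms, the Hodge index theorem
-/

open scoped Manifold ContDiff ComplexOrder Topology Matrix
open Vale.Agent.P272.K Vale.Agent.P272.K.C2
open Vale.Agent.P299 Vale.Agent.P299.H954 Vale.Agent.P301.H599
open Vale.Agent.P272.K.INT (IsClosedForm IsDensity intX)

set_option linter.all false

noncomputable section

namespace Vale.Agent.P301.H450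

variable {d : ℕ} {X : Type} [TopologicalSpace X] [ChartedSpace (Cm d) X]
  {w w0 w1 w2 χ s a a' b b' c : Chart d X → Cm d → Matrix (Fin d) (Fin d) ℂ} {e : Chart d X} {x : X}

/-! ### matrices -/

lemma qd_symm {A B S : Matrix (Fin d) (Fin d) ℂ} (hS : IsUnit S.det) (h : Sᵀ = -S) :
    (A * ((Sᴴ)⁻¹ * Bᵀ * S⁻¹)).trace = (B * ((Sᴴ)⁻¹ * Aᵀ * S⁻¹)).trace := by
  have h1 : (S⁻¹)ᵀ = -S⁻¹ := inv_anti hS h
  have h2 : ((Sᴴ)⁻¹)ᵀ = -(Sᴴ)⁻¹ := by
    refine inv_anti (isUnit_conjT hS) ?_
    ext i j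
    have := congrFun (congrFun h i) j
    simp only [Matrix.transpose_apply, Matrix.neg_apply] at this
    simp only [Matrix.transpose_apply, Matrix.conjTranspose_apply, Matrix.neg_apply]
    rw [this, star_neg, neg_neg]
  rw [← Matrix.trace_transpose, Matrix.transpose_mul, Matrix.transpose_mul, Matrix.transpose_mul,
    Matrix.transpose_transpose, h1, h2]
  simp only [Matrix.neg_mul, Matrix.mul_neg, neg_neg, Matrix.trace_neg]
  rw [Matrix.mul_assoc, Matrix.mul_assoc, Matrix.trace_mul_comm, Matrix.mul_assoc,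
    Matrix.mul_assoc]

/-- arithmetic-geometric inequality -/
lemma amgm {A B : Matrix (Fin d) (Fin d) ℂ} (hA : A.PosDef) (hB : B.PosDef)
    (h : B.det.re = A.det.re) : (d : ℝ) ≤ (A⁻¹ * B).trace.re ∧
      ((A⁻¹ * B).trace.re = d → A = B) := by
  obtain ⟨T, U, β, hβ, hUT, hTU, h1, h2⟩ := QN.H327.exists_frame hA hB.posSemidef
  have hT : T.det ≠ 0 := by
    intro h0
    have := congrArg Matrix.det hTU
    rw [Matrix.det_mul, h0, zero_mul, Matrix.det_one] at this
    exact zero_ne_one this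
  have hTn : 0 < ‖T.det‖ ^ 2 := by positivity
  have dA : A.det.re = ‖T.det‖ ^ 2 := by
    rw [h1, Matrix.det_mul, Matrix.det_conjTranspose, RCLike.star_def, Complex.mul_conj,
      Complex.normSq_eq_norm_sq, Complex.ofReal_re]
  have dB : B.det.re = ‖T.det‖ ^ 2 * ∏ k, β k := by
    rw [h2, Matrix.det_mul, Matrix.det_mul, Matrix.det_diagonal, Matrix.det_conjTranspose]
    have h1 : T.det * (∏ k, ((β k : ℝ) : ℂ)) * star T.det = ((‖T.det‖ ^ 2 * ∏ k, β k : ℝ) : ℂ) := by
      rw [RCLike.star_def, mul_right_comm, Complex.mul_conj, Complex.normSq_eq_norm_sq]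
      push_cast
      ring
    rw [h1, Complex.ofReal_re]
  have hprod : ∏ k, β k = 1 := by
    rw [dA, dB] at h
    exact mul_left_cancel₀ hTn.ne' (by rw [h, mul_one])
  have hβp : ∀ k, 0 < β k := fun k =>
    lt_of_le_of_ne (hβ k) fun h0 => by
      rw [Finset.prod_eq_zero (Finset.mem_univ k) h0.symm] at hprod
      exact zero_ne_one hprod
  have htr : (A⁻¹ * B).trace.re = ∑ k, β k := by
    have hAi : A⁻¹ = Uᴴ * U := by
      refine Matrix.inv_eq_right_inv ?_
      have h3 : Tᴴ * Uᴴ = 1 := by rw [← Matrix.conjTranspose_mul, hUT, Matrix.conjTranspose_one]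
      rw [h1]
      calc T * Tᴴ * (Uᴴ * U) = T * (Tᴴ * Uᴴ) * U := by simp only [Matrix.mul_assoc]
        _ = 1 := by rw [h3, Matrix.mul_one, hTU]
    have h3 : Tᴴ * Uᴴ = 1 := by rw [← Matrix.conjTranspose_mul, hUT, Matrix.conjTranspose_one]
    rw [hAi, h2, Matrix.trace_mul_comm]
    have e2 : T * Matrix.diagonal (fun k => ((β k : ℝ) : ℂ)) * Tᴴ * (Uᴴ * U) =
        T * Matrix.diagonal (fun k => ((β k : ℝ) : ℂ)) * (Tᴴ * Uᴴ) * U := by
      simp only [Matrix.mul_assoc]
    rw [e2, h3, Matrix.mul_one, Matrix.trace_mul_comm, ← Matrix.mul_assoc, hUT, Matrix.one_mul,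
      Matrix.trace_diagonal, Complex.re_sum]
    simp
  have hlog : ∑ k, Real.log (β k) = 0 := by
    rw [← Real.log_prod (fun k _ => (hβp k).ne'), hprod, Real.log_one]
  have hle : ∀ k, Real.log (β k) ≤ β k - 1 := fun k => Real.log_le_sub_one_of_pos (hβp k)
  have hsum : ∑ k, (β k - 1) = (∑ k, β k) - d := by
    rw [Finset.sum_sub_distrib]
    simp
  refine ⟨?_, fun heq => ?_⟩
  · rw [htr]
    have := Finset.sum_le_sum fun k (_ : k ∈ Finset.univ) => hle k
    rw [hlog, hsum] at this
    linarith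
  · rw [htr] at heq
    have h5 : ∑ k, (β k - 1 - Real.log (β k)) = 0 := by
      rw [Finset.sum_sub_distrib, hlog, hsum, heq]; ring
    have h6 : ∀ k, β k = 1 := by
      intro k
      by_contra hne
      have h7 := (Finset.sum_eq_zero_iff_of_nonneg fun k _ => by
        have := hle k; linarith).1 h5 k (Finset.mem_univ k)
      have h8 := Real.log_lt_sub_one_of_pos (hβp k) hne
      linarith
    have h9 : Matrix.diagonal (fun k => ((β k : ℝ) : ℂ)) = (1 : Matrix (Fin d) (Fin d) ℂ) := by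
      rw [← Matrix.diagonal_one]
      congr 1
      funext k
      rw [h6 k, Complex.ofReal_one]
    rw [h2, h9, Matrix.mul_one, h1]

variable [IsManifold 𝓘(ℂ, Cm d) ω X] [T2Space X] [CompactSpace X]

/-- the form `q(a, b) = ∫ tr (a s⁻ᴴ bᵀ s⁻¹) |det s|` -/
def q (s a b : Chart d X → Cm d → Matrix (Fin d) (Fin d) ℂ) : ℝ :=
  intX fun e z => (a e z * kf s b e z).trace.re

/-- symplectic data: a holomorphic symplectic form and one compatible Kähler metric -/
structure SData (s w : Chart d X → Cm d → Matrix (Fin d) (Fin d) ℂ) (κ : ℝ) : Prop where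
  form : IsHolTwoForm s
  nondeg : ∀ e x, At e x → (s e (e x)).det ≠ 0
  hk : IsHK s w κ

variable {κ κ1 κ2 : ℝ}

theorem SData.coForm (h : SData s w κ) (hb : IsClosedForm b) : IsCoForm (kf s b) :=
  isCoForm_kf h.form h.nondeg h.hk hb

theorem q_dens (h : SData s w κ) (ha : IsClosedForm a) (hb : IsClosedForm b) :
    IsDensity fun e z => (a e z * kf s b e z).trace.re :=
  (h.coForm hb).isDensity ha.form ha.smooth

theorem q_congr (h1 : ∀ e x, At e x → a e (e x) = a' e (e x))
    (h2 : ∀ e x, At e x → b e (e x) = b' e (e x)) : q s a b = q s a' b' := by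
  refine INT.intX_congr fun e x hx => ?_
  simp only [kf]
  rw [h1 e x hx, h2 e x hx]

theorem q_symm (h : SData s w κ) (a b : Chart d X → Cm d → Matrix (Fin d) (Fin d) ℂ) :
    q s a b = q s b a := by
  refine INT.intX_congr fun e x hx => ?_
  simp only [kf, Matrix.mul_smul, Matrix.trace_smul]
  rw [qd_symm (isUnit_iff_ne_zero.2 (h.nondeg e x hx)) (h.form.alt e x hx)]

theorem q_add_left (h : SData s w κ) (ha : IsClosedForm a) (ha' : IsClosedForm a')
    (hb : IsClosedForm b) : q s (fun e z => a e z + a' e z) b = q s a b + q s a' b := by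
  rw [q, q, q, ← INT.intX_add (q_dens h ha hb) (q_dens h ha' hb)]
  refine INT.intX_congr fun e x hx => ?_
  rw [Matrix.add_mul, Matrix.trace_add, Complex.add_re]

theorem q_smul_left (r : ℝ) : q s (fun e z => (r : ℂ) • a e z) b = r * q s a b := by
  rw [q, q, ← INT.intX_const_mul]
  refine INT.intX_congr fun e x hx => ?_
  rw [Matrix.smul_mul, Matrix.trace_smul, smul_eq_mul, Complex.re_ofReal_mul]

theorem q_add_right (h : SData s w κ) (ha : IsClosedForm a) (hb : IsClosedForm b)
    (hb' : IsClosedForm b') : q s a (fun e z => b e z + b' e z) = q s a b + q s a b' := by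
  rw [q_symm h, q_add_left h hb hb' ha, q_symm h b a, q_symm h b' a]

theorem q_smul_right (h : SData s w κ) (r : ℝ) :
    q s a (fun e z => (r : ℂ) • b e z) = r * q s a b := by
  rw [q_symm h, q_smul_left, q_symm h b a]

/-- **Stokes** -/
theorem q_hess_left (h : SData s w κ) (hb : IsClosedForm b) {u : X → ℝ}
    (hu : SmoothFn (n := d) u) : q s (ddc u) b = 0 :=
  intX_trace_cHess (h.coForm hb) hu

theorem q_hess_right (h : SData s w κ) (hb : IsClosedForm b) {u : X → ℝ}
    (hu : SmoothFn (n := d) u) : q s b (ddc u) = 0 := by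
  rw [q_symm h, q_hess_left h hb hu]

lemma isClosed_ddc {u : X → ℝ} (hu : SmoothFn (n := d) u) : IsClosedForm (ddc (d := d) u) :=
  INT.isClosedForm_cHess hu

/-- `q` is nonnegative on semipositive forms -/
theorem q_nonneg (h : SData s w κ) (ha : ∀ e x, At e x → (a e (e x)).PosSemidef)
    (hb : ∀ e x, At e x → (b e (e x)).PosSemidef) : 0 ≤ q s a b := by
  refine INT.intX_nonneg fun e x hx => ?_
  simp only [kf, Matrix.mul_smul, Matrix.trace_smul, smul_eq_mul]
  rw [Complex.re_ofReal_mul]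
  refine mul_nonneg (norm_nonneg _) ?_
  have h1 : (((s e (e x))ᴴ)⁻¹ * (b e (e x))ᵀ * (s e (e x))⁻¹).PosSemidef := by
    have := (hb e x hx).transpose.conjTranspose_mul_mul_same (s e (e x))⁻¹
    rwa [Matrix.conjTranspose_nonsing_inv] at this
  exact (Complex.le_def.1 (trace_mul_nonneg (ha e x hx) h1)).1

/-- the volume form of `s` -/
theorem dens_s (h : IsHolTwoForm s) (hs : ∀ e x, At e x → (s e (e x)).det ≠ 0) :
    IsDensity fun (e : Chart d X) z => ‖(s e z).det‖ where
  cont e x hx := (MC.det (MC_s (r := ∞) h hx)).continuousAt.norm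
  change e e' x hx hx' := by
    beta_reduce
    rw [h.change e e' x hx hx', Matrix.det_mul, Matrix.det_mul, Matrix.det_transpose, norm_mul,
      norm_mul]
    ring

/-- `∫ tr_w (a) |det s|` -/
def trI (s w a : Chart d X → Cm d → Matrix (Fin d) (Fin d) ℂ) : ℝ :=
  intX fun e z => ((w e z)⁻¹ * a e z).trace.re * ‖(s e z).det‖

theorem q_hk (h : SData s w κ) (a : Chart d X → Cm d → Matrix (Fin d) (Fin d) ℂ) :
    q s a w = κ * trI s w a := by
  rw [q, trI, ← INT.intX_const_mul]
  refine INT.intX_congr fun e x hx => ?_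
  have h1 := inv_rel (isUnit_iff_ne_zero.2 (h.hk.kahler.posDef e x hx).det_pos.ne')
    (isUnit_iff_ne_zero.2 (h.nondeg e x hx)) (h.hk.rel e x hx)
  simp only [kf]
  rw [h1, Matrix.mul_smul, Matrix.mul_smul, Matrix.trace_smul, Matrix.trace_smul, smul_eq_mul,
    smul_eq_mul, Matrix.trace_mul_comm, Complex.re_ofReal_mul, Complex.re_ofReal_mul]
  ring

/-- the total volume `∫ |det s|` -/
def vol (s : Chart d X → Cm d → Matrix (Fin d) (Fin d) ℂ) : ℝ :=
  intX fun e z => ‖(s e z).det‖

theorem vol_pos [Nonempty X] (h : SData s w κ) : 0 < vol s :=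
  INT.intX_pos (dens_s h.form h.nondeg) fun e x hx => norm_pos_iff.2 (h.nondeg e x hx)

theorem q_self (h : SData s w κ) : q s w w = κ * (d * vol s) := by
  rw [q_hk h]
  congr 1
  rw [trI, vol, ← INT.intX_const_mul]
  refine INT.intX_congr fun e x hx => ?_
  rw [Matrix.nonsing_inv_mul _ (isUnit_iff_ne_zero.2 (h.hk.kahler.posDef e x hx).det_pos.ne'),
    Matrix.trace_one, Fintype.card_fin, Complex.natCast_re]

theorem dens_trI (h : SData s w κ) (hw1 : IsHermitian w1) (ha : IsClosedForm a) :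
    IsDensity fun e z => ((w1 e z)⁻¹ * a e z).trace.re * ‖(s e z).det‖ := by
  refine ⟨fun e x hx => ?_, fun e e' x hx hx' => ?_⟩
  · refine ContinuousAt.mul ?_ ((dens_s h.form h.nondeg).cont e x hx)
    refine Complex.continuous_re.continuousAt.comp ?_
    have h1 : MC ∞ (fun z => (w1 e z)⁻¹) (e x) :=
      MC.inv (hw1.smooth e x hx) (hw1.posDef e x hx).det_pos.ne'
    exact (MC.trace (h1.mul (ha.smooth e x hx))).continuousAt
  · beta_reduce
    have h1 := (dens_s h.form h.nondeg).change e e' x hx hx'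
    have h2 : ((w1 e (e x))⁻¹ * a e (e x)).trace.re = ((w1 e' (e' x))⁻¹ * a e' (e' x)).trace.re := by
      exact AMP.trE_eq hw1 ha.form hx hx'
    beta_reduce at h1
    rw [h1, h2]
    ring

/-- **reverse Cauchy-Schwarz inequality** for two compatible metrics -/
theorem hk_pair [Nonempty X] (h1 : SData s w1 κ1) (h2 : SData s w2 κ2) :
    d * vol s * Real.sqrt (κ1 * κ2) ≤ q s w1 w2 ∧
      (κ1 = κ2 → q s w1 w2 = κ2 * (d * vol s) → ∀ e x, At e x → w2 e (e x) = w1 e (e x)) := by
  have k1 := h1.hk.pos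
  have k2 := h2.hk.pos
  set t : ℝ := Real.sqrt (κ2 / κ1) with ht
  have htp : 0 < t := Real.sqrt_pos.2 (div_pos k2 k1)
  have ht2 : t ^ 2 = κ2 / κ1 := Real.sq_sqrt (div_pos k2 k1).le
  have hpt : ∀ e x, At e x → (d : ℝ) ≤ ((w2 e (e x))⁻¹ * ((t : ℂ) • w1 e (e x))).trace.re ∧
      (((w2 e (e x))⁻¹ * ((t : ℂ) • w1 e (e x))).trace.re = d → w2 e (e x) = (t : ℂ) • w1 e (e x)) := by
    intro e x hx
    have p1 : ((t : ℂ) • w1 e (e x)).PosDef := (h1.hk.kahler.posDef e x hx).smul
      (by exact_mod_cast htp)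
    refine amgm (h2.hk.kahler.posDef e x hx) p1 ?_
    have u := isUnit_iff_ne_zero.2 (h1.nondeg e x hx)
    have r1 := det_rel (h1.hk.kahler.posDef e x hx) u (h1.hk.rel e x hx)
    have r2 := det_rel (h2.hk.kahler.posDef e x hx) u (h2.hk.rel e x hx)
    have q1 := h1.hk.kahler.toIsHermitian.det_re_pos hx
    have q2 := h2.hk.kahler.toIsHermitian.det_re_pos hx
    have e1 : ((t : ℂ) • w1 e (e x)).det.re = t ^ d * (w1 e (e x)).det.re := by
      rw [Matrix.det_smul, Fintype.card_fin, ← Complex.ofReal_pow, Complex.re_ofReal_mul]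
    have e2 : (((t : ℂ) • w1 e (e x)).det.re) ^ 2 = ((w2 e (e x)).det.re) ^ 2 := by
      rw [e1, r2, mul_pow, r1, ← pow_mul, mul_comm d 2, pow_mul, ht2, div_pow]
      have : κ1 ^ d ≠ 0 := (pow_pos k1 d).ne'
      field_simp
    have e3 : 0 < ((t : ℂ) • w1 e (e x)).det.re := by
      rw [e1]; positivity
    exact (pow_left_inj₀ e3.le q2.le two_ne_zero).1 e2
  have c1 := INT.IsKahler.isClosedForm h1.hk.kahler
  have hD1 := dens_trI h1 h2.hk.kahler.toIsHermitian c1
  have hDs := dens_s h1.form h1.nondeg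
  have hq : q s w1 w2 = κ2 * trI s w2 w1 := q_hk h2 w1
  have htrt : ∀ e x, At e x → ((w2 e (e x))⁻¹ * ((t : ℂ) • w1 e (e x))).trace.re =
      t * ((w2 e (e x))⁻¹ * w1 e (e x)).trace.re := by
    intro e x hx
    rw [Matrix.mul_smul, Matrix.trace_smul, smul_eq_mul, Complex.re_ofReal_mul]
  have hmono : d * vol s ≤ t * trI s w2 w1 := by
    rw [vol, trI, ← INT.intX_const_mul, ← INT.intX_const_mul]
    refine INT.intX_mono (hDs.const_mul _) (hD1.const_mul _) fun e x hx => ?_
    have h3 := (hpt e x hx).1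
    rw [htrt e x hx] at h3
    have h4 := mul_le_mul_of_nonneg_right h3 (norm_nonneg (s e (e x)).det)
    linarith
  refine ⟨?_, fun hκ hq2 e x hx => ?_⟩
  · rw [hq]
    have e1 : Real.sqrt (κ1 * κ2) = κ2 / t := by
      rw [eq_div_iff htp.ne', ht, ← Real.sqrt_mul (by positivity)]
      have : κ1 * κ2 * (κ2 / κ1) = κ2 ^ 2 := by field_simp
      rw [this, Real.sqrt_sq k2.le]
    rw [e1, mul_div_assoc', div_le_iff₀ htp]
    nlinarith
  · have t1 : t = 1 := by
      rw [ht, hκ, div_self k2.ne', Real.sqrt_one]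
    have htr : trI s w2 w1 = d * vol s := by
      rw [hq] at hq2
      exact mul_left_cancel₀ k2.ne' hq2
    -- the nonnegative density of integral zero
    have hD : IsDensity fun (e : Chart d X) z => (((w2 e z)⁻¹ * w1 e z).trace.re * ‖(s e z).det‖ -
        d * ‖(s e z).det‖) := hD1.sub (hDs.const_mul _)
    have hI : intX (fun (e : Chart d X) z => (((w2 e z)⁻¹ * w1 e z).trace.re * ‖(s e z).det‖ -
        d * ‖(s e z).det‖)) = 0 := by
      rw [INT.intX_sub hD1 (hDs.const_mul _), INT.intX_const_mul]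
      show trI s w2 w1 - d * vol s = 0
      rw [htr, sub_self]
    have hnn : ∀ e x, At e x → 0 ≤ ((w2 e (e x))⁻¹ * w1 e (e x)).trace.re * ‖(s e (e x)).det‖ -
        d * ‖(s e (e x)).det‖ := by
      intro e x hx
      have h3 := (hpt e x hx).1
      rw [htrt e x hx, t1, one_mul] at h3
      have h4 := mul_le_mul_of_nonneg_right h3 (norm_nonneg (s e (e x)).det)
      linarith
    have hz : ((w2 e (e x))⁻¹ * w1 e (e x)).trace.re * ‖(s e (e x)).det‖ -
        d * ‖(s e (e x)).det‖ = 0 := by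
      by_contra hne
      have hpos := lt_of_le_of_ne (hnn e x hx) (Ne.symm hne)
      have hall : ∀ e', At e' x → 0 < ((w2 e' (e' x))⁻¹ * w1 e' (e' x)).trace.re *
          ‖(s e' (e' x)).det‖ - d * ‖(s e' (e' x)).det‖ := by
        intro e' hx'
        have hch := hD.change e e' x hx hx'
        beta_reduce at hch
        rw [hch] at hpos
        exact pos_of_mul_pos_left hpos (by positivity)
      have := H954.intX_pos_of_pos hD hnn hall
      rw [hI] at this
      exact lt_irrefl _ this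
    have hs0 : ‖(s e (e x)).det‖ ≠ 0 := norm_ne_zero_iff.2 (h1.nondeg e x hx)
    have h5 : ((w2 e (e x))⁻¹ * w1 e (e x)).trace.re = d := by
      rw [← sub_mul] at hz
      rcases mul_eq_zero.1 hz with h | h
      · linarith
      · exact absurd h hs0
    have h6 := (hpt e x hx).2 (by rw [htrt e x hx, t1, one_mul, h5])
    rw [h6, t1, Complex.ofReal_one, one_smul]

end Vale.Agent.P301.H450
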