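import Vale.Agent.P272.K.INT.Global

/-!
# P301: `∫ tr (i∂∂̄u · E) = 0` for a closed form `E` of bidegree `(d-1,d-1)`
-/

open scoped Manifold ContDiff ComplexOrder Topology Matrix ComplexConjugate
open MeasureTheory Set Filter
open Vale.Agent.P272.K Vale.Agent.P272.K.INT

set_option linter.all false

noncomputable section

namespace Vale.Agent.P301.H450

section loc

variable {d : ℕ} {U : Set (Cm d)} {E : Cm d → Matrix (Fin d) (Fin d) ℂ} {u : Cm d → ℝ}

/-- local version, for compactly supported `u` -/
theorem local_div (hU : IsOpen U) (hE : ∀ z ∈ U, ∀ i j, ContDiffAt ℝ ∞ (fun y => E y i j) z)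
    (hdiv : ∀ z ∈ U, ∀ j, ∑ i, dz i (fun y => E y j i) z = 0)
    (hu : ContDiff ℝ ∞ u) (hc : HasCompactSupport u) (hs : tsupport u ⊆ U) :
    ∫ z in U, (cHess u z * E z).trace.re = 0 := by
  set F : Fin d → Fin d → Cm d → ℂ := fun i j z => dzb j (fun y => (u y : ℂ)) z * E z j i with hF
  have hF0 : ∀ i j z, z ∉ tsupport u → F i j z = 0 := by
    intro i j z hz
    simp only [hF]
    rw [dzb_zero_of_notMem hz, zero_mul]
  have hFs : ∀ i j, HasCompactSupport (F i j) := fun i j =>
    HasCompactSupport.intro hc (fun z hz => hF0 i j z hz)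
  have hFt : ∀ i j z, z ∉ tsupport u → F i j =ᶠ[𝓝 z] fun _ => 0 := by
    intro i j z hz
    filter_upwards [(isClosed_tsupport u).isOpen_compl.mem_nhds hz] with y hy
    exact hF0 i j y hy
  have hFc : ∀ i j, ContDiff ℝ 1 (F i j) := by
    intro i j
    rw [contDiff_iff_contDiffAt]
    intro z
    by_cases hz : z ∈ tsupport u
    · exact ((smooth_dzb (INT.ofReal_contDiffAt hu.contDiffAt)).mul (hE z (hs hz) j i)).of_le
        (by exact_mod_cast le_top)
    · exact contDiffAt_const.congr_of_eventuallyEq (hFt i j z hz)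
  have key : ∀ z ∈ U, (cHess u z * E z).trace = ∑ i, ∑ j, dz i (F i j) z := by
    intro z hz
    have h1 : ∀ i j, dz i (F i j) z = cHess u z i j * E z j i +
        dzb j (fun y => (u y : ℂ)) z * dz i (fun y => E y j i) z := by
      intro i j
      have := INT.dz_mul (i := i) (F := fun z => dzb j (fun y => (u y : ℂ)) z)
        (G := fun z => E z j i) (z := z)
        ((smooth_dzb (INT.ofReal_contDiffAt hu.contDiffAt)).differentiableAt (by simp))
        ((hE z hz j i).differentiableAt (by simp))
      rw [show dz i (F i j) z = _ from this]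
      rfl
    simp only [h1, Finset.sum_add_distrib]
    have h2 : ∑ i, ∑ j, dzb j (fun y => (u y : ℂ)) z * dz i (fun y => E y j i) z = 0 := by
      rw [Finset.sum_comm]
      refine Finset.sum_eq_zero fun j _ => ?_
      rw [← Finset.mul_sum, hdiv z hz j, mul_zero]
    rw [h2, add_zero]
    rfl
  have hcomp : ∀ z, z ∉ U → ∑ i, ∑ j, dz i (F i j) z = 0 := by
    intro z hz
    refine Finset.sum_eq_zero fun i _ => Finset.sum_eq_zero fun j _ => ?_
    rw [INT.dz_congr (hFt i j z (fun h => hz (hs h)))]; simp
  have hint : ∀ i j, Integrable (fun z => dz i (F i j) z) := by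
    intro i j
    have h1 : Continuous (dz i (F i j)) := by
      rw [INT.dz_fun_eq]
      have := (hFc i j).continuous_fderiv (by norm_num)
      exact continuous_const.mul ((this.clm_apply continuous_const).sub
        (continuous_const.mul (this.clm_apply continuous_const)))
    refine h1.integrable_of_hasCompactSupport (HasCompactSupport.intro hc fun z hz => ?_)
    rw [INT.dz_congr (hFt i j z hz)]; simp
  have hint' : ∀ i, Integrable (fun z => ∑ j, dz i (F i j) z) := fun i =>
    integrable_finsetSum _ fun j _ => hint i j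
  have e1 : ∫ z in U, (cHess u z * E z).trace.re = ∫ z in U, (∑ i, ∑ j, dz i (F i j) z).re :=
    setIntegral_congr_fun hU.measurableSet fun z hz => by simp only [key z hz]
  have e2 : ∫ z in U, (∑ i, ∑ j, dz i (F i j) z).re = ∫ z, (∑ i, ∑ j, dz i (F i j) z).re := by
    apply setIntegral_eq_integral_of_forall_compl_eq_zero
    intro z hz; rw [hcomp z hz, Complex.zero_re]
  have e3 : ∫ z, (∑ i, ∑ j, dz i (F i j) z).re = (∫ z, ∑ i, ∑ j, dz i (F i j) z).re :=
    Complex.reCLM.integral_comp_comm (integrable_finsetSum _ fun i _ => hint' i)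
  rw [e1, e2, e3, integral_finsetSum _ fun i _ => hint' i]
  simp only [fun i => integral_finsetSum _ fun j (_ : j ∈ Finset.univ) => hint i j]
  simp [fun i j => integral_dz_eq_zero (hFc i j) (hFs i j) i]

end loc

section glob

variable {d : ℕ} {X : Type*} [TopologicalSpace X] [ChartedSpace (Cm d) X]

/-- `E` is a smooth closed form of bidegree `(d-1,d-1)` -/
structure IsCoForm (E : Chart d X → Cm d → Matrix (Fin d) (Fin d) ℂ) : Prop where
  smooth : ∀ e x, At e x → ∀ i j, ContDiffAt ℝ ∞ (fun z => E e z i j) (e x)
  change : ∀ e e' x, At e x → At e' x → (jacM e e' x).map (starRingEnd ℂ) * E e (e x) *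
    (jacM e e' x)ᵀ = ((‖(jacM e e' x).det‖ ^ 2 : ℝ) : ℂ) • E e' (e' x)
  div : ∀ e x, At e x → ∀ j, ∑ i, dz i (fun y => E e y j i) (e x) = 0

variable {E : Chart d X → Cm d → Matrix (Fin d) (Fin d) ℂ}
  {a : Chart d X → Cm d → Matrix (Fin d) (Fin d) ℂ}

theorem IsCoForm.trace_change (hE : IsCoForm E) (ha : IsForm a) {e e' : Chart d X} {x : X}
    (hx : At e x) (hx' : At e' x) : (a e (e x) * E e (e x)).trace.re =
      (a e' (e' x) * E e' (e' x)).trace.re * ‖(jacM e e' x).det‖ ^ 2 := by
  rw [ha e e' x hx hx']
  set J := jacM e e' x with hJ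
  have h1 : (Jᵀ * a e' (e' x) * J.map (starRingEnd ℂ) * E e (e x)).trace =
      (a e' (e' x) * (J.map (starRingEnd ℂ) * E e (e x) * Jᵀ)).trace := by
    rw [Matrix.mul_assoc, Matrix.mul_assoc, Matrix.trace_mul_comm, Matrix.mul_assoc]
  have h2 := hE.change e e' x hx hx'
  rw [← hJ] at h2
  rw [h1, h2, Matrix.mul_smul, Matrix.trace_smul, smul_eq_mul, Complex.re_ofReal_mul, mul_comm]

variable [IsManifold 𝓘(ℂ, Cm d) ω X]

theorem IsCoForm.isDensity (hE : IsCoForm E) (ha : IsForm a)
    (hs : ∀ e x, At e x → ∀ i j, ContDiffAt ℝ ∞ (fun z => a e z i j) (e x)) :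
    IsDensity fun e z => (a e z * E e z).trace.re where
  cont e x h := by
    refine Complex.continuous_re.continuousAt.comp ?_
    simp only [Matrix.trace, Matrix.diag_apply, Matrix.mul_apply]
    refine tendsto_finset_sum _ fun i _ => tendsto_finset_sum _ fun j _ => ?_
    exact (hs e x h i j).continuousAt.mul (hE.smooth e x h j i).continuousAt
  change e e' x h h' := hE.trace_change ha h h'

variable [T2Space X] [CompactSpace X]

theorem intX_trace_piece (hE : IsCoForm E) {v : X → ℝ} (hv : SmoothFn (n := d) v) {e : Chart d X}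
    (he : e ∈ atlas (Cm d) X) (hs : tsupport v ⊆ e.source) :
    intX (fun e z => (cHess (fun y => v (e.symm y)) z * E e z).trace.re) = 0 := by
  have hd : ∀ (e' : Chart d X) x, At e' x → x ∉ tsupport v →
      cHess (fun y => v (e'.symm y)) (e' x) = 0 := by
    intro e' x hx hxv
    apply cHess_zero_of_notMem
    rw [notMem_tsupport_iff_eventuallyEq]
    have h1 : ∀ᶠ y in 𝓝 (e' x), e'.symm y ∈ (tsupport v)ᶜ := by
      apply (e'.continuousAt_symm (e'.map_source hx.2)).eventually_mem
      rw [e'.left_inv hx.2]
      exact (isClosed_tsupport v).isOpen_compl.mem_nhds hxv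
    filter_upwards [h1] with y hy
    exact image_eq_zero_of_notMem_tsupport hy
  have hcl := isClosedForm_cHess hv
  have hD := hE.isDensity hcl.form hcl.smooth
  rw [intX_of_support hD he (isClosed_tsupport v) hs (fun e' x hx hxv => by
      simp only [hd e' x hx hxv, Matrix.zero_mul, Matrix.trace_zero, Complex.zero_re])]
  set u : Cm d → ℝ := e.target.indicator (fun z => v (e.symm z)) with hu
  set K : Set (Cm d) := e '' tsupport v with hK
  have hKc : IsCompact K :=
    (isClosed_tsupport v).isCompact.image_of_continuousOn (e.continuousOn.mono hs)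
  have hKt : K ⊆ e.target := by
    rintro _ ⟨x, hx, rfl⟩; exact e.map_source (hs hx)
  have hsupp : Function.support u ⊆ K := by
    intro z hz
    simp only [hu, Function.mem_support] at hz
    have hzt : z ∈ e.target := by
      by_contra h; exact hz (indicator_of_notMem h _)
    rw [indicator_of_mem hzt] at hz
    exact ⟨e.symm z, subset_tsupport _ hz, e.right_inv hzt⟩
  have hts : tsupport u ⊆ K := closure_minimal hsupp hKc.isClosed
  have hucs : HasCompactSupport u := hKc.of_isClosed_subset (isClosed_tsupport u) hts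
  have hue : ∀ z ∈ e.target, u =ᶠ[𝓝 z] fun z => v (e.symm z) := by
    intro z hz
    filter_upwards [e.open_target.mem_nhds hz] with y hy
    rw [hu, indicator_of_mem hy]
  have hus : ContDiff ℝ ∞ u := by
    rw [contDiff_iff_contDiffAt]
    intro z
    by_cases hz : z ∈ e.target
    · have := hv e (e.symm z) ⟨he, e.map_target hz⟩
      rw [e.right_inv hz] at this
      exact this.congr_of_eventuallyEq (hue z hz)
    · exact contDiffAt_const.congr_of_eventuallyEq
        (notMem_tsupport_iff_eventuallyEq.1 fun h => hz (hKt (hts h)))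
  have hsm : ∀ z ∈ e.target, ∀ i j, ContDiffAt ℝ ∞ (fun y => E e y i j) z := by
    intro z hz i j
    have := hE.smooth e (e.symm z) ⟨he, e.map_target hz⟩ i j
    rwa [e.right_inv hz] at this
  have hdv : ∀ z ∈ e.target, ∀ j, ∑ i, dz i (fun y => E e y j i) z = 0 := by
    intro z hz j
    have := hE.div e (e.symm z) ⟨he, e.map_target hz⟩ j
    rwa [e.right_inv hz] at this
  have := local_div e.open_target hsm hdv hus hucs (hts.trans hKt)
  rw [← this]
  refine setIntegral_congr_fun e.open_target.measurableSet fun z hz => ?_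
  rw [cHess_congr (hue z hz)]

/-- **Stokes**: `∫ tr (i∂∂̄u · E) = 0` -/
theorem intX_trace_cHess (hE : IsCoForm E) {u : X → ℝ} (hu : SmoothFn (n := d) u) :
    intX (fun e z => (cHess (fun y => u (e.symm y)) z * E e z).trace.re) = 0 := by
  classical
  set P := part d X with hP
  have hp : ∀ i, SmoothFn (n := d) (fun x => P.ρ i x * u x) := fun i =>
    SmoothFn.mul (P.smooth i) hu
  set S : Finset (Fin P.N) → X → ℝ := fun s x => ∑ i ∈ s, P.ρ i x * u x with hS
  have hSs : ∀ s, SmoothFn (n := d) (S s) := fun s => SmoothFn.sum s fun i _ => hp i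
  have key : ∀ s : Finset (Fin P.N),
      intX (fun e z => (cHess (fun y => S s (e.symm y)) z * E e z).trace.re) = 0 := by
    intro s
    induction s using Finset.induction_on with
    | empty =>
      rw [← intX_zero (n := d) (X := X)]
      refine intX_congr fun e x hx => ?_
      have : cHess (fun y => S ∅ (e.symm y)) (e x) = 0 := by
        apply cHess_zero_of_notMem
        rw [notMem_tsupport_iff_eventuallyEq]
        exact Eventually.of_forall fun y => by simp [hS]
      rw [this, Matrix.zero_mul, Matrix.trace_zero, Complex.zero_re]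
    | insert a s ha ih =>
      have hstep := intX_trace_piece hE (hp a) (P.mem a)
        (tsupport_mul_subset_left'.trans (P.supp a))
      have c1 := isClosedForm_cHess (hp a)
      have c2 := isClosedForm_cHess (hSs s)
      have := intX_add (hE.isDensity c1.form c1.smooth) (hE.isDensity c2.form c2.smooth)
      rw [hstep, ih, add_zero] at this
      rw [← this]
      refine intX_congr fun e x hx => ?_
      have h1 : ContDiffAt ℝ 2 (fun y => P.ρ a (e.symm y) * u (e.symm y)) (e x) :=
        SmoothFn.two (hp a) e x hx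
      have h2 : ContDiffAt ℝ 2 (fun y => S s (e.symm y)) (e x) := SmoothFn.two (hSs s) e x hx
      have h3 : (fun y => S (insert a s) (e.symm y)) = fun y =>
          P.ρ a (e.symm y) * u (e.symm y) + S s (e.symm y) := by
        funext y; simp only [hS]; rw [Finset.sum_insert ha]
      rw [h3, cHess_add h1 h2, Matrix.add_mul, Matrix.trace_add, Complex.add_re]
  rw [← key Finset.univ]
  refine intX_congr fun e x hx => ?_
  have h3 : (fun y => S Finset.univ (e.symm y)) = fun y => u (e.symm y) := by
    funext y; simp only [hS]; rw [← Finset.sum_mul, P.sum, one_mul]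
  rw [h3]

end glob

end Vale.Agent.P301.H450
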