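import Vale.Agent.P301.H450.HKC
import Vale.Agent.P301.H450.Stokes

/-!
# P301: the quadratic form `q(a,b) = ∫ tr (a s⁻ᴴ bᵀ s⁻¹) |det s|` on closed `(1,1)`-forms
-/

open scoped Manifold ContDiff ComplexOrder Topology Matrix
open Vale.Agent.P272.K Vale.Agent.P272.K.C2 Vale.Agent.P272.K.AMP
open Vale.Agent.P299 Vale.Agent.P299.H954 Vale.Agent.P301.H599
open Vale.Agent.P272.K.INT (IsClosedForm IsDensity intX)

set_option linter.all false

noncomputable section

namespace Vale.Agent.P301.H450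

variable {d : ℕ} {X : Type} [TopologicalSpace X] [ChartedSpace (Cm d) X]
  {w w0 χ s a b c : Chart d X → Cm d → Matrix (Fin d) (Fin d) ℂ} {e : Chart d X} {x : X}

/-- the dual form `s⁻ᴴ bᵀ s⁻¹ |det s|` -/
def kf (s b : Chart d X → Cm d → Matrix (Fin d) (Fin d) ℂ) :
    Chart d X → Cm d → Matrix (Fin d) (Fin d) ℂ :=
  fun e z => ((‖(s e z).det‖ : ℝ) : ℂ) • (((s e z)ᴴ)⁻¹ * (b e z)ᵀ * (s e z)⁻¹)

lemma sum_sym_anti {f : Fin d → Fin d → ℂ} {T : Matrix (Fin d) (Fin d) ℂ}
    (hf : ∀ i a, f i a = f a i) (hT : Tᵀ = -T) : ∑ i, ∑ a, f i a * T a i = 0 := by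
  have h1 : ∑ i, ∑ a, f i a * T a i = ∑ i, ∑ a, f i a * T i a := by
    rw [Finset.sum_comm]
    refine Finset.sum_congr rfl fun i _ => Finset.sum_congr rfl fun a _ => ?_
    rw [hf]
  have h2 : ∑ i, ∑ a, f i a * T i a = -∑ i, ∑ a, f i a * T a i := by
    rw [← Finset.sum_neg_distrib]
    refine Finset.sum_congr rfl fun i _ => ?_
    rw [← Finset.sum_neg_distrib]
    refine Finset.sum_congr rfl fun a _ => ?_
    have : T i a = -T a i := by
      have := congrFun (congrFun hT a) i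
      simpa using this
    rw [this]; ring
  rw [h2] at h1
  exact self_eq_neg.1 h1

lemma inv_anti {S : Matrix (Fin d) (Fin d) ℂ} (hS : IsUnit S.det) (h : Sᵀ = -S) :
    (S⁻¹)ᵀ = -S⁻¹ := by
  rw [Matrix.transpose_nonsing_inv, h]
  refine Matrix.inv_eq_right_inv ?_
  rw [neg_mul_neg, Matrix.mul_nonsing_inv _ hS]

lemma DM_smul' {k : Fin d} {c : Cm d → ℂ} {M : Cm d → Matrix (Fin d) (Fin d) ℂ} {z : Cm d}
    (hc : DifferentiableAt ℝ c z) (hM : MD M z) :
    DM k (fun y => c y • M y) z = dz k c z • M z + c z • DM k M z := by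
  ext i j
  exact C2.dz_mul k hc (hM i j)

/-- pointwise computation behind Stokes -/
lemma div_algebra {W S Si A Bt : Matrix (Fin d) (Fin d) ℂ} {G : Fin d → Matrix (Fin d) (Fin d) ℂ}
    {B' : Fin d → Matrix (Fin d) (Fin d) ℂ} {c : ℂ} (hSi : Siᵀ = -Si)
    (hG : ∀ i a b, G i a b = G a i b) (hB : ∀ i l k, B' i l k = B' l i k) (j : Fin d) :
    ∑ i, (((c * (G i).trace) • (A * Bt * Si) +
      c • (A * (B' i)ᵀ * Si - A * Bt * Si * G i - A * Bt * (G i)ᵀ * Si)) j i) = 0 := by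
  have e1 : ∑ i, (A * (B' i)ᵀ * Si) j i = 0 := by
    have : ∀ i, (A * (B' i)ᵀ * Si) j i = ∑ l, (∑ k, A j k * B' i l k) * Si l i := by
      intro i
      rw [Matrix.mul_apply]
      refine Finset.sum_congr rfl fun l _ => ?_
      rw [Matrix.mul_apply]
      rfl
    simp only [this]
    exact sum_sym_anti (f := fun i l => ∑ k, A j k * B' i l k)
      (fun i l => Finset.sum_congr rfl fun k _ => by rw [hB]) hSi
  have e2 : ∑ i, (A * Bt * (G i)ᵀ * Si) j i = 0 := by
    have : ∀ i, (A * Bt * (G i)ᵀ * Si) j i = ∑ l, (∑ k, (A * Bt) j k * G i l k) * Si l i := by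
      intro i
      rw [Matrix.mul_apply]
      refine Finset.sum_congr rfl fun l _ => ?_
      rw [Matrix.mul_apply]
      rfl
    simp only [this]
    exact sum_sym_anti (f := fun i l => ∑ k, (A * Bt) j k * G i l k)
      (fun i l => Finset.sum_congr rfl fun k _ => by rw [hG]) hSi
  have e3 : ∑ i, (A * Bt * Si * G i) j i = ∑ i, (G i).trace * (A * Bt * Si) j i := by
    have : ∀ i, (A * Bt * Si * G i) j i = ∑ l, (A * Bt * Si) j l * G l i i := by
      intro i
      rw [Matrix.mul_apply]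
      refine Finset.sum_congr rfl fun l _ => ?_
      rw [hG]
    simp only [this]
    rw [Finset.sum_comm]
    refine Finset.sum_congr rfl fun l _ => ?_
    rw [← Finset.mul_sum, mul_comm]
    rfl
  have e4 : ∀ i, (((c * (G i).trace) • (A * Bt * Si) +
      c • (A * (B' i)ᵀ * Si - A * Bt * Si * G i - A * Bt * (G i)ᵀ * Si)) j i) =
      c * ((G i).trace * (A * Bt * Si) j i) + c * (A * (B' i)ᵀ * Si) j i -
      c * (A * Bt * Si * G i) j i - c * (A * Bt * (G i)ᵀ * Si) j i := by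
    intro i
    simp only [Matrix.add_apply, Matrix.smul_apply, Matrix.sub_apply, smul_eq_mul]
    ring
  simp only [e4, Finset.sum_sub_distrib, Finset.sum_add_distrib, ← Finset.mul_sum]
  rw [e1, e2, e3]
  ring

variable [IsManifold 𝓘(ℂ, Cm d) ω X] [T2Space X] [CompactSpace X]

lemma norm_det_s {κ : ℝ} (hs : ∀ e x, At e x → (s e (e x)).det ≠ 0) (hw : IsHK s w κ)
    (hx : At e x) : ‖(s e (e x)).det‖ = (Real.sqrt (κ ^ d))⁻¹ * (w e (e x)).det.re := by
  have h1 := det_rel (hw.kahler.posDef e x hx) (isUnit_iff_ne_zero.2 (hs e x hx)) (hw.rel e x hx)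
  have h2 : 0 < κ ^ d := pow_pos hw.pos d
  have h3 : 0 < (w e (e x)).det.re := hw.kahler.toIsHermitian.det_re_pos hx
  have h4 : (w e (e x)).det.re = Real.sqrt (κ ^ d) * ‖(s e (e x)).det‖ := by
    rw [← Real.sqrt_sq h3.le, h1, Real.sqrt_mul h2.le, Real.sqrt_sq (norm_nonneg _)]
  rw [h4, ← mul_assoc, inv_mul_cancel₀ (Real.sqrt_pos.2 h2).ne', one_mul]

theorem isCoForm_kf {κ : ℝ} (h : IsHolTwoForm s) (hs : ∀ e x, At e x → (s e (e x)).det ≠ 0)
    (hw : IsHK s w κ) (hb : IsClosedForm b) : IsCoForm (kf s b) where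
  smooth e x hx i j := by
    have hS : MC ∞ (s e) (e x) := MC_s h hx
    have hB : MC ∞ (b e) (e x) := hb.smooth e x hx
    have h1 : MC ∞ (fun z => ((s e z)ᴴ)⁻¹ * (b e z)ᵀ * (s e z)⁻¹) (e x) := by
      refine MC.mul (MC.mul (MC.inv hS.conjTranspose ?_) (MC_transpose hB)) (hS.inv (hs e x hx))
      rw [Matrix.det_conjTranspose]
      exact star_ne_zero.2 (hs e x hx)
    have h2 : ContDiffAt ℝ ∞ (fun z => ((‖(s e z).det‖ : ℝ) : ℂ)) (e x) :=
      Vale.Agent.P272.K.ofReal_contDiffAt ((MC.det hS).norm ℝ (hs e x hx))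
    exact h2.mul (h1 i j)
  change e e' x hx hx' := by
    have hJ : IsUnit (jacM e e' x).det := jacM_isUnit hx hx'
    have hb1 := hb.form e e' x hx hx'
    have hs1 := h.change e e' x hx hx'
    set J := jacM e e' x with hJd
    have hJb : IsUnit (J.map (starRingEnd ℂ)).det := by
      have : (J.map (starRingEnd ℂ)).det = (starRingEnd ℂ) J.det :=
        (RingHom.map_det (starRingEnd ℂ) J).symm
      rw [this]
      exact hJ.map _
    have hJh : IsUnit Jᴴ.det := isUnit_conjT hJ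
    have hJt : IsUnit Jᵀ.det := by rwa [Matrix.det_transpose]
    have e1 : (Jᵀ * s e' (e' x) * J)ᴴ = Jᴴ * (s e' (e' x))ᴴ * J.map (starRingEnd ℂ) := by
      rw [Matrix.conjTranspose_mul, Matrix.conjTranspose_mul, ← Matrix.mul_assoc]
      rfl
    have e2 : (Jᵀ * b e' (e' x) * J.map (starRingEnd ℂ))ᵀ = Jᴴ * (b e' (e' x))ᵀ * J := by
      rw [Matrix.transpose_mul, Matrix.transpose_mul, Matrix.transpose_transpose, ← Matrix.mul_assoc]
      rfl
    unfold kf
    rw [hb1, hs1, e1, e2, Matrix.mul_inv_rev, Matrix.mul_inv_rev, Matrix.mul_inv_rev,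
      Matrix.mul_inv_rev, Matrix.mul_smul, Matrix.smul_mul]
    have e3 : J.map (starRingEnd ℂ) * ((J.map (starRingEnd ℂ))⁻¹ * (((s e' (e' x))ᴴ)⁻¹ * Jᴴ⁻¹) *
        (Jᴴ * (b e' (e' x))ᵀ * J) * (J⁻¹ * ((s e' (e' x))⁻¹ * Jᵀ⁻¹))) * Jᵀ =
        ((s e' (e' x))ᴴ)⁻¹ * (b e' (e' x))ᵀ * (s e' (e' x))⁻¹ := by
      calc _ = (J.map (starRingEnd ℂ) * (J.map (starRingEnd ℂ))⁻¹) * ((s e' (e' x))ᴴ)⁻¹ *
            (Jᴴ⁻¹ * Jᴴ) * (b e' (e' x))ᵀ * (J * J⁻¹) * (s e' (e' x))⁻¹ * (Jᵀ⁻¹ * Jᵀ) := by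
            simp only [Matrix.mul_assoc]
        _ = _ := by
            rw [Matrix.mul_nonsing_inv _ hJb, Matrix.nonsing_inv_mul _ hJh,
              Matrix.mul_nonsing_inv _ hJ, Matrix.nonsing_inv_mul _ hJt]
            simp only [Matrix.mul_one, Matrix.one_mul]
    rw [e3, smul_smul, Matrix.det_mul, Matrix.det_mul, Matrix.det_transpose, norm_mul, norm_mul]
    congr 1
    rw [← Complex.ofReal_mul]
    congr 1
    ring
  div e x hx j := by
    set r : ℝ := (Real.sqrt (κ ^ d))⁻¹ with hr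
    have one : (1 : WithTop ℕ∞) ≠ 0 := by norm_num
    have g0 := (hw.kahler.posDef e x hx).det_pos.ne'
    have hS : MC 1 (s e) (e x) := MC_s h hx
    have hB : MC 1 (b e) (e x) := (hb.smooth e x hx · · |>.of_le (by norm_cast))
    have hW : MC 1 (w e) (e x) := (hw.kahler.smooth e x hx · · |>.of_le (by norm_cast))
    have hSh0 : (s e (e x))ᴴ.det ≠ 0 := by
      rw [Matrix.det_conjTranspose]
      exact star_ne_zero.2 (hs e x hx)
    have hA : MC 1 (fun z => ((s e z)ᴴ)⁻¹) (e x) := MC.inv hS.conjTranspose hSh0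
    have hBt : MC 1 (fun z => (b e z)ᵀ) (e x) := MC_transpose hB
    have hI : MC 1 (fun z => (s e z)⁻¹) (e x) := hS.inv (hs e x hx)
    set c : Cm d → ℂ := fun z => (r : ℂ) * (w e z).det with hc
    have hcd : DifferentiableAt ℝ c (e x) :=
      ((MC.det hW).differentiableAt one).const_mul _
    -- near `e x` the function is `c • M`
    have hev : kf s b e =ᶠ[𝓝 (e x)] fun z => c z • (((s e z)ᴴ)⁻¹ * (b e z)ᵀ * (s e z)⁻¹) := by
      filter_upwards [eventually_at hx] with y hy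
      have h1 := norm_det_s hs hw hy.1
      have h2 : (w e y).det = ((w e y).det.re : ℂ) := by
        have := (Complex.lt_def.1 (hw.kahler.posDef e _ hy.1).det_pos).2
        rw [hy.2] at this
        exact Complex.ext rfl (by simpa using this.symm)
      rw [hy.2] at h1
      simp only [kf, hc]
      rw [h1, h2, Complex.ofReal_mul, Complex.ofReal_re]
    set G : Fin d → Matrix (Fin d) (Fin d) ℂ := fun i => DM i (w e) (e x) * (w e (e x))⁻¹ with hG
    have hGs : ∀ i a k, G i a k = G a i k := by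
      intro i a k
      simp only [hG, Matrix.mul_apply]
      refine Finset.sum_congr rfl fun l _ => ?_
      congr 1
      exact hw.kahler.closed e x hx a l i
    have hBs : ∀ i l k, DM i (b e) (e x) l k = DM l (b e) (e x) i k := fun i l k =>
      hb.closed e x hx i l k
    have dA : ∀ i, DM i (fun z => ((s e z)ᴴ)⁻¹) (e x) = 0 := by
      intro i
      rw [DM_inv hS.conjTranspose hSh0, DM_conjTranspose (hS.md one),
        (holNear_of_analyticAt fun a b => h.holo e x hx a b).self i, Matrix.conjTranspose_zero,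
        Matrix.mul_zero, Matrix.zero_mul, neg_zero]
    have hu : IsUnit (s e (e x)).det := isUnit_iff_ne_zero.2 (hs e x hx)
    have dI : ∀ i, DM i (fun z => (s e z)⁻¹) (e x) =
        -((s e (e x))⁻¹ * G i) - (G i)ᵀ * (s e (e x))⁻¹ := by
      intro i
      rw [DM_inv hS (hs e x hx), DM_s hw.kahler hw.ric h hx i]
      simp only [hG, Matrix.mul_add, Matrix.add_mul, Matrix.mul_assoc]
      rw [Matrix.mul_nonsing_inv _ hu, Matrix.mul_one, ← Matrix.mul_assoc (s e (e x))⁻¹ (s e (e x)),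
        Matrix.nonsing_inv_mul _ hu, Matrix.one_mul]
      abel
    have dc : ∀ i, dz i c (e x) = c (e x) * (G i).trace := by
      intro i
      have h1 : dz i (fun z => (w e z).det) (e x) =
          (w e (e x)).det * ((w e (e x))⁻¹ * DM i (w e) (e x)).trace := C2.dz_det (hW.md one) g0
      have h2 : dz i c (e x) = (r : ℂ) * dz i (fun z => (w e z).det) (e x) :=
        C2.dz_const_mul i _ ((MC.det hW).differentiableAt one)
      rw [h2, h1, Matrix.trace_mul_comm]
      simp only [hc, hG]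
      ring
    have key : ∀ i, DM i (kf s b e) (e x) =
        (c (e x) * (G i).trace) • (((s e (e x))ᴴ)⁻¹ * (b e (e x))ᵀ * (s e (e x))⁻¹) +
        c (e x) • (((s e (e x))ᴴ)⁻¹ * (DM i (b e) (e x))ᵀ * (s e (e x))⁻¹ -
          ((s e (e x))ᴴ)⁻¹ * (b e (e x))ᵀ * (s e (e x))⁻¹ * G i -
          ((s e (e x))ᴴ)⁻¹ * (b e (e x))ᵀ * (G i)ᵀ * (s e (e x))⁻¹) := by
      intro i
      have e0 : DM i (fun z => (b e z)ᵀ) (e x) = (DM i (b e) (e x))ᵀ := rfl
      rw [DM_congr hev, DM_smul' hcd (((hA.mul hBt).mul hI).md one), dc,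
        DM_mul ((hA.mul hBt).md one) (hI.md one), DM_mul (hA.md one) (hBt.md one), dA, dI, e0,
        Matrix.zero_mul, zero_add]
      congr 2
      simp only [Matrix.mul_sub, Matrix.mul_neg, Matrix.mul_assoc]
      abel
    have h5 := div_algebra (W := w e (e x)) (S := s e (e x)) (A := ((s e (e x))ᴴ)⁻¹)
      (Bt := (b e (e x))ᵀ) (Si := (s e (e x))⁻¹) (G := G) (B' := fun i => DM i (b e) (e x))
      (c := c (e x)) (inv_anti hu (h.alt e x hx)) hGs hBs j
    rw [← h5]
    refine Finset.sum_congr rfl fun i _ => ?_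
    rw [← key i]
    rfl

end Vale.Agent.P301.H450
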