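import Vale.Agent.P301.H450.Boch
import Vale.Agent.P301.H599.CY1
import Vale.Agent.P299.H882.Energy
import Vale.Agent.P285.H16.Null

/-!
# P301: semistability

If `V ⊗ L^m` has a nonzero holomorphic section, then `m ∫ tr_w (curvature of L) dV ≥ 0`.
-/

open scoped Manifold ContDiff ComplexOrder Topology Matrix
open MeasureTheory Set Filter
open Vale.Agent.P272.K Vale.Agent.P272.K.C2 Vale.Agent.P272.K.AMP
open Vale.Agent.P299 Vale.Agent.P299.H954 Vale.Agent.P299.H937 Vale.Agent.P301.H599
open Vale.Agent.P299.H882 (J J_lap J_mono J_add J_const_mul J_congr J_nonneg)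
open Vale.Agent.P301.H724 (IsSec Nz)

set_option linter.all false

noncomputable section

namespace Vale.Agent.P301.H450

variable {d : ℕ} {X : Type} [TopologicalSpace X] [ChartedSpace (Cm d) X]
  {w : Chart d X → Cm d → Matrix (Fin d) (Fin d) ℂ} {e e' : Chart d X} {x : X}
  {A : Type} [Fintype A] [DecidableEq A] {ι : Type}
  {L : LineBundle d X ι} {Λ : Chart d X → Chart d X → X → Matrix A A ℂ}
  {H : Chart d X → Cm d → Matrix A A ℂ} {ρ : ι → X → ℝ} {m : ℕ}
  {s : ι → Chart d X → Cm d → A → ℂ} {i j : ι}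

/-- the zero set of a nonzero section is a null set in the charts -/
theorem null_nz [PreconnectedSpace X] (hs : IsSec L Λ m s) (hne : ∃ x, Nz L s x)
    (he : e ∈ atlas (Cm d) X) : volume {z | z ∈ e.target ∧ ¬ Nz L s (e.symm z)} = 0 := by
  refine measure_null_of_locally_null _ fun z hz => ?_
  set y := e.symm z with hy
  have hAt : At e y := ⟨he, e.map_target hz.1⟩
  obtain ⟨i, hi⟩ := L.cover y
  obtain ⟨R, hR, hb⟩ := H724.exists_ball L hAt hi
  have hez : e y = z := e.right_inv hz.1
  rw [hez] at hb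
  refine ⟨Metric.ball z R ∩ {z | z ∈ e.target ∧ ¬ Nz L s (e.symm z)}, ?_, ?_⟩
  · rw [inter_comm]
    exact inter_mem_nhdsWithin _ (Metric.ball_mem_nhds z hR)
  · -- a component which is not identically zero on the ball
    have hd := hs.dense hne
    have hopen : IsOpen (e.source ∩ e ⁻¹' Metric.ball z R) := e.isOpen_inter_preimage Metric.isOpen_ball
    obtain ⟨p, hp1, hp2⟩ := hd.inter_open_nonempty _ hopen
      ⟨y, hAt.2, by show e y ∈ Metric.ball z R; rw [hez]; exact Metric.mem_ball_self hR⟩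
    have hpz : Nz L s p := hp2
    have hpb : e p ∈ Metric.ball z R := hp1.2
    have hpi : p ∈ L.U i := by
      have := (hb hpb).2
      simpa only [mem_preimage, e.left_inv hp1.1] using this
    have hpA : At e p := ⟨he, hp1.1⟩
    obtain ⟨a, ha⟩ := Function.ne_iff.1 (hpz i e hpA hpi)
    have hn := Vale.Agent.P285.H16.null_zero (W := Metric.ball z R) (f := fun z => s i e z a)
      Metric.isOpen_ball (convex_ball _ _)
      ((hs.analyticOnNhd he i a).mono hb) ⟨e p, hpb, ha⟩
    refine measure_mono_null ?_ hn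
    rintro z' ⟨hz'b, hz't, hz'n⟩
    refine ⟨hz'b, ?_⟩
    by_contra hne'
    apply hz'n
    have hz'A : At e (e.symm z') := ⟨he, e.map_target hz't⟩
    refine hs.nz hz'A (hb hz'b).2 ?_
    rw [e.right_inv hz't]
    intro h0
    exact hne' (by rw [h0]; rfl)

variable [IsManifold 𝓘(ℂ, Cm d) ω X] [T2Space X] [CompactSpace X]

/-- `∫ δ / (S + δ) → 0` if `S ≥ 0` is positive almost everywhere -/
theorem tendsto_J (hw : IsHermitian w) {S : X → ℝ} (hS : Continuous S) (hS0 : ∀ x, 0 ≤ S x)
    (hnull : ∀ e ∈ atlas (Cm d) X, volume {z | z ∈ e.target ∧ S (e.symm z) = 0} = 0) :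
    Tendsto (fun n : ℕ => J w (fun x => (1 / ((n : ℝ) + 1)) / (S x + 1 / ((n : ℝ) + 1)))) atTop
      (𝓝 0) := by
  set P := INT.part d X with hP
  have hδ : ∀ n : ℕ, (0 : ℝ) < 1 / ((n : ℝ) + 1) := fun n => by positivity
  have hlim : Tendsto (fun n : ℕ => (1 : ℝ) / ((n : ℝ) + 1)) atTop (𝓝 0) :=
    tendsto_one_div_add_atTop_nhds_zero_nat
  have hc : ∀ n : ℕ, Continuous fun x => (1 / ((n : ℝ) + 1)) / (S x + 1 / ((n : ℝ) + 1)) := by
    intro n
    refine continuous_const.div (hS.add continuous_const) fun x => ?_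
    have := hS0 x; have := hδ n
    positivity
  unfold J INT.intX
  rw [← hP]
  have h0 : (0 : ℝ) = ∑ i : Fin P.N, (0 : ℝ) := by simp
  rw [h0]
  refine tendsto_finset_sum _ fun i _ => ?_
  have hint := INT.integrableOn_part P (H882.dens_metric hw) i
  have hz : (0 : ℝ) = ∫ z in (P.e i).target, (0 : ℝ) := by simp
  rw [hz]
  refine tendsto_integral_of_dominated_convergence
    (fun z => P.ρ i ((P.e i).symm z) * (w (P.e i) z).det.re) (fun n => ?_) hint (fun n => ?_) ?_
  · exact (INT.integrableOn_part P (H882.J_dens hw (hc n)) i).aestronglyMeasurable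
  · filter_upwards [self_mem_ae_restrict (P.e i).open_target.measurableSet] with z hz
    have hA : At (P.e i) ((P.e i).symm z) := ⟨P.mem i, (P.e i).map_target hz⟩
    have h1 := H882.det_pos_re hw hA
    rw [(P.e i).right_inv hz] at h1
    have h2 := P.nonneg i ((P.e i).symm z)
    have h3 := hS0 ((P.e i).symm z)
    have h4 := hδ n
    have h5 : 0 ≤ (1 / ((n : ℝ) + 1)) / (S ((P.e i).symm z) + 1 / ((n : ℝ) + 1)) := by positivity
    have h6 : (1 / ((n : ℝ) + 1)) / (S ((P.e i).symm z) + 1 / ((n : ℝ) + 1)) ≤ 1 := by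
      rw [div_le_one (by positivity)]; linarith
    rw [Real.norm_eq_abs, abs_of_nonneg (by positivity)]
    refine mul_le_mul_of_nonneg_left ?_ h2
    exact mul_le_of_le_one_left h1.le h6
  · have hn : ∀ᵐ z ∂(volume : Measure (Cm d)), ¬ (z ∈ (P.e i).target ∧ S ((P.e i).symm z) = 0) :=
      measure_eq_zero_iff_ae_notMem.1 (hnull _ (P.mem i))
    filter_upwards [self_mem_ae_restrict (P.e i).open_target.measurableSet,
      ae_restrict_of_ae hn] with z hz hz'
    have h3 : 0 < S ((P.e i).symm z) := lt_of_le_of_ne (hS0 _) fun h => hz' ⟨hz, h.symm⟩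
    have h4 : Tendsto (fun n : ℕ => (1 / ((n : ℝ) + 1)) / (S ((P.e i).symm z) + 1 / ((n : ℝ) + 1)))
        atTop (𝓝 (0 / (S ((P.e i).symm z) + 0))) :=
      hlim.div (tendsto_const_nhds.add hlim) (by rw [add_zero]; exact h3.ne')
    rw [zero_div] at h4
    have h5 := (h4.mul_const (w (P.e i) z).det.re).const_mul (P.ρ i ((P.e i).symm z))
    simpa using h5

/-- **Semistability.** -/
theorem semistable [PreconnectedSpace X] (hw : IsKahler w) (hH : HBun w Λ H) (hρ : IsMetric L ρ)
    (hs : IsSec L Λ m s) (hne : ∃ x, Nz L s x) :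
    0 ≤ m * J w (trX w (curvature L ρ)) := by
  have hwH := hw.toIsHermitian
  set S : X → ℝ := nrmS L H ρ m s with hS
  have hSs : SmoothFn (n := d) S := smooth_nrmS hH hρ hs
  have hSc : Continuous S := sm_continuous hSs
  have hS0 : ∀ x, 0 ≤ S x := fun x => nrmS_nonneg hH x
  have hcl := isClosedForm_curvature hρ
  set τ : X → ℝ := trX w (curvature L ρ) with hτ
  have hτs : SmoothFn (n := d) τ := smoothFn_trX hwH hcl.form hcl.smooth
  have hτc : Continuous τ := sm_continuous hτs
  have hτe : ∀ x, τ x = ((w (chartAt (Cm d) x) (chartAt (Cm d) x x))⁻¹ *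
      cHess (fun z => ρ (L.cover x).choose ((chartAt (Cm d) x).symm z))
        (chartAt (Cm d) x x)).trace.re := by
    intro x
    have hx := AMP.at_chartAt (n := d) x
    rw [hτ, trX_eq hwH hcl.form hx, trE, curvature_eq hρ hx (L.cover x).choose_spec]
    rfl
  have hnull : ∀ e ∈ atlas (Cm d) X, volume {z | z ∈ e.target ∧ S (e.symm z) = 0} = 0 := by
    intro e he
    refine measure_mono_null ?_ (null_nz (e := e) hs hne he)
    rintro z ⟨hz, hz0⟩
    refine ⟨hz, fun hnz => ?_⟩
    have hA : At e (e.symm z) := ⟨he, e.map_target hz⟩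
    obtain ⟨i, hi⟩ := L.cover (e.symm z)
    rw [hS, nrmS_eq hH hρ hs hA hi] at hz0
    have h1 := (sqS_eq_zero_iff hH hA).1 hz0
    exact hnz i e hA hi (funext h1)
  -- the inequality for every `δ`
  have key : ∀ δ : ℝ, 0 < δ → 0 ≤ m * J w (fun x => τ x - δ / (S x + δ) * τ x) := by
    intro δ hδ
    have hpos : ∀ x, 0 < S x + δ := fun x => by have := hS0 x; linarith
    have hsl : SmoothFn (n := d) (fun y => Real.log (S y + δ)) :=
      smooth_log (sm_add hSs (smoothFn_const δ)) hpos
    have h1 : ∀ x, -((m : ℝ) * (τ x - δ / (S x + δ) * τ x)) ≤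
        lapX w (fun y => Real.log (S y + δ)) x := by
      intro x
      have hx := AMP.at_chartAt (n := d) x
      have h2 := boch_log hw hH hρ hs hδ hx (L.cover x).choose_spec
      rw [← hτe x] at h2
      have h3 : -(S x / (S x + δ)) * (m * τ x) = -((m : ℝ) * (τ x - δ / (S x + δ) * τ x)) := by
        have := (hpos x).ne'
        field_simp
        ring
      rw [← h3]
      exact h2
    have hcq : Continuous fun x => δ / (S x + δ) := continuous_const.div (hSc.add continuous_const)
      fun x => (hpos x).ne'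
    have hc : Continuous fun x => -((m : ℝ) * (τ x - δ / (S x + δ) * τ x)) :=
      (continuous_const.mul (hτc.sub (hcq.mul hτc))).neg
    have h4 := J_mono hwH hc (sm_continuous (smoothFn_lapX hwH hsl)) h1
    rw [J_lap hw hsl] at h4
    have h5 : J w (fun x => -((m : ℝ) * (τ x - δ / (S x + δ) * τ x))) =
        -(m * J w (fun x => τ x - δ / (S x + δ) * τ x)) := by
      rw [← J_const_mul, ← neg_one_mul, ← J_const_mul]
      exact J_congr fun x => by ring
    rw [h5] at h4
    linarith
  -- bound of `τ`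
  obtain ⟨C, hC⟩ : ∃ C : ℝ, ∀ x, |τ x| ≤ C := by
    obtain ⟨C, hC⟩ := isCompact_univ.exists_bound_of_continuousOn (f := τ) hτc.continuousOn
    exact ⟨C, fun x => by simpa using hC x (mem_univ x)⟩
  have hlim := (tendsto_J hwH hSc hS0 hnull).const_mul (m * C)
  rw [mul_zero] at hlim
  have hle : ∀ n : ℕ, -(m * J w τ) ≤
      m * C * J w (fun x => (1 / ((n : ℝ) + 1)) / (S x + 1 / ((n : ℝ) + 1))) := by
    intro n
    set δ : ℝ := 1 / ((n : ℝ) + 1) with hδ
    have hδp : 0 < δ := by positivity
    have hpos : ∀ x, 0 < S x + δ := fun x => by have := hS0 x; linarith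
    have hcq : Continuous fun x => δ / (S x + δ) := continuous_const.div (hSc.add continuous_const)
      fun x => (hpos x).ne'
    have h1 := key δ hδp
    have h2 : J w (fun x => τ x - δ / (S x + δ) * τ x) ≤
        J w (fun x => τ x + C * (δ / (S x + δ))) := by
      refine J_mono hwH (hτc.sub (hcq.mul hτc)) (hτc.add (continuous_const.mul hcq)) fun x => ?_
      have h3 : 0 ≤ δ / (S x + δ) := div_nonneg hδp.le (hpos x).le
      have h4 := (abs_le.1 (hC x)).1
      nlinarith
    have hcC : Continuous fun x => C * (δ / (S x + δ)) := continuous_const.mul hcq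
    rw [H882.J_add hwH hτc hcC, J_const_mul] at h2
    have hm : (0 : ℝ) ≤ m := Nat.cast_nonneg m
    have h5 := mul_le_mul_of_nonneg_left h2 hm
    have h6 : (m : ℝ) * (J w τ + C * J w (fun x => δ / (S x + δ))) =
        m * J w τ + m * C * J w (fun x => δ / (S x + δ)) := by ring
    rw [h6] at h5
    linarith
  have := ge_of_tendsto' hlim hle
  linarith

end Vale.Agent.P301.H450
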