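import Vale.Agent.P301.H450.Boch
import Vale.Agent.P301.H724.Minor
import Vale.Agent.P299.H954.TenZero

/-!
# P301: tensor bundles carry metrics of nonpositive mean curvature
-/

open scoped Manifold ContDiff ComplexOrder Topology Matrix
open Vale.Agent.P272.K Vale.Agent.P272.K.C2 Vale.Agent.P272.K.AMP
open Vale.Agent.P299 Vale.Agent.P299.H954 Vale.Agent.P301.H599
open Vale.Agent.P301.H724 (IsSec lamPow)

set_option linter.all false

noncomputable section

namespace Vale.Agent.P301.H450

variable {d : ℕ} {X : Type} [TopologicalSpace X] [ChartedSpace (Cm d) X]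
  {w : Chart d X → Cm d → Matrix (Fin d) (Fin d) ℂ} {e e' : Chart d X} {x : X}
  {A : Type} [Fintype A] [DecidableEq A] {ι : Type}
  {Λ : Chart d X → Chart d X → X → Matrix A A ℂ} {H : Chart d X → Cm d → Matrix A A ℂ}

/-- The bundle with transition matrices `Λ` has, for every Kähler metric with `Ric ≥ 0`, a Hermitian
metric with nonpositive mean curvature. -/
structure IsNeg (Λ : Chart d X → Chart d X → X → Matrix A A ℂ) : Prop where
  cont : ∀ e e' x, At e x → At e' x → ∀ a b, ContinuousAt (fun y => Λ e e' y a b) x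
  met : ∀ w : Chart d X → Cm d → Matrix (Fin d) (Fin d) ℂ, IsKahler w → D.RicNonneg w →
    ∃ H : Chart d X → Cm d → Matrix A A ℂ, HBun w Λ H

/-- the trivial line bundle -/
def one1 (d : ℕ) (X : Type) [TopologicalSpace X] : Chart d X → Chart d X → X → Matrix Unit Unit ℂ :=
  fun _ _ _ => 1

theorem isNeg_one : IsNeg (one1 d X) where
  cont _ _ _ _ _ _ _ := continuousAt_const
  met w _ _ := ⟨fun _ _ => 1, fun _ _ _ _ _ => contDiffAt_const, fun _ _ _ => Matrix.PosDef.one,
    fun _ _ _ _ _ => by
      ext i j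
      simp [one1], fun _ _ _ => by
      rw [RmS_const, neg_zero]
      exact Matrix.PosSemidef.zero⟩

/-- tensor powers -/
theorem HBun.tp (h : HBun w Λ H) (r : ℕ) : HBun w (lamPow r Λ) (fun e z => H954.tp r (H e z)) where
  smooth e x hx := MC_tp r (h.smooth e x hx)
  pos e x hx := tp_posDef r (h.pos e x hx)
  change e e' x hx hx' := by
    have h1 : lamPow r Λ e e' x = H954.tp r (Λ e e' x) := rfl
    have h2 : (H954.tp r (Λ e e' x)).map (starRingEnd ℂ) =
        H954.tp r ((Λ e e' x).map (starRingEnd ℂ)) := by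
      ext I J
      simp
    rw [h1, h2, ← tp_transpose, ← tp_mul, ← tp_mul, h.change e e' x hx hx']
  curv e x hx := neg_RmS_tp r ((h.smooth e x hx).mono (by norm_cast)) (h.pos e x hx) (h.curv e x hx)

theorem IsNeg.lamPow (h : IsNeg Λ) (r : ℕ) : IsNeg (lamPow r Λ) where
  cont e e' x hx hx' a b := by
    show ContinuousAt (fun y => ∏ c, Λ e e' y (a c) (b c)) x
    exact tendsto_finsetProd _ fun c _ => h.cont e e' x hx hx' (a c) (b c)
  met w hw hr := by
    obtain ⟨H, hH⟩ := h.met w hw hr
    exact ⟨_, hH.tp r⟩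

/-- the cotangent bundle -/
def cot (e e' : Chart d X) (x : X) : Matrix (Fin d) (Fin d) ℂ := (jacM e e' x)ᵀ

variable [IsManifold 𝓘(ℂ, Cm d) ω X]

theorem cont_jacM (hx : At e x) (hx' : At e' x) (a b : Fin d) :
    ContinuousAt (fun y => jacM e e' y a b) x := by
  have h1 : ContDiffAt ℝ ∞ (fun z => e' (e.symm z) a) (e x) :=
    ((contDiffAt_pi.1 (Vale.Agent.P272.K.transition hx hx') a).restrict_scalars ℝ).of_le
      (by exact le_top)
  have h2 : ContinuousAt (fun z => dz b (fun z => e' (e.symm z) a) z) (e x) :=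
    (INT.smooth_dz h1).continuousAt
  exact ContinuousAt.comp (g := fun z => dz b (fun z => e' (e.symm z) a) z) (f := e) h2
    (e.continuousAt hx.2)

theorem isNeg_cot : IsNeg (cot (d := d) (X := X)) where
  cont e e' x hx hx' a b := cont_jacM hx hx' b a
  met w hw hr := by
    refine ⟨fun e z => dual (w e) z, fun e x hx => ?_, fun e x hx => ?_, fun e e' x hx hx' => ?_,
      fun e x hx => ?_⟩
    · exact MC_dual (hw.smooth e x hx) (hw.posDef e x hx).det_pos.ne'
    · exact dual_posDef (hw.posDef e x hx)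
    · set J := jacM e e' x with hJ
      have hJu : IsUnit J.det := jacM_isUnit hx hx'
      have hw1 := hw.change e e' x hx hx'
      rw [← hJ] at hw1
      have hd : dual (w e) (e x) = J⁻¹ * dual (w e') (e' x) * (J⁻¹)ᴴ := by
        unfold dual
        rw [hw1, inv_form hJu]
        simp only [Matrix.transpose_mul, Matrix.transpose_nonsing_inv, Matrix.transpose_transpose,
          Matrix.mul_assoc]
        congr 3
        rw [Matrix.conjTranspose_nonsing_inv]
        rfl
      have h3 : (cot e e' x).map (starRingEnd ℂ) = Jᴴ := by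
        ext i j; rfl
      have h4 : (cot e e' x)ᵀ = J := by
        rw [cot, Matrix.transpose_transpose]
      rw [h3, h4, hd]
      have h1 : J * J⁻¹ = 1 := Matrix.mul_nonsing_inv _ hJu
      have h2 : (J⁻¹)ᴴ * Jᴴ = 1 := by
        rw [← Matrix.conjTranspose_mul, h1, Matrix.conjTranspose_one]
      calc J * (J⁻¹ * dual (w e') (e' x) * (J⁻¹)ᴴ) * Jᴴ =
          (J * J⁻¹) * dual (w e') (e' x) * ((J⁻¹)ᴴ * Jᴴ) := by simp only [Matrix.mul_assoc]
        _ = _ := by rw [h1, h2, Matrix.one_mul, Matrix.mul_one]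
    · exact posSemidef_of_ric_nonneg hw hr hx

/-- the bundle of covariant tensors of degree `p` -/
theorem isNeg_ten (p : ℕ) : IsNeg (lamPow p (cot (d := d) (X := X))) := isNeg_cot.lamPow p

end Vale.Agent.P301.H450
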