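import Vale.Agent.P301.H508.Tau
import Vale.Agent.P301.H599.CY1

/-!
# P301: curvature of tensor products and of inverses of line bundles
-/

open scoped Manifold ContDiff ComplexOrder Topology Matrix
open Set Filter
open Vale.Agent.P272.K Vale.Agent.P272.K.C2 Vale.Agent.P301.H599
open Vale.Agent.P301.H508 (invL tens)

set_option linter.all false

noncomputable section

namespace Vale.Agent.P301.H450

variable {d : ℕ} {X : Type} [TopologicalSpace X] [ChartedSpace (Cm d) X] {ι κ : Type}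
  {W : LineBundle d X κ} {L : LineBundle d X ι} {i : κ → ι} {h : ∀ x, W.U x ⊆ L.U (i x)}
  {m : ℕ} {ρ : ι → X → ℝ} {ρW : κ → X → ℝ} {e : Chart d X} {x : X}

theorem isMetric_tens (hW : IsMetric W ρW) (hρ : IsMetric L ρ) :
    IsMetric (tens W L i h m) (fun a z => ρW a z + m * ρ (i a) z) where
  smooth a e x hx ha := (hW.smooth a e x hx ha).add
    (contDiffAt_const.mul (hρ.smooth (i a) e x hx (h a ha)))
  change a b x ha hb := by
    have h1 := hW.change a b x ha hb
    have h2 := hρ.change (i a) (i b) x (h a ha) (h b hb)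
    have n1 : ‖W.g a b x‖ ^ 2 ≠ 0 := pow_ne_zero 2 (norm_ne_zero_iff.2 (W.ne_zero a b x ha hb))
    have n2 : ‖L.g (i a) (i b) x‖ ^ 2 ≠ 0 :=
      pow_ne_zero 2 (norm_ne_zero_iff.2 (L.ne_zero _ _ x (h a ha) (h b hb)))
    show ρW a x + m * ρ (i a) x = ρW b x + m * ρ (i b) x +
      Real.log (‖W.g a b x * L.g (i a) (i b) x ^ m‖ ^ 2)
    have e1 : ‖W.g a b x * L.g (i a) (i b) x ^ m‖ ^ 2 =
        ‖W.g a b x‖ ^ 2 * (‖L.g (i a) (i b) x‖ ^ 2) ^ m := by
      rw [norm_mul, norm_pow, mul_pow, ← pow_mul, ← pow_mul, mul_comm m 2]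
    rw [e1, Real.log_mul n1 (pow_ne_zero m n2), Real.log_pow (‖L.g (i a) (i b) x‖ ^ 2) m, h1, h2]
    ring

theorem isMetric_invL (hW : IsMetric W ρW) : IsMetric (invL W) (fun a z => -ρW a z) where
  smooth a e x hx ha := (hW.smooth a e x hx ha).neg
  change a b x ha hb := by
    have h1 := hW.change a b x ha hb
    show -ρW a x = -ρW b x + Real.log (‖(W.g a b x)⁻¹‖ ^ 2)
    rw [h1, norm_inv, inv_pow, Real.log_inv]
    ring

variable [IsManifold 𝓘(ℂ, Cm d) ω X]

theorem curvature_tens (hW : IsMetric W ρW) (hρ : IsMetric L ρ) (hx : At e x) :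
    curvature (tens W L i h m) (fun a z => ρW a z + m * ρ (i a) z) e (e x) =
      curvature W ρW e (e x) + ((m : ℝ) : ℂ) • curvature L ρ e (e x) := by
  obtain ⟨a, ha⟩ := W.cover x
  rw [curvature_eq (isMetric_tens hW hρ) hx (i := a) ha, curvature_eq hW hx ha,
    curvature_eq hρ hx (h a ha)]
  have s1 : ContDiffAt ℝ 2 (fun z => ρW a (e.symm z)) (e x) :=
    (hW.smooth a e x hx ha).of_le (by norm_cast)
  have s2 : ContDiffAt ℝ 2 (fun z => ρ (i a) (e.symm z)) (e x) :=
    (hρ.smooth (i a) e x hx (h a ha)).of_le (by norm_cast)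
  show cHess (fun z => ρW a (e.symm z) + m * ρ (i a) (e.symm z)) (e x) = _
  rw [C2.cHess_add s1 (contDiffAt_const.mul s2), C2.cHess_const_mul (m : ℝ) s2]
  rfl

theorem curvature_invL (hW : IsMetric W ρW) (hx : At e x) :
    curvature (invL W) (fun a z => -ρW a z) e (e x) = ((-1 : ℝ) : ℂ) • curvature W ρW e (e x) := by
  obtain ⟨a, ha⟩ := W.cover x
  rw [curvature_eq (isMetric_invL hW) hx (i := a) ha, curvature_eq hW hx ha]
  have s1 : ContDiffAt ℝ 2 (fun z => ρW a (e.symm z)) (e x) :=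
    (hW.smooth a e x hx ha).of_le (by norm_cast)
  show cHess (fun z => -ρW a (e.symm z)) (e x) = _
  have e1 : (fun z => -ρW a (e.symm z)) = fun z => (-1 : ℝ) * ρW a (e.symm z) := by
    funext z; ring
  rw [e1, C2.cHess_const_mul (-1 : ℝ) s1]
  rfl

end Vale.Agent.P301.H450
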