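import Vale.Agent.P301.H450.SS
import Vale.Agent.P301.H450.HI
import Vale.Agent.P301.H450.Ten
import Vale.Agent.P301.H450.Twist

/-!
# P301: semistability in terms of the form `q`
-/

open scoped Manifold ContDiff ComplexOrder Topology Matrix
open MeasureTheory Set Filter
open Vale.Agent.P272.K Vale.Agent.P272.K.C2 Vale.Agent.P272.K.AMP
open Vale.Agent.P299 Vale.Agent.P299.H954 Vale.Agent.P299.H937 Vale.Agent.P301.H599
open Vale.Agent.P272.K.INT (IsClosedForm IsDensity intX)
open Vale.Agent.P299.H882 (J J_lap J_mono J_add J_const_mul J_congr J_nonneg)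
open Vale.Agent.P301.H724 (IsSec Nz)
open Vale.Agent.P301.H508 (MovingPart tens invL)

set_option linter.all false

noncomputable section

namespace Vale.Agent.P301.H450

variable {d : ℕ} {X : Type} [TopologicalSpace X] [ChartedSpace (Cm d) X]
  {w w0 s a b θ : Chart d X → Cm d → Matrix (Fin d) (Fin d) ℂ} {e e' : Chart d X} {x : X}
  {A : Type} [Fintype A] [DecidableEq A] {ι : Type}
  {L : LineBundle d X ι} {Λ : Chart d X → Chart d X → X → Matrix A A ℂ}
  {H : Chart d X → Cm d → Matrix A A ℂ} {ρ : ι → X → ℝ} {m : ℕ}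
  {σ : ι → Chart d X → Cm d → A → ℂ} {i j : ι} {κ : ℝ}

variable [IsManifold 𝓘(ℂ, Cm d) ω X] [T2Space X] [CompactSpace X]

theorem det_hk (S : SData s w κ) (hx : At e x) :
    (w e (e x)).det.re = Real.sqrt (κ ^ d) * ‖(s e (e x)).det‖ := by
  have h3 := det_rel (S.hk.kahler.posDef e x hx) (isUnit_iff_ne_zero.2 (S.nondeg e x hx))
    (S.hk.rel e x hx)
  have h4 : 0 < (w e (e x)).det.re := S.hk.kahler.toIsHermitian.det_re_pos hx
  have h5 : 0 < κ ^ d := pow_pos S.hk.pos d
  rw [← Real.sqrt_sq h4.le, h3, Real.sqrt_mul h5.le, Real.sqrt_sq (norm_nonneg _)]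

theorem J_trX (S : SData s w κ) (ha : IsClosedForm a) :
    J w (trX w a) = Real.sqrt (κ ^ d) * trI s w a := by
  rw [trI, ← INT.intX_const_mul]
  unfold J
  refine INT.intX_congr fun e x hx => ?_
  rw [e.left_inv hx.2, trX_eq S.hk.kahler.toIsHermitian ha.form hx, det_hk S hx]
  unfold trE
  ring

/-- **semistability** with respect to a compatible metric -/
theorem semistable_q [PreconnectedSpace X] (S : SData s w κ) (hH : HBun w Λ H)
    (hρ : IsMetric L ρ) (hσ : IsSec L Λ m σ) (hne : ∃ x, Nz L σ x) :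
    0 ≤ m * q s (curvature L ρ) w := by
  have h1 := semistable S.hk.kahler hH hρ hσ hne
  have hκ := S.hk.pos
  have h2 : 0 < Real.sqrt (κ ^ d) := Real.sqrt_pos.2 (pow_pos hκ d)
  rw [J_trX S (isClosedForm_curvature hρ)] at h1
  rw [q_hk S]
  have h3 : (0 : ℝ) ≤ m * trI s w (curvature L ρ) := by
    have h4 : (m : ℝ) * (Real.sqrt (κ ^ d) * trI s w (curvature L ρ)) =
        Real.sqrt (κ ^ d) * (m * trI s w (curvature L ρ)) := by ring
    rw [h4] at h1
    exact nonneg_of_mul_nonneg_right h1 h2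
  nlinarith

variable [ConnectedSpace X]

/-- a class which pairs nonnegatively with all compatible metrics pairs nonnegatively with the nef
classes -/
theorem q_nonneg_of_hk (h : IsSymplectic d X w0 s) (ha : IsReal11 a) (hθ : IsReal11 θ)
    (hn : IsNef w0 θ) (hall : ∀ w κ, IsHK s w κ → 0 ≤ q s a w) : 0 ≤ q s a θ := by
  have hw0 := h.kahler
  obtain ⟨u0, κ0, hu0, hk0⟩ := exists_rf h hw0
  have S := SData.of h hk0
  have c0 := INT.IsKahler.isClosedForm hw0
  have cθ := hθ.toIsClosedForm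
  have ca := ha.toIsClosedForm
  have key : ∀ δ : ℝ, 0 < δ → 0 ≤ q s a θ + 2 * δ * q s a w0 := by
    intro δ hδ
    obtain ⟨u, hu, hpos⟩ := hn δ hδ
    have c1 : IsClosedForm fun e z => θ e z + ((2 * δ : ℝ) : ℂ) • w0 e z := cθ.add (c0.smul _)
    have r1 : IsReal11 fun e z => (θ e z + ((2 * δ : ℝ) : ℂ) • w0 e z) + ddc u e z :=
      (hθ.add ((isReal11_kahler hw0).smul _)).add (isReal11_ddc hu)
    have hk : IsKahler fun e z => (θ e z + ((2 * δ : ℝ) : ℂ) • w0 e z) + ddc u e z := by
      refine isKahler_of r1 fun e x hx => ?_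
      have h2 : ((δ : ℂ) • w0 e (e x)).PosDef :=
        (hw0.posDef e x hx).smul (by exact_mod_cast hδ)
      have h3 := Matrix.PosDef.add_posSemidef h2 (hpos e x hx)
      have e1 : (δ : ℂ) • w0 e (e x) + (θ e (e x) + (δ : ℂ) • w0 e (e x) + ddc u e (e x)) =
          (θ e (e x) + ((2 * δ : ℝ) : ℂ) • w0 e (e x)) + ddc u e (e x) := by
        have : ((2 * δ : ℝ) : ℂ) • w0 e (e x) = (δ : ℂ) • w0 e (e x) + (δ : ℂ) • w0 e (e x) := by
          rw [← add_smul]; congr 1; push_cast; ring
        rw [this]; abel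
      rwa [e1] at h3
    obtain ⟨u', κ', hu', hk'⟩ := exists_rf h hk
    have h4 := hall _ _ hk'
    have h5 : q s a (addH (fun e z => (θ e z + ((2 * δ : ℝ) : ℂ) • w0 e z) + ddc u e z) u') =
        q s a θ + 2 * δ * q s a w0 := by
      show q s a (fun e z => ((θ e z + ((2 * δ : ℝ) : ℂ) • w0 e z) + ddc u e z) + ddc u' e z) = _
      rw [q_add_right S ca (c1.add (isClosed_ddc hu)) (isClosed_ddc hu'), q_hess_right S ca hu',
        q_add_right S ca c1 (isClosed_ddc hu), q_hess_right S ca hu, q_add_right S ca cθ (c0.smul _),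
        q_smul_right S]
      ring
    rwa [h5] at h4
  have hlim : Tendsto (fun δ : ℝ => q s a θ + 2 * δ * q s a w0) (𝓝[>] 0)
      (𝓝 (q s a θ + 2 * 0 * q s a w0)) := by
    have : Continuous fun δ : ℝ => q s a θ + 2 * δ * q s a w0 := by fun_prop
    exact (this.tendsto 0).mono_left nhdsWithin_le_nhds
  have h2 : 0 ≤ q s a θ + 2 * 0 * q s a w0 := by
    refine ge_of_tendsto hlim ?_
    filter_upwards [self_mem_nhdsWithin] with δ hδ using key δ hδ
  simpa using h2

end Vale.Agent.P301.H450
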