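import Vale.Agent.P301.H450.SSq
import Vale.Agent.P301.H450.PairQ
import Vale.Agent.P301.H450.Metric
import Vale.Agent.P301.H949.Exact
import Vale.Agent.P301.H450.Fuj

/-!
# P301: proportional sections of `V ⊗ L^m` produce sections of powers of `L`
-/

open scoped Manifold ContDiff ComplexOrder Topology Matrix
open MeasureTheory Set Filter
open Vale.Agent.P272.K Vale.Agent.P272.K.C2 Vale.Agent.P272.K.AMP
open Vale.Agent.P299 Vale.Agent.P299.H954 Vale.Agent.P299.H937 Vale.Agent.P301.H599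
open Vale.Agent.P272.K.INT (IsClosedForm IsDensity intX)
open Vale.Agent.P301.H724 (IsSec Nz Prop2 HasSec)
open Vale.Agent.P301.H508 (MovingPart tens invL PrimX Prim)
open Vale.Agent.P301.H949 (IsoPow ratio_of_intX)

set_option linter.all false

noncomputable section

namespace Vale.Agent.P301.H450

variable {d : ℕ} {X : Type} [TopologicalSpace X] [ChartedSpace (Cm d) X]
  {w w0 s a b θ : Chart d X → Cm d → Matrix (Fin d) (Fin d) ℂ} {e e' : Chart d X} {x : X}
  {A : Type} [Fintype A] [DecidableEq A] {ι : Type}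
  {L : LineBundle d X ι} {Λ : Chart d X → Chart d X → X → Matrix A A ℂ}
  {ρ : ι → X → ℝ} {mm : Fin 2 → ℕ}
  {σ : Fin 2 → ι → Chart d X → Cm d → A → ℂ} {κ : ℝ}

/-- the sections `t k` of `W ⊗ L^(m k)` -/
def tsec (P : MovingPart ι L Λ mm σ) (k : Fin 2) : X → Chart d X → Cm d → Unit → ℂ :=
  fun x e z _ => P.t x (e.symm z) k

lemma t_holo (P : MovingPart ι L Λ mm σ) (k : Fin 2) (x : X) {y : X} (hy : At e y)
    (hx : y ∈ P.W.U x) : AnalyticAt ℂ (fun z => P.t x (e.symm z) k) (e y) := by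
  have h1 := (P.prim x y hx e hy).an
  exact (analyticAt_pi_iff.1 h1) k

theorem isSec_tsec (P : MovingPart ι L Λ mm σ) (k : Fin 2) :
    IsSec (tens P.W L P.i P.sub (mm k)) (one1 d X) 1 (tsec P k) where
  holo x e y hy hx _ := t_holo P k x hy hx
  chL x x' e y hy hx hx' := by
    funext a
    show P.t x (e.symm (e y)) k = ((P.W.g x x' y * L.g (P.i x) (P.i x') y ^ mm k) ^ 1) *
      P.t x' (e.symm (e y)) k
    rw [pow_one, e.left_inv hy.2]
    exact P.ch x x' y hx hx' k
  chV x e e' y hy hy' hx := by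
    funext a
    show P.t x (e.symm (e y)) k = ((1 : Matrix Unit Unit ℂ).mulVec fun _ => P.t x (e'.symm (e' y)) k) a
    rw [Matrix.one_mulVec, e.left_inv hy.2, e'.left_inv hy'.2]

theorem isSection_t (P : MovingPart ι L Λ mm σ) (k : Fin 2) :
    H98.IsSection (tens P.W L P.i P.sub (mm k)) (fun x y => P.t x y k) where
  holo x e y hy hx := t_holo P k x hy hx
  change x x' y hx hx' := P.ch x x' y hx hx' k

theorem nz_tsec (P : MovingPart ι L Λ mm σ) {k : Fin 2} (hne : ∃ x, Nz L (σ k) x) :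
    ∃ x, Nz (tens P.W L P.i P.sub (mm k)) (tsec P k) x := by
  obtain ⟨x, hx⟩ := hne
  have he := AMP.at_chartAt (n := d) x
  refine ⟨x, (isSec_tsec P k).nz he (P.mem x) fun h0 => ?_⟩
  apply hx (P.i x) _ he (P.sub x (P.mem x))
  funext a
  rw [P.fac x _ x he (P.mem x) k a]
  have h1 := congrFun h0 ()
  have h2 : P.t x ((chartAt (Cm d) x).symm (chartAt (Cm d) x x)) k = 0 := h1
  rw [(chartAt (Cm d) x).left_inv he.2] at h2
  rw [h2, zero_mul]
  rfl

theorem nz_tau (P : MovingPart ι L Λ mm σ) {k : Fin 2} (hne : ∃ x, Nz L (σ k) x) :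
    ∃ x, Nz (invL P.W) P.τ x := by
  obtain ⟨x, hx⟩ := hne
  have he := AMP.at_chartAt (n := d) x
  refine ⟨x, P.sec.nz he (P.mem x) fun h0 => ?_⟩
  apply hx (P.i x) _ he (P.sub x (P.mem x))
  funext a
  rw [P.fac x _ x he (P.mem x) k a, congrFun h0 a]
  exact mul_zero _

theorem coprime_t (P : MovingPart ι L Λ mm σ) (hne : ∃ x, Nz L (σ 0) x) [PreconnectedSpace X] :
    H98.Coprime (tens P.W L P.i P.sub (mm 0)) (tens P.W L P.i P.sub (mm 1))
      (fun x y => P.t x y 0) (fun x y => P.t x y 1) := by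
  refine H98.Coprime.of_prim fun e x hx => ⟨x, x, P.mem x, P.mem x, ?_, ?_⟩
  · intro h0
    have h1 := (isSec_tsec P 0).dense (nz_tsec P hne)
    have h2 : ∀ᶠ y in 𝓝 x, P.t x y 0 = 0 := by
      have := (e.continuousAt hx.2).eventually h0
      filter_upwards [this, e.open_source.mem_nhds hx.2] with y hy hy2
      rwa [e.left_inv hy2] at hy
    obtain ⟨U, hU, hUo, hxU⟩ := mem_nhds_iff.1 (inter_mem h2
      (inter_mem (e.open_source.mem_nhds hx.2) ((P.W.isOpen x).mem_nhds (P.mem x))))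
    obtain ⟨y, hyU, hy⟩ := h1.inter_open_nonempty U hUo ⟨x, hxU⟩
    have h3 := hU hyU
    refine hy x e ⟨hx.1, h3.2.1⟩ h3.2.2 ?_
    funext a
    show P.t x (e.symm (e y)) 0 = 0
    rw [e.left_inv h3.2.1]
    exact h3.1
  · have h1 := P.prim x x (P.mem x) e hx
    have h2 : (fun z => ![P.t x (e.symm z) 0, P.t x (e.symm z) 1]) = fun z => P.t x (e.symm z) := by
      funext z k
      fin_cases k <;> rfl
    rw [h2]
    exact h1

variable [IsManifold 𝓘(ℂ, Cm d) ω X] [T2Space X] [CompactSpace X] [ConnectedSpace X]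
  {ρW : X → X → ℝ}

theorem isReal11_curvature' (hρ : IsMetric L ρ) : IsReal11 (curvature L ρ) where
  toIsClosedForm := H949.isClosedForm_curvature hρ
  herm e x hx := H949.curvature_isHermitian hρ hx

/-- the class of `W ⊗ L^m` -/
theorem q_tens (S : SData s w κ) (P : MovingPart ι L Λ mm σ) (hρ : IsMetric L ρ)
    (hW : IsMetric P.W ρW) (k : Fin 2) (hb : IsClosedForm b) :
    q s (curvature (tens P.W L P.i P.sub (mm k)) (fun a z => ρW a z + mm k * ρ (P.i a) z)) b =
      q s (curvature P.W ρW) b + mm k * q s (curvature L ρ) b := by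
  have c1 := (isReal11_curvature' hW).toIsClosedForm
  have c2 := (isReal11_curvature' hρ).toIsClosedForm
  rw [q_congr (a' := fun e z => curvature P.W ρW e z + ((mm k : ℝ) : ℂ) • curvature L ρ e z)
    (b' := b) (fun e x hx => curvature_tens (i := P.i) (h := P.sub) (m := mm k) hW hρ hx)
    (fun e x _ => rfl), q_add_left S c1 (c2.smul _) hb, q_smul_left]

/-- signs on compatible metrics -/
theorem mp_hk (P : MovingPart ι L Λ mm σ) (hΛ : IsNeg Λ) (hρ : IsMetric L ρ)
    (hW : IsMetric P.W ρW) (hne : ∀ k, ∃ x, Nz L (σ k) x) (S : SData s w κ) :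
    (∀ k, 0 ≤ q s (curvature P.W ρW) w + mm k * q s (curvature L ρ) w) ∧
      q s (curvature P.W ρW) w ≤ 0 := by
  have cw := INT.IsKahler.isClosedForm S.hk.kahler
  refine ⟨fun k => ?_, ?_⟩
  · obtain ⟨H, hH⟩ := (isNeg_one (d := d) (X := X)).met w S.hk.kahler S.hk.ric
    have h1 := semistable_q S hH (isMetric_tens (i := P.i) (h := P.sub) (m := mm k) hW hρ)
      (isSec_tsec P k) (nz_tsec P (hne k))
    rwa [Nat.cast_one, one_mul, q_tens S P hρ hW k cw] at h1
  · obtain ⟨H, hH⟩ := hΛ.met w S.hk.kahler S.hk.ric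
    have h1 := semistable_q S hH (isMetric_invL hW) P.sec (nz_tau P (hne 0))
    have h2 : q s (curvature (invL P.W) fun a z => -ρW a z) w = (-1) * q s (curvature P.W ρW) w := by
      rw [q_congr (a' := fun e z => ((-1 : ℝ) : ℂ) • curvature P.W ρW e z) (b' := w)
        (fun e x hx => curvature_invL hW hx) (fun e x _ => rfl), q_smul_left]
    rw [Nat.cast_one, one_mul, h2] at h1
    linarith

/-- `q(W, θ) = 0` -/
theorem mp_zero (h : IsSymplectic d X w0 s) (P : MovingPart ι L Λ mm σ) (hΛ : IsNeg Λ)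
    (hρ : IsMetric L ρ) (hn : IsNef w0 (curvature L ρ)) (hq : q s (curvature L ρ) (curvature L ρ) = 0)
    (hW : IsMetric P.W ρW) (hne : ∀ k, ∃ x, Nz L (σ k) x) :
    q s (curvature P.W ρW) (curvature L ρ) = 0 := by
  obtain ⟨u0, κ0, hu0, hk0⟩ := exists_rf h h.kahler
  have S0 := SData.of h hk0
  have rW := isReal11_curvature' hW
  have rθ := isReal11_curvature' hρ
  refine le_antisymm ?_ ?_
  · have h1 := q_nonneg_of_hk h (rW.smul (-1)) rθ hn fun w κ hk => by
      have := (mp_hk P hΛ hρ hW hne (SData.of h hk)).2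
      rw [q_smul_left]
      linarith
    rw [q_smul_left] at h1
    linarith
  · have h1 := q_nonneg_of_hk h (rW.add (rθ.smul (mm 0))) rθ hn fun w κ hk => by
      have S := SData.of h hk
      have cw := INT.IsKahler.isClosedForm S.hk.kahler
      have := (mp_hk P hΛ hρ hW hne S).1 0
      rw [q_add_left S rW.toIsClosedForm (rθ.smul _).toIsClosedForm cw, q_smul_left]
      exact this
    rw [q_add_left S0 rW.toIsClosedForm (rθ.smul _).toIsClosedForm rθ.toIsClosedForm, q_smul_left,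
      hq] at h1
    linarith

/-- **the class of the moving part**: `c₁(W) = t c₁(L)` with `- m k ≤ t ≤ 0` -/
theorem mp_class (hd : 0 < d) (h : IsSymplectic d X w0 s) (P : MovingPart ι L Λ mm σ)
    (hΛ : IsNeg Λ) (hρ : IsMetric L ρ) (hn : IsNef w0 (curvature L ρ))
    (hq : q s (curvature L ρ) (curvature L ρ) = 0) (hnex : ¬ IsExact (curvature L ρ))
    (hW : IsMetric P.W ρW) (hne : ∀ k, ∃ x, Nz L (σ k) x) :
    ∃ t : ℝ, (∀ k, -(mm k : ℝ) ≤ t) ∧ t ≤ 0 ∧
      SameClass (curvature P.W ρW) (fun e z => (t : ℂ) • curvature L ρ e z) := by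
  obtain ⟨u0, κ0, hu0, hk0⟩ := exists_rf h h.kahler
  have S := SData.of h hk0
  have rW := isReal11_curvature' hW
  have rθ := isReal11_curvature' hρ
  have hz := mp_zero h P hΛ hρ hn hq hW hne
  have hpos := q_nef_pos hd h hk0 h.kahler rθ hn hnex
  have hcop := H98.cop (pairing S) (isMetric_tens (i := P.i) (h := P.sub) (m := mm 0) hW hρ)
    (isMetric_tens (i := P.i) (h := P.sub) (m := mm 1) hW hρ) (isSection_t P 0) (isSection_t P 1)
    (coprime_t P (hne 0))
  have hself : 0 ≤ q s (curvature P.W ρW) (curvature P.W ρW) := by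
    set T0 := curvature (tens P.W L P.i P.sub (mm 0)) (fun a z => ρW a z + mm 0 * ρ (P.i a) z)
      with hT0
    set T1 := curvature (tens P.W L P.i P.sub (mm 1)) (fun a z => ρW a z + mm 1 * ρ (P.i a) z)
      with hT1
    have h1 : 0 ≤ q s T0 T1 := hcop
    have e1 : q s T0 T1 = q s (curvature P.W ρW) T1 + mm 0 * q s (curvature L ρ) T1 :=
      q_tens S P hρ hW 0 (H949.isClosedForm_curvature (isMetric_tens hW hρ))
    have e2 : q s T1 (curvature P.W ρW) = q s (curvature P.W ρW) (curvature P.W ρW) +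
        mm 1 * q s (curvature L ρ) (curvature P.W ρW) := q_tens S P hρ hW 1 rW.toIsClosedForm
    have e3 : q s T1 (curvature L ρ) = q s (curvature P.W ρW) (curvature L ρ) +
        mm 1 * q s (curvature L ρ) (curvature L ρ) := q_tens S P hρ hW 1 rθ.toIsClosedForm
    rw [hz, hq] at e3
    rw [q_symm S (curvature L ρ), hz] at e2
    rw [q_symm S (curvature P.W ρW) T1, q_symm S (curvature L ρ) T1, e2, e3] at e1
    rw [e1] at h1
    linarith
  obtain ⟨u, hu, hc⟩ := hodge_index hd h hk0 rW rθ hq hpos hz hself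
  have hs := mp_hk P hΛ hρ hW hne S
  refine ⟨_, fun k => ?_, ?_, u, hu, hc⟩
  · rw [le_div_iff₀ hpos]
    linarith [hs.1 k]
  · exact div_nonpos_of_nonpos_of_nonneg hs.2 hpos.le

/-- `∫ (w + s θ)^d` is not constant -/
theorem intX_ne (hd : 0 < d) (h : IsSymplectic d X w0 s) (hρ : IsMetric L ρ)
    (hn : IsNef w0 (curvature L ρ)) (hnex : ¬ IsExact (curvature L ρ)) :
    intX (fun e z => (w0 e z + ((1 : ℝ) : ℂ) • curvature L ρ e z).det.re) ≠
      intX (fun e z => (w0 e z).det.re) := by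
  haveI : Nonempty X := inferInstance
  have hw0 := h.kahler
  obtain ⟨u0, κ0, hu0, hk0⟩ := exists_rf h hw0
  have S := SData.of h hk0
  have V := vol_pos S
  have hdR : (0 : ℝ) < d := by exact_mod_cast hd
  have rθ := isReal11_curvature' hρ
  have c0 := INT.IsKahler.isClosedForm hw0
  have cθ := rθ.toIsClosedForm
  have cθ1 : IsClosedForm fun e z => ((1 : ℝ) : ℂ) • curvature L ρ e z := cθ.smul _
  have hq : 0 < q s (curvature L ρ) w0 := by
    have h1 := q_nef_pos hd h hk0 hw0 rθ hn hnex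
    have h2 : q s (curvature L ρ) (addH w0 u0) = q s (curvature L ρ) w0 := by
      show q s (curvature L ρ) (fun e z => w0 e z + ddc u0 e z) = _
      rw [q_add_right S cθ c0 (isClosed_ddc hu0), q_hess_right S cθ hu0, add_zero]
    rwa [h2] at h1
  have hq0 := q_nef_self h hk0 hw0 rθ hn
  have hww : 0 ≤ q s w0 w0 := q_nonneg S (fun e x hx => (hw0.posDef e x hx).posSemidef)
    (fun e x hx => (hw0.posDef e x hx).posSemidef)
  obtain ⟨u, hu, hp⟩ := hn (1 / 2) (by norm_num)
  have c1 : IsClosedForm fun e z => w0 e z + ((1 : ℝ) : ℂ) • curvature L ρ e z := c0.add cθ1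
  have r1 : IsReal11 fun e z => (w0 e z + ((1 : ℝ) : ℂ) • curvature L ρ e z) + ddc u e z :=
    ((isReal11_kahler hw0).add (rθ.smul 1)).add (isReal11_ddc hu)
  have hk : IsKahler fun e z => (w0 e z + ((1 : ℝ) : ℂ) • curvature L ρ e z) + ddc u e z := by
    refine isKahler_of r1 fun e x hx => ?_
    have h2 : (((1 / 2 : ℝ) : ℂ) • w0 e (e x)).PosDef :=
      (hw0.posDef e x hx).smul (by exact_mod_cast (by norm_num : (0 : ℝ) < 1 / 2))
    have h3 := Matrix.PosDef.add_posSemidef h2 (hp e x hx)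
    have e1 : ((1 / 2 : ℝ) : ℂ) • w0 e (e x) +
        (curvature L ρ e (e x) + ((1 / 2 : ℝ) : ℂ) • w0 e (e x) + ddc u e (e x)) =
        (w0 e (e x) + ((1 : ℝ) : ℂ) • curvature L ρ e (e x)) + ddc u e (e x) := by
      have : w0 e (e x) = ((1 / 2 : ℝ) : ℂ) • w0 e (e x) + ((1 / 2 : ℝ) : ℂ) • w0 e (e x) := by
        rw [← add_smul]
        have : ((1 / 2 : ℝ) : ℂ) + ((1 / 2 : ℝ) : ℂ) = 1 := by push_cast; ring
        rw [this, one_smul]
      conv_rhs => rw [this]
      rw [Complex.ofReal_one, one_smul]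
      abel
    rwa [e1] at h3
  have h1 := fujiki h hk
  have h2 := fujiki h hw0
  have h3 : intX (fun e z => ((w0 e z + ((1 : ℝ) : ℂ) • curvature L ρ e z) + ddc u e z).det.re) =
      intX (fun e z => (w0 e z + ((1 : ℝ) : ℂ) • curvature L ρ e z).det.re) :=
    INT.intX_det_add_cHess c1 hu
  have hqq : q s (fun e z => (w0 e z + ((1 : ℝ) : ℂ) • curvature L ρ e z) + ddc u e z)
      (fun e z => (w0 e z + ((1 : ℝ) : ℂ) • curvature L ρ e z) + ddc u e z) =
      q s w0 w0 + 2 * q s (curvature L ρ) w0 + q s (curvature L ρ) (curvature L ρ) := by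
    rw [q_addH S c1 hu, q_add_left S c0 cθ1 c1, q_add_right S c0 c0 cθ1,
      q_add_right S cθ1 c0 cθ1, q_smul_left, q_smul_left, q_smul_right S,
      q_smul_right S, q_symm S w0 (curvature L ρ)]
    ring
  rw [← h3, h1, h2, hqq]
  refine ne_of_gt (mul_lt_mul_of_pos_right ?_ V)
  refine Real.sqrt_lt_sqrt (by positivity) ?_
  refine pow_lt_pow_left₀ ?_ (by positivity) hd.ne'
  refine div_lt_div_of_pos_right ?_ (by positivity)
  linarith

/-- a holomorphic function on a compact connected manifold is constant -/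
theorem hol_const {f : X → ℂ} (hf : ∀ x, H949.Hol d f x) (x y : X) : f x = f y := by
  have hc : Continuous f := by
    rw [continuous_iff_continuousAt]
    intro x
    have he := AMP.at_chartAt (n := d) x
    have h1 : ContinuousAt (fun y => (fun z => f ((chartAt (Cm d) x).symm z)) (chartAt (Cm d) x y)) x :=
      ContinuousAt.comp (g := fun z => f ((chartAt (Cm d) x).symm z))
        (hf x _ he).continuousAt ((chartAt (Cm d) x).continuousAt he.2)
    refine h1.congr ?_
    filter_upwards [(chartAt (Cm d) x).open_source.mem_nhds he.2] with y hy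
    rw [(chartAt (Cm d) x).left_inv hy]
  obtain ⟨x0, -, hx0⟩ := isCompact_univ.exists_isMaxOn (f := fun x => ‖f x‖) ⟨x, mem_univ x⟩
    hc.norm.continuousOn
  have hmax : ∀ y, ‖f y‖ ≤ ‖f x0‖ := fun y => hx0 (mem_univ y)
  have hopen : IsOpen {y | f y = f x0} := by
    rw [isOpen_iff_mem_nhds]
    intro y hy
    have he := AMP.at_chartAt (n := d) y
    set e := chartAt (Cm d) y with hedef
    have h1 : ∀ᶠ z in 𝓝 (e y), DifferentiableAt ℂ (fun z => f (e.symm z)) z := by
      filter_upwards [(hf y e he).eventually_analyticAt] with z hz using hz.differentiableAt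
    have h2 : IsLocalMax (norm ∘ fun z => f (e.symm z)) (e y) := by
      refine Eventually.of_forall fun z => ?_
      show ‖f (e.symm z)‖ ≤ ‖f (e.symm (e y))‖
      rw [e.left_inv he.2, show f y = f x0 from hy]
      exact hmax _
    have h3 := Complex.eventually_eq_of_isLocalMax_norm h1 h2
    have h4 := (e.continuousAt he.2).eventually h3
    filter_upwards [h4, e.open_source.mem_nhds he.2] with z hz hz2
    rw [e.left_inv hz2, e.left_inv he.2] at hz
    show f z = f x0
    rw [hz]; exact hy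
  have hclosed : IsClosed {y | f y = f x0} := isClosed_eq hc continuous_const
  have huniv := IsClopen.eq_univ ⟨hclosed, hopen⟩ ⟨x0, rfl⟩
  have h1 : f x = f x0 := by
    have : x ∈ {y | f y = f x0} := by rw [huniv]; trivial
    exact this
  have h2 : f y = f x0 := by
    have : y ∈ {y | f y = f x0} := by rw [huniv]; trivial
    exact this
  rw [h1, h2]

/-- `f` is a holomorphic section of `L^k` -/
structure IsSecPow (L : LineBundle d X ι) (k : ℕ) (f : ι → X → ℂ) : Prop where
  holo : ∀ i (e : Chart d X) x, At e x → x ∈ L.U i → AnalyticAt ℂ (fun z => f i (e.symm z)) (e x)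
  change : ∀ i j x, x ∈ L.U i → x ∈ L.U j → f i x = L.g i j x ^ k * f j x

/-- `L^k` has two linearly independent holomorphic sections. -/
def HasTwoSec (L : LineBundle d X ι) (k : ℕ) : Prop :=
  ∃ f g : ι → X → ℂ, IsSecPow L k f ∧ IsSecPow L k g ∧
    ∀ α β : ℂ, (∀ i x, x ∈ L.U i → α * f i x + β * g i x = 0) → α = 0 ∧ β = 0

lemma g_self (L : LineBundle d X ι) {i : ι} {x : X} (hi : x ∈ L.U i) : L.g i i x = 1 := by
  have h1 := L.cocycle i i i x hi hi hi
  have h2 := L.ne_zero i i x hi hi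
  exact mul_right_cancel₀ h2 (by rw [h1, one_mul])

/-- transport of sections of `P^q` to `L^a` -/
theorem isSecPow_of_iso {κ : Type} {Q : LineBundle d X κ} {q a : ℕ} {h : κ → ι → X → ℂ}
    (h1 : ∀ k i x, x ∈ Q.U k → x ∈ L.U i → H949.Hol d (h k i) x ∧ h k i x ≠ 0)
    (h2 : ∀ k l i j x, x ∈ Q.U k → x ∈ Q.U l → x ∈ L.U i → x ∈ L.U j →
      h k i x = Q.g k l x ^ q * (L.g i j x ^ (a : ℤ))⁻¹ * h l j x) {F : κ → X → ℂ}
    (hF : ∀ k (e : Chart d X) x, At e x → x ∈ Q.U k → AnalyticAt ℂ (fun z => F k (e.symm z)) (e x))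
    (hc : ∀ k l x, x ∈ Q.U k → x ∈ Q.U l → F k x = Q.g k l x ^ q * F l x) :
    ∃ f : ι → X → ℂ, IsSecPow L a f ∧
      ∀ k i x, x ∈ Q.U k → x ∈ L.U i → f i x = F k x / h k i x := by
  classical
  choose c hc' using Q.cover
  have key : ∀ k l i x, x ∈ Q.U k → x ∈ Q.U l → x ∈ L.U i → F k x / h k i x = F l x / h l i x := by
    intro k l i x hk hl hi
    have e1 := hc k l x hk hl
    have e2 := h2 k l i i x hk hl hi hi
    rw [g_self L hi, one_zpow, inv_one, mul_one] at e2
    have e3 := (h1 l i x hl hi).2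
    have e4 := Q.ne_zero k l x hk hl
    rw [e1, e2]
    field_simp
  refine ⟨fun i x => F (c x) x / h (c x) i x, ⟨fun i e x hx hi => ?_, fun i j x hi hj => ?_⟩,
    fun k i x hk hi => key _ _ _ _ (hc' x) hk hi⟩
  · have e1 : AnalyticAt ℂ (fun z => F (c x) (e.symm z) / h (c x) i (e.symm z)) (e x) := by
      refine (hF (c x) e x hx (hc' x)).div ((h1 (c x) i x (hc' x) hi).1 e hx) ?_
      rw [e.left_inv hx.2]
      exact (h1 (c x) i x (hc' x) hi).2
    refine e1.congr ?_
    have h3 : ∀ᶠ y in 𝓝 x, y ∈ Q.U (c x) ∩ L.U i :=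
      ((Q.isOpen _).inter (L.isOpen i)).mem_nhds ⟨hc' x, hi⟩
    filter_upwards [H949.nhds_symm hx h3] with z hz
    exact key _ _ _ _ hz.1 (hc' _) hz.2
  · have e1 := h2 (c x) (c x) i j x (hc' x) (hc' x) hi hj
    rw [g_self Q (hc' x), one_pow, one_mul] at e1
    have e2 := (h1 (c x) j x (hc' x) hj).2
    have e3 := L.ne_zero i j x hi hj
    show F (c x) x / h (c x) i x = L.g i j x ^ a * (F (c x) x / h (c x) j x)
    rw [e1, zpow_natCast]
    field_simp

variable [SimplyConnectedSpace X]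

/-- **Theorem SPECIAL, first part.** Let `θ = c₁(L)` be nef, isotropic and nonzero. Two proportional
nonzero sections of `V ⊗ L^{m₀}` and `V ⊗ L^{m₁}`, `m₁ < m₀`, give a nonzero section of a positive
power of `L`. -/
theorem special_pos (hd : 0 < d) (h : IsSymplectic d X w0 s) (hΛ : IsNeg Λ) (hρ : IsMetric L ρ)
    (hn : IsNef w0 (curvature L ρ)) (hq : q s (curvature L ρ) (curvature L ρ) = 0)
    (hnex : ¬ IsExact (curvature L ρ)) (hσ : ∀ k, IsSec L Λ (mm k) (σ k))
    (hprop : ∀ k l, Prop2 L (σ k) (σ l)) (hne : ∀ k, ∃ x, Nz L (σ k) x) (hmm : mm 1 < mm 0) :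
    ∃ k, 0 < k ∧ HasSec L k := by
  obtain ⟨P⟩ := H508.exists_movingPart L hΛ.cont mm σ hσ hprop ⟨0, hne 0⟩
  obtain ⟨ρW, hW⟩ := exists_metric P.W
  obtain ⟨t, ht, ht0, u, hu, hc⟩ := mp_class hd h P hΛ hρ hn hq hnex hW hne
  have hT := isMetric_tens (i := P.i) (h := P.sub) (m := mm 0) hW hρ
  have hsc : SameClass (curvature (tens P.W L P.i P.sub (mm 0))
      (fun a z => ρW a z + mm 0 * ρ (P.i a) z)) (fun e z => ((t + mm 0 : ℝ) : ℂ) • curvature L ρ e z) := by
    refine ⟨u, hu, fun e x hx => ?_⟩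
    rw [curvature_tens hW hρ hx, hc e x hx]
    push_cast
    rw [add_smul]
    abel
  obtain ⟨n, a, hn0, hna, hiso, hiso1, hiso2⟩ := ratio_of_intX hρ hT hsc
    (INT.IsKahler.isClosedForm h.kahler) (fun e x hx => (h.kahler.posDef e x hx).isHermitian)
    (intX_ne hd h hρ hn hnex)
  have hapos : 0 < a := by
    have h1 : (0 : ℝ) < t + mm 0 := by
      have := ht 1
      have h2 : (mm 1 : ℝ) < mm 0 := by exact_mod_cast hmm
      linarith
    have h3 : (0 : ℝ) < a := by
      rw [hna]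
      exact mul_pos (by exact_mod_cast hn0) h1
    exact_mod_cast h3
  obtain ⟨b, rfl⟩ := Int.eq_ofNat_of_zero_le hapos.le
  have hb : 0 < b := by exact_mod_cast hapos
  obtain ⟨f, hf, hfe⟩ := isSecPow_of_iso (q := n) hiso1 hiso2 (F := fun x y => P.t x y 0 ^ n)
    (fun x e y hy hx => (t_holo P 0 x hy hx).pow n) (fun x x' y hx hx' => by
      show P.t x y 0 ^ n = (P.W.g x x' y * L.g (P.i x) (P.i x') y ^ mm 0) ^ n * P.t x' y 0 ^ n
      rw [P.ch x x' y hx hx' 0, mul_pow])
  refine ⟨b, hb, f, hf.holo, hf.change, ?_⟩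
  obtain ⟨x, hx⟩ := nz_tsec P (hne 0)
  obtain ⟨i, hi⟩ := L.cover x
  refine ⟨i, x, hi, ?_⟩
  rw [hfe x i x (P.mem x) hi]
  have he := AMP.at_chartAt (n := d) x
  have h1 := hx x _ he (P.mem x)
  have h2 : P.t x x 0 ≠ 0 := by
    intro h0
    apply h1
    funext a
    show P.t x ((chartAt (Cm d) x).symm (chartAt (Cm d) x x)) 0 = 0
    rw [(chartAt (Cm d) x).left_inv he.2, h0]
  exact div_ne_zero (pow_ne_zero _ h2) (hiso1 x i x (P.mem x) hi).2

/-- **Theorem SPECIAL, second part.** Two proportional but linearly independent sections of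
`V ⊗ L^m` give two linearly independent sections of a positive power of `L`. -/
theorem special_two (hd : 0 < d) (h : IsSymplectic d X w0 s) (hΛ : IsNeg Λ) (hρ : IsMetric L ρ)
    (hn : IsNef w0 (curvature L ρ)) (hq : q s (curvature L ρ) (curvature L ρ) = 0)
    (hnex : ¬ IsExact (curvature L ρ)) (hσ : ∀ k, IsSec L Λ (mm k) (σ k))
    (hprop : ∀ k l, Prop2 L (σ k) (σ l)) (hne : ∀ k, ∃ x, Nz L (σ k) x) (hmm : mm 1 = mm 0)
    (hind : ∀ α β : ℂ, (∀ i e x, At e x → x ∈ L.U i →
      α • σ 0 i e (e x) + β • σ 1 i e (e x) = 0) → α = 0 ∧ β = 0) :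
    ∃ k, 0 < k ∧ HasTwoSec L k := by
  obtain ⟨P⟩ := H508.exists_movingPart L hΛ.cont mm σ hσ hprop ⟨0, hne 0⟩
  obtain ⟨ρW, hW⟩ := exists_metric P.W
  obtain ⟨t, ht, ht0, u, hu, hc⟩ := mp_class hd h P hΛ hρ hn hq hnex hW hne
  have hT := isMetric_tens (i := P.i) (h := P.sub) (m := mm 0) hW hρ
  have hsc : SameClass (curvature (tens P.W L P.i P.sub (mm 0))
      (fun a z => ρW a z + mm 0 * ρ (P.i a) z)) (fun e z => ((t + mm 0 : ℝ) : ℂ) • curvature L ρ e z) := by
    refine ⟨u, hu, fun e x hx => ?_⟩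
    rw [curvature_tens hW hρ hx, hc e x hx]
    push_cast
    rw [add_smul]
    abel
  obtain ⟨n, a, hn0, hna, hiso, hiso1, hiso2⟩ := ratio_of_intX hρ hT hsc
    (INT.IsKahler.isClosedForm h.kahler) (fun e x hx => (h.kahler.posDef e x hx).isHermitian)
    (intX_ne hd h hρ hn hnex)
  have ha0 : 0 ≤ a := by
    have h1 : (0 : ℝ) ≤ t + mm 0 := by linarith [ht 0]
    have h3 : (0 : ℝ) ≤ a := by
      rw [hna]
      exact mul_nonneg (by exact_mod_cast hn0.le) h1
    exact_mod_cast h3
  obtain ⟨b, rfl⟩ := Int.eq_ofNat_of_zero_le ha0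
  -- relations for the components
  have hch : ∀ x x' y, y ∈ P.W.U x → y ∈ P.W.U x' → ∀ k,
      P.t x y k = (P.W.g x x' y * L.g (P.i x) (P.i x') y ^ mm 0) * P.t x' y k := by
    intro x x' y hx hx' k
    have h1 : mm k = mm 0 := by fin_cases k; exacts [rfl, hmm]
    have := P.ch x x' y hx hx' k
    rwa [h1] at this
  have htA : ∀ k x (e : Chart d X) y, At e y → y ∈ P.W.U x →
      AnalyticAt ℂ (fun z => P.t x (e.symm z) k) (e y) := fun k x e y hy hx => t_holo P k x hy hx
  -- independence of the `t k`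
  have htind : ∀ α β : ℂ, (∀ x y, y ∈ P.W.U x → α * P.t x y 0 + β * P.t x y 1 = 0) →
      α = 0 ∧ β = 0 := by
    intro α β hαβ
    refine hind α β fun i e x hx hi => ?_
    -- compare with the frame `P.i x` at the point `x`
    have e1 : ∀ k, σ k i e (e x) = L.g i (P.i x) x ^ mm 0 • σ k (P.i x) e (e x) := by
      intro k
      have h1 : mm k = mm 0 := by fin_cases k; exacts [rfl, hmm]
      have := (hσ k).chL i (P.i x) e x hx hi (P.sub x (P.mem x))
      rwa [h1] at this
    rw [e1, e1]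
    funext c
    have f0 := P.fac x e x hx (P.mem x) 0 c
    have f1 := P.fac x e x hx (P.mem x) 1 c
    simp only [Pi.add_apply, Pi.smul_apply, smul_eq_mul, Pi.zero_apply]
    rw [f0, f1]
    have := hαβ x x (P.mem x)
    linear_combination (L.g i (P.i x) x ^ mm 0 * P.τ x e (e x) c) * this
  -- `t 0` does not vanish on a dense open set
  have hdense : ∀ x y, y ∈ P.W.U x → ∃ᶠ z in 𝓝 y, z ∈ P.W.U x ∧ P.t x z 0 ≠ 0 := by
    intro x y hy
    have h1 := (isSec_tsec P 0).dense (nz_tsec P (hne 0))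
    rw [frequently_nhds_iff]
    intro U hyU hU
    obtain ⟨z, hz, hz2⟩ := h1.inter_open_nonempty (U ∩ P.W.U x) (hU.inter (P.W.isOpen x)) ⟨y, hyU, hy⟩
    have he := AMP.at_chartAt (n := d) z
    refine ⟨z, hz.1, hz.2, fun h0 => hz2 x _ he hz.2 ?_⟩
    funext a
    show P.t x ((chartAt (Cm d) z).symm (chartAt (Cm d) z z)) 0 = 0
    rw [(chartAt (Cm d) z).left_inv he.2, h0]
  -- continuity of `t k` on `X`
  have htc : ∀ k x y, y ∈ P.W.U x → ContinuousAt (fun z => P.t x z k) y := by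
    intro k x y hy
    have he := AMP.at_chartAt (n := d) y
    have h1 : ContinuousAt (fun z => (fun z' => P.t x ((chartAt (Cm d) y).symm z') k)
        (chartAt (Cm d) y z)) y :=
      ContinuousAt.comp (g := fun z' => P.t x ((chartAt (Cm d) y).symm z') k)
        (htA k x _ y he hy).continuousAt ((chartAt (Cm d) y).continuousAt he.2)
    refine h1.congr ?_
    filter_upwards [(chartAt (Cm d) y).open_source.mem_nhds he.2] with z hz
    rw [(chartAt (Cm d) y).left_inv hz]
  have hlin : ∀ α β : ℂ, (∀ x y, y ∈ P.W.U x → P.t x y 0 ≠ 0 →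
      α * P.t x y 0 + β * P.t x y 1 = 0) → α = 0 ∧ β = 0 := by
    intro α β hαβ
    refine htind α β fun x y hy => ?_
    have hcy : ContinuousAt (fun z => α * P.t x z 0 + β * P.t x z 1) y :=
      (continuousAt_const.mul (htc 0 x y hy)).add (continuousAt_const.mul (htc 1 x y hy))
    have h1 := H724.eq_zero_of_freq (h := fun z => α * P.t x z 0 + β * P.t x z 1) hcy
      ((hdense x y hy).mono fun z hz => hαβ x z hz.1 hz.2)
    exact h1
  by_cases hb : b = 0
  · -- `P^n` is trivial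
    exfalso
    subst hb
    have hF : ∀ k, ∃ f : ι → X → ℂ, IsSecPow L 0 f ∧
        ∀ x i y, y ∈ P.W.U x → y ∈ L.U i →
          f i y = P.t x y k ^ n / hiso x i y := fun k =>
      isSecPow_of_iso (q := n) hiso1 hiso2 (F := fun x y => P.t x y k ^ n)
      (fun x e y hy hx => (htA k x e y hy hx).pow n) (fun x x' y hx hx' => by
        show P.t x y k ^ n = (P.W.g x x' y * L.g (P.i x) (P.i x') y ^ mm 0) ^ n * P.t x' y k ^ n
        rw [hch x x' y hx hx' k, mul_pow])
    -- `t 0` vanishes nowhere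
    obtain ⟨f, hf, hfe⟩ := hF 0
    choose c hc' using L.cover
    have hglob : ∀ i y, y ∈ L.U i → f i y = f (c y) y := by
      intro i y hi
      have := hf.change i (c y) y hi (hc' y)
      rwa [pow_zero, one_mul] at this
    have hfconst : ∀ y y' : X, f (c y) y = f (c y') y' := by
      refine hol_const (d := d) (f := fun y => f (c y) y) fun y e he => ?_
      refine (hf.holo (c y) e y he (hc' y)).congr ?_
      filter_upwards [H949.nhds_symm he ((L.isOpen (c y)).mem_nhds (hc' y))] with z hz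
      exact hglob _ _ hz
    obtain ⟨x0, hx0⟩ := nz_tsec P (hne 0)
    have he0 := AMP.at_chartAt (n := d) x0
    have ht00 : P.t x0 x0 0 ≠ 0 := by
      intro h0
      refine hx0 x0 _ he0 (P.mem x0) ?_
      funext a
      show P.t x0 ((chartAt (Cm d) x0).symm (chartAt (Cm d) x0 x0)) 0 = 0
      rw [(chartAt (Cm d) x0).left_inv he0.2, h0]
    have hf0 : f (c x0) x0 ≠ 0 := by
      rw [hfe x0 (c x0) x0 (P.mem x0) (hc' x0)]
      exact div_ne_zero (pow_ne_zero _ ht00) (hiso1 x0 (c x0) x0 (P.mem x0) (hc' x0)).2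
    have htnz : ∀ x y, y ∈ P.W.U x → P.t x y 0 ≠ 0 := by
      intro x y hy h0
      apply hf0
      rw [hfconst x0 y, hfe x (c y) y hy (hc' y), h0, zero_pow hn0.ne', zero_div]
    -- the quotient is constant
    set r : X → ℂ := fun y => P.t y y 1 / P.t y y 0 with hr
    have hrx : ∀ x y, y ∈ P.W.U x → r y = P.t x y 1 / P.t x y 0 := by
      intro x y hy
      have e1 := hch y x y (P.mem y) hy
      have e2 := htnz x y hy
      have e3 : P.W.g y x y * L.g (P.i y) (P.i x) y ^ mm 0 ≠ 0 :=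
        (tens P.W L P.i P.sub (mm 0)).ne_zero y x y (P.mem y) hy
      rw [hr]
      simp only
      rw [e1 1, e1 0, mul_div_mul_left _ _ e3]
    have hrh : ∀ y, H949.Hol d r y := by
      intro y e he
      have h1 : AnalyticAt ℂ (fun z => P.t y (e.symm z) 1 / P.t y (e.symm z) 0) (e y) := by
        refine (htA 1 y e y he (P.mem y)).div (htA 0 y e y he (P.mem y)) ?_
        rw [e.left_inv he.2]
        exact htnz y y (P.mem y)
      refine h1.congr ?_
      filter_upwards [H949.nhds_symm he ((P.W.isOpen y).mem_nhds (P.mem y))] with z hz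
      exact (hrx y _ hz).symm
    have hrc := hol_const (d := d) hrh
    have := hlin (r x0) (-1) fun x y hy hty => by
      rw [hrc x0 y, hrx x y hy]
      field_simp
      ring
    have h2 := this.2
    norm_num at h2
  · have hbp : 0 < b := Nat.pos_of_ne_zero hb
    obtain ⟨N, rfl⟩ : ∃ N, n = N + 1 := ⟨n - 1, by omega⟩
    have hF : ∀ k, ∃ f : ι → X → ℂ, IsSecPow L b f ∧
        ∀ x i y, y ∈ P.W.U x → y ∈ L.U i →
          f i y = (P.t x y 0 ^ N * P.t x y k) / hiso x i y := fun k =>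
      isSecPow_of_iso (q := N + 1) hiso1 hiso2 (F := fun x y => P.t x y 0 ^ N * P.t x y k)
      (fun x e y hy hx => ((htA 0 x e y hy hx).pow N).mul (htA k x e y hy hx))
      (fun x x' y hx hx' => by
        show P.t x y 0 ^ N * P.t x y k =
          (P.W.g x x' y * L.g (P.i x) (P.i x') y ^ mm 0) ^ (N + 1) * (P.t x' y 0 ^ N * P.t x' y k)
        rw [hch x x' y hx hx' k, hch x x' y hx hx' 0, mul_pow]
        ring)
    obtain ⟨f, hf, hfe⟩ := hF 0
    obtain ⟨g, hg, hge⟩ := hF 1
    refine ⟨b, hbp, f, g, hf, hg, fun α β hαβ => hlin α β fun x y hy hty => ?_⟩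
    obtain ⟨i, hi⟩ := L.cover y
    have h1 := hαβ i y hi
    rw [hfe x i y hy hi, hge x i y hy hi] at h1
    have h2 := (hiso1 x i y hy hi).2
    have h3 : P.t x y 0 ^ N ≠ 0 := pow_ne_zero _ hty
    have h4 : P.t x y 0 ^ N * (α * P.t x y 0 + β * P.t x y 1) = 0 := by
      field_simp at h1
      linear_combination h1
    exact (mul_eq_zero.1 h4).resolve_left h3

end Vale.Agent.P301.H450
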