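import Vale.Agent.P301.H862.KosTot

/-!
# P301, index theorem for twisted powers: multiplication by sections of `Hom(L, L')`
-/

open scoped Manifold ContDiff ComplexOrder Topology Matrix ComplexConjugate
open Vale.Agent.P272.K Vale.Agent.P272.K.C2 Vale.Agent.P299.H954 Vale.Agent.P299.IX
open Vale.Agent.P301.H599 MeasureTheory Set Filter Vale.Agent.P299.H863
open Vale.Agent.P299.IX.Fock Vale.Agent.P301.H862
open Vale.Agent.P272.K.INT (intX_congr)

set_option linter.unusedSectionVars false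

noncomputable section

namespace Vale.Agent.P301.H450

variable {d : ℕ} {X : Type} [TopologicalSpace X] {ι : Type} [ChartedSpace (Cm d) X]

/-- multiplication by `c` maps sections of `L` to sections of `L'` -/
structure MulG (L L' : LineBundle d X ι) (c : ι → X → ℂ) : Prop where
  dom : ∀ i, L'.U i ⊆ L.U i
  smooth : ∀ i (e : Chart d X) x, At e x → x ∈ L'.U i →
    ContDiffAt ℝ ∞ (fun z => c i (e.symm z)) (e x)
  change : ∀ i j x, x ∈ L'.U i → x ∈ L'.U j → c i x * L.g i j x = L'.g i j x * c j x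

variable {L L' : LineBundle d X ι} {c c' : ι → X → ℂ} {B B' : HB d X ι}
  {g h : Fam d X ι} {i j : ι} {e e' : Chart d X} {x : X} {z : Cm d}

theorem isSec_mulG (hc : MulG L L' c) (hg : IsSec L g) : IsSec L' (mulF c g) where
  smooth i e x hx hi := VC.smul (hc.smooth i e x hx hi) (hg.smooth i e x hx (hc.dom i hi))
  change i j e e' x hx h' hi hj := by
    show c i (e.symm (e x)) • g i e (e x) =
      (L'.g i j x • lam (jacM e e' x)ᵀ) *ᵥ (c j (e'.symm (e' x)) • g j e' (e' x))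
    rw [hx.left_inv, h'.left_inv, hg.change i j e e' x hx h' (hc.dom i hi) (hc.dom j hj),
      Matrix.smul_mulVec, Matrix.smul_mulVec, Matrix.mulVec_smul, smul_smul, smul_smul,
      hc.change i j x hi hj]

/-- multiplication -/
def opG (c : ι → X → ℂ) (hc : MulG B.L B'.L c) : Opr B B' where
  F := mulF c
  dom := hc.dom
  sec hg := isSec_mulG hc hg
  add _ _ _ _ _ _ _ := smul_add _ _ _
  smul q g _ i e x _ _ := smul_comm (c i (e.symm (e x))) q (g i e (e x))

/-- multiplication -/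
def mulG (c : ι → X → ℂ) (hc : MulG B.L B'.L c) : B.S →ₗ[ℂ] B'.S := (opG c hc).op

theorem mulG_at (hc : MulG B.L B'.L c) (s : B.S) (hx : At e x) (hi : x ∈ B'.L.U i) :
    (mulG c hc s).f i e (e x) = c i x • s.f i e (e x) := by
  refine ((opG c hc).op_at s hx hi).trans ?_
  show c i (e.symm (e x)) • s.f i e (e x) = _
  rw [hx.left_inv]

theorem mulG_near (hc : MulG B.L B'.L c) (s : B.S) (hx : At e x) (hi : x ∈ B'.L.U i) :
    (mulG c hc s).f i e =ᶠ[𝓝 (e x)] fun z => c i (e.symm z) • s.f i e z :=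
  (opG c hc).op_near s hx hi

variable [IsManifold 𝓘(ℂ, Cm d) ω X]

theorem mulG_dgc (hc : MulG B.L B'.L c) (q : ℕ → ℂ) (s : B.S) :
    mulG c hc (B.dgc q s) = B'.dgc q (mulG c hc s) := by
  apply HB.S.ext_f
  intro i e x hx hi
  rw [mulG_at hc _ hx hi, HB.dgc_at q s hx (hc.dom i hi), HB.dgc_at q _ hx hi,
    mulG_at hc _ hx hi, Matrix.mulVec_smul]

variable [T2Space X] [CompactSpace X]

theorem intC_congr2 {D D' : ι → Chart d X → Cm d → ℂ} (hD : IsDens L D) (hD' : IsDens L' D')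
    (hU : ∀ i, L.U i ⊆ L'.U i) (h : ∀ i e x, At e x → x ∈ L.U i → D i e (e x) = D' i e (e x)) :
    H862.intC L D = H862.intC L' D' := by
  have h1 : INT.intX (reD L D) = INT.intX (reD L' D') := intX_congr fun e x hx => by
    rw [reD_eq hD hx (mem_ix L x), reD_eq hD' hx (hU _ (mem_ix L x)), h _ e x hx (mem_ix L x)]
  have h2 : INT.intX (imD L D) = INT.intX (imD L' D') := intX_congr fun e x hx => by
    rw [imD_eq hD hx (mem_ix L x), imD_eq hD' hx (hU _ (mem_ix L x)), h _ e x hx (mem_ix L x)]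
  rw [H862.intC, H862.intC, h1, h2]

theorem mulG_par (hc : MulG B.L B'.L c) (s : B.S) :
    mulG c hc (B.par s) = B'.par (mulG c hc s) := mulG_dgc hc _ s

theorem mulG_bounded (hc : MulG B.L B'.L c) :
    ∃ C : ℝ, 0 ≤ C ∧ ∀ s, ‖mulG c hc s‖ ≤ C * ‖s‖ := by
  obtain ⟨C, hC0, hC⟩ := HB.bounded_of_local B B' hc.dom
    (fun i e z => c i (e.symm z) • (1 : Matrix (FI d) (FI d) ℂ)) (fun i e x hx hi p q => by
      simp only [Matrix.smul_apply, smul_eq_mul]
      exact (hc.smooth i e x hx hi).mul contDiffAt_const)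
  refine ⟨C, hC0, fun s => hC s _ fun i e x hx hi => ?_⟩
  rw [mulG_at hc s hx hi, hx.left_inv, Matrix.smul_mulVec, Matrix.one_mulVec]

/-- the commutator with `D' + δ` is bounded -/
theorem commG_bounded (hc : MulG B.L B'.L c) (hww : B'.w = B.w) :
    ∃ C : ℝ, 0 ≤ C ∧ ∀ s, ‖B'.D (mulG c hc s) - mulG c hc (B.D s)‖ ≤ C * ‖s‖ := by
  obtain ⟨C, hC0, hC⟩ := HB.bounded_of_local B B' hc.dom
    (fun i e => cmM (B.w e) (wt B.ρ i e) (wt B'.ρ i e) (fun z => c i (e.symm z)))
    (fun i e x hx hi =>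
      MC_cmM (kat B.kahler hx) (B.metric.smooth i e x hx (hc.dom i hi))
        (B'.metric.smooth i e x hx hi) (hc.smooth i e x hx hi))
  refine ⟨C, hC0, fun s => hC s _ fun i e x hx hi => ?_⟩
  have hi' := hc.dom i hi
  have hc1 : ContDiffAt ℝ 1 (fun z => c i (e.symm z)) (e x) :=
    (hc.smooth i e x hx hi).of_le TrAt.one_le_inf
  have h1 := comm_DD (w := B.w e) (f := wt B.ρ i e) (f' := wt B'.ρ i e) hc1
    (vc1 s.isSec hx hi')
  have h2 := HB.D_at (B := B') (mulG c hc s) hx hi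
  have h3 := HB.D_at (B := B) s hx hi'
  have h4 := mulG_near hc s hx hi
  rw [Dw_congr h4, De_congr h4, hww] at h2
  rw [HB.S.sub_f]
  show (B'.D (mulG c hc s)).f i e (e x) - (mulG c hc (B.D s)).f i e (e x) = _
  rw [h2, mulG_at hc _ hx hi, h3]
  rw [hx.left_inv] at h1
  exact h1

/-- adjoint of the multiplication -/
theorem inner_mulG (hc : MulG B.L B'.L c) (hc' : MulG B'.L B.L c') (hww : B'.w = B.w)
    (h : ∀ i x, x ∈ B'.L.U i → conj (c i x) * Real.exp (-(B'.ρ i x)) =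
      c' i x * Real.exp (-(B.ρ i x))) (s : B.S) (t : B'.S) :
    inner ℂ (mulG c hc s) t = inner ℂ s (mulG c' hc' t) := by
  show B'.ipB t.f (mulG c hc s).f = B.ipB (mulG c' hc' t).f s.f
  refine intC_congr2 (B'.dens t.isSec (mulG c hc s).isSec)
    (B.dens (mulG c' hc' t).isSec s.isSec) hc.dom fun i e x hx hi => ?_
  have hi' := hc.dom i hi
  show hw (wt B'.ρ i e) (B'.w e) (e x) (t.f i e (e x)) ((mulG c hc s).f i e (e x)) =
    hw (wt B.ρ i e) (B.w e) (e x) ((mulG c' hc' t).f i e (e x)) (s.f i e (e x))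
  rw [mulG_at hc _ hx hi, mulG_at hc' _ hx hi', hw_smul_left, hw_smul_right, hww]
  unfold H862.hw
  have e1 : wt B'.ρ i e (e x) = B'.ρ i x := by
    show B'.ρ i (e.symm (e x)) = _
    rw [hx.left_inv]
  have e2 : wt B.ρ i e (e x) = B.ρ i x := by
    show B.ρ i (e.symm (e x)) = _
    rw [hx.left_inv]
  rw [e1, e2, ← mul_assoc, ← mul_assoc, h i x hi]

end Vale.Agent.P301.H450
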