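import Mathlib

/-!
# P301: integer valued functions with vanishing iterated differences; constancy
-/

open Finset

namespace Vale.Agent.P301.H450

/-- the alternating sum over the subsets is an iterated difference -/
theorem sum_sets_eq (N : ℕ) (P : ℕ → ℤ) (b : ℕ) :
    ∑ S : Finset (Fin N), (-1 : ℤ) ^ S.card * P (b + S.card) =
      (-1) ^ N * (fwdDiff 1)^[N] P b := by
  have h1 := Finset.sum_powerset_apply_card (fun k => (-1 : ℤ) ^ k * P (b + k))
    (x := (univ : Finset (Fin N)))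
  rw [Finset.powerset_univ, Finset.card_univ, Fintype.card_fin] at h1
  rw [h1, fwdDiff_iter_eq_sum_shift, Finset.mul_sum]
  refine Finset.sum_congr rfl fun k hk => ?_
  have hk' : k ≤ N := Nat.lt_succ_iff.1 (Finset.mem_range.1 hk)
  obtain ⟨l, rfl⟩ := Nat.exists_eq_add_of_le hk'
  rw [Nat.add_sub_cancel_left, nsmul_eq_mul, smul_eq_mul, smul_eq_mul, mul_one, pow_add]
  have h2 : (-1 : ℤ) ^ l * (-1) ^ l = 1 := by rw [← mul_pow]; simp
  calc ((k + l).choose k : ℤ) * ((-1) ^ k * P (b + k))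
      = (-1) ^ k * ((-1 : ℤ) ^ l * (-1) ^ l) * ((k + l).choose k) * P (b + k) := by rw [h2]; ring
    _ = _ := by ring

/-- a periodic function with a vanishing iterated difference is constant -/
theorem const_of_fwdDiff (N : ℕ) : ∀ (P : ℕ → ℤ) {a : ℕ}, 0 < a → (∀ m, P (m + a) = P m) →
    (∀ m, (fwdDiff 1)^[N] P m = 0) → ∀ m, P m = P 0 := by
  induction N with
  | zero =>
    intro P a _ _ h m
    have h1 : ∀ m, P m = 0 := h
    rw [h1, h1]
  | succ N ih =>
    intro P a ha hp h m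
    have h1 : ∀ m, (fwdDiff 1)^[N] (fwdDiff 1 P) m = 0 := fun m => by
      have := h m
      rw [Function.iterate_succ_apply] at this
      exact this
    have h2 : ∀ m, fwdDiff 1 P (m + a) = fwdDiff 1 P m := fun m => by
      show P (m + a + 1) - P (m + a) = P (m + 1) - P m
      rw [show m + a + 1 = m + 1 + a by ring, hp, hp]
    have h3 := ih (fwdDiff 1 P) ha h2 h1
    have h4 : ∀ m, P (m + 1) = P m + fwdDiff 1 P 0 := fun m => by
      have h5 : P (m + 1) - P m = fwdDiff 1 P 0 := h3 m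
      linarith
    have h5 : ∀ m, P m = P 0 + m * fwdDiff 1 P 0 := by
      intro m
      induction m with
      | zero => simp
      | succ m ihm => rw [h4, ihm]; push_cast; ring
    have h6 := hp 0
    rw [zero_add, h5 a] at h6
    have h7 : (a : ℤ) * fwdDiff 1 P 0 = 0 := by linarith
    have h8 : fwdDiff 1 P 0 = 0 := by
      rcases mul_eq_zero.1 h7 with h | h
      · exact absurd (by exact_mod_cast h) ha.ne'
      · exact h
    rw [h5, h8]
    ring

/-- a periodic function which satisfies the Koszul relations is constant -/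
theorem const_of_rel {N : ℕ} (P : ℕ → ℤ) {a : ℕ} (ha : 0 < a) (hp : ∀ m, P (m + a) = P m)
    (h : ∀ b, ∑ S : Finset (Fin N), (-1 : ℤ) ^ S.card * P (b + S.card) = 0) (m : ℕ) :
    P m = P 0 := by
  refine const_of_fwdDiff N P ha hp (fun m => ?_) m
  have h1 := h m
  rw [sum_sets_eq] at h1
  rcases mul_eq_zero.1 h1 with h2 | h2
  · exact absurd h2 (pow_ne_zero N (by norm_num))
  · exact h2

/-- the value at `0` is determined by the values at `1, …, N` -/
theorem eq_zero_of_rel {N : ℕ} (P Q : ℕ → ℤ)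
    (hP : ∑ S : Finset (Fin N), (-1 : ℤ) ^ S.card * P (0 + S.card) = 0)
    (hQ : ∑ S : Finset (Fin N), (-1 : ℤ) ^ S.card * Q (0 + S.card) = 0)
    (h : ∀ i, 1 ≤ i → P i = Q i) : P 0 = Q 0 := by
  classical
  have h1 : ∑ S : Finset (Fin N), (-1 : ℤ) ^ S.card * (P (0 + S.card) - Q (0 + S.card)) = 0 := by
    simp only [mul_sub, Finset.sum_sub_distrib, hP, hQ, sub_zero]
  rw [Finset.sum_eq_single (∅ : Finset (Fin N))] at h1
  · simp at h1
    linarith
  · intro S _ hS
    have h2 : 1 ≤ S.card := Finset.card_pos.2 (Finset.nonempty_iff_ne_empty.2 hS)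
    rw [zero_add, h _ h2, sub_self, mul_zero]
  · intro h2
    exact absurd (Finset.mem_univ _) h2

/-- **Constancy of the index**: `χ i m` stands for the index of `V^i ⊗ L^m`. -/
theorem const_of_rel2 {N : ℕ} (χ : ℕ → ℕ → ℤ) (a : ℕ → ℕ)
    (ha : ∀ i, 1 ≤ i → 0 < a i) (hp : ∀ i, 1 ≤ i → ∀ m, χ i (m + a i) = χ i m)
    (hR : ∀ i b, ∑ S : Finset (Fin N), (-1 : ℤ) ^ S.card * χ i (b + S.card) = 0)
    (hL : ∀ m b, ∑ S : Finset (Fin N), (-1 : ℤ) ^ S.card * χ (b + S.card) m = 0) (m : ℕ) :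
    χ 0 m = χ 0 0 := by
  refine eq_zero_of_rel (fun i => χ i m) (fun i => χ i 0) (hL m 0) (hL 0 0) fun i hi => ?_
  exact const_of_rel (χ i) (ha i hi) (hp i hi) (hR i) m

end Vale.Agent.P301.H450
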