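import Vale.Agent.P301.H450.TwIso
import Vale.Agent.P301.H450.TwPoly
import Vale.Agent.P301.H862.KZero

/-!
# P301, index theorem for twisted powers: the index of `V^0 ⊗ L^m` is constant if the index of
`V^i ⊗ L^m` is periodic in `m` for every `i ≥ 1`
-/

open scoped Manifold ContDiff ComplexOrder Topology Matrix ComplexConjugate
open Vale.Agent.P272.K Vale.Agent.P272.K.C2 Vale.Agent.P299.H954 Vale.Agent.P299.IX
open Vale.Agent.P301.H599 MeasureTheory Set Filter Vale.Agent.P299.H863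
open Vale.Agent.P299.IX.Fock Vale.Agent.P301.H862 Vale.Agent.P301.H103

set_option linter.unusedSectionVars false

noncomputable section

namespace Vale.Agent.P301.H450

variable {d : ℕ} {X : Type} [TopologicalSpace X] {ι κ : Type} [ChartedSpace (Cm d) X]
  [IsManifold 𝓘(ℂ, Cm d) ω X] [T2Space X] [CompactSpace X]

/-- **Constancy of the index.** -/
theorem ind2_const (V : HB d X κ) (B : HB d X ι) (a : ℕ → ℕ) (ha : ∀ i, 1 ≤ i → 0 < a i)
    (hp : ∀ i, 1 ≤ i → ∀ m, ind2 V B i (m + a i) = ind2 V B i m) (m : ℕ) :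
    ind2 V B 0 m = ind2 V B 0 0 :=
  const_of_rel2 (ind2 V B) a ha hp (ind2_rel_right V B) (ind2_rel_left V B) m

/-- the index of the trivial bundle -/
theorem ind2_zero (V : HB d X κ) (B : HB d X ι) : ind2 V B 0 0 = HB.chi0 d X := by
  rw [← HB.P_zero (T2 V B 0 0) fun s => ?_]
  · refine index_iso (c := fun _ _ => 1) (fun _ => rfl) rfl
      ⟨fun _ => subset_rfl, fun _ _ _ _ _ => contDiffAt_const, fun p q x _ _ => ?_⟩
      fun _ _ _ => one_ne_zero
    show (1 : ℂ) * (V.L.g p.1 q.1 x ^ 0 * B.L.g p.2 q.2 x ^ 0) =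
      (V.L.g p.1 q.1 x ^ 0 * B.L.g p.2 q.2 x ^ 0) ^ 0 * 1
    simp
  · obtain ⟨K⟩ := exists_KS_dim (T2 V B 0 0).L 1
    have h := (HB.index_rel K 0).1 ∅ s
    exact h

/-- **Constancy of the index.** -/
theorem ind2_eq (V : HB d X κ) (B : HB d X ι) (a : ℕ → ℕ) (ha : ∀ i, 1 ≤ i → 0 < a i)
    (hp : ∀ i, 1 ≤ i → ∀ m, ind2 V B i (m + a i) = ind2 V B i m) (m : ℕ) :
    ind2 V B 0 m = HB.chi0 d X := (ind2_const V B a ha hp m).trans (ind2_zero V B)

end Vale.Agent.P301.H450
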