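import Vale.Agent.P301.H450.TwRef
import Vale.Agent.P301.H450.TwConst

/-!
# P301: the index of `L^m` is the index of the trivial bundle, from periodicity
-/

open scoped Manifold ContDiff ComplexOrder Topology Matrix ComplexConjugate
open Vale.Agent.P272.K Vale.Agent.P272.K.C2 Vale.Agent.P301.H599 Vale.Agent.P301.H862

set_option linter.unusedSectionVars false

noncomputable section

namespace Vale.Agent.P301.H450

variable {d : ℕ} {X : Type} [TopologicalSpace X] {ι κ : Type} [ChartedSpace (Cm d) X]
  [IsManifold 𝓘(ℂ, Cm d) ω X] [T2Space X] [CompactSpace X]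

/-- if the index of `V^i ⊗ L^m` is periodic in `m` for every `i ≥ 1` then the index of `L^m`
does not depend on `m` -/
theorem index_pow_eq (V : HB d X κ) (B : HB d X ι) (a : ℕ → ℕ) (ha : ∀ i, 1 ≤ i → 0 < a i)
    (hp : ∀ i, 1 ≤ i → ∀ m, ind2 V B i (m + a i) = ind2 V B i m) (m : ℕ) :
    (B.pow m).ell.P = HB.chi0 d X := by
  rw [← ind2_zero_left V B m, ind2_eq V B a ha hp m]

end Vale.Agent.P301.H450
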