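import Vale.Agent.P301.H450.TwProd

/-!
# P301, index theorem: the index only depends on the isomorphism class (same cover, any metrics)
-/

open scoped Manifold ContDiff ComplexOrder Topology Matrix ComplexConjugate
open Vale.Agent.P272.K Vale.Agent.P272.K.C2 Vale.Agent.P299.H954 Vale.Agent.P299.IX
open Vale.Agent.P301.H599 MeasureTheory Set Filter Vale.Agent.P299.H863
open Vale.Agent.P299.IX.Fock Vale.Agent.P301.H862 Vale.Agent.P301.H103

set_option linter.unusedSectionVars false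

noncomputable section

namespace Vale.Agent.P301.H450

variable {d : ℕ} {X : Type} [TopologicalSpace X] {ι : Type} [ChartedSpace (Cm d) X]

/-- `M ⊗ (L' ⊗ L⁻¹)^m` on the common cover of `L, L', M` -/
def quoL (L L' M : LineBundle d X ι) (hU : ∀ i, L'.U i = L.U i) (hM : ∀ i, M.U i = L.U i)
    (m : ℕ) : LineBundle d X ι where
  U := L.U
  isOpen := L.isOpen
  cover := L.cover
  g i j x := M.g i j x * (L'.g i j x * (L.g i j x)⁻¹) ^ m
  holo i j e x h hi hj := by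
    refine (M.holo i j e x h (by rw [hM]; exact hi) (by rw [hM]; exact hj)).mul
      (((L'.holo i j e x h (by rw [hU]; exact hi) (by rw [hU]; exact hj)).mul
        ((L.holo i j e x h hi hj).inv ?_)).pow m)
    rw [h.left_inv]
    exact L.ne_zero i j x hi hj
  ne_zero i j x hi hj := mul_ne_zero (M.ne_zero i j x (by rw [hM]; exact hi) (by rw [hM]; exact hj))
    (pow_ne_zero m (mul_ne_zero (L'.ne_zero i j x (by rw [hU]; exact hi) (by rw [hU]; exact hj))
      (inv_ne_zero (L.ne_zero i j x hi hj))))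
  cocycle i j l x hi hj hl := by
    rw [← M.cocycle i j l x (by rw [hM]; exact hi) (by rw [hM]; exact hj) (by rw [hM]; exact hl),
      ← L'.cocycle i j l x (by rw [hU]; exact hi) (by rw [hU]; exact hj) (by rw [hU]; exact hl),
      ← L.cocycle i j l x hi hj hl, mul_inv, mul_pow, mul_pow, mul_pow, mul_pow, mul_pow]
    ring

theorem quoL_metric {L L' M : LineBundle d X ι} {hU : ∀ i, L'.U i = L.U i}
    {hM : ∀ i, M.U i = L.U i} {ρ ρ' ρM : ι → X → ℝ} (h : IsMetric L ρ) (h' : IsMetric L' ρ')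
    (h'' : IsMetric M ρM) (m : ℕ) :
    IsMetric (quoL L L' M hU hM m) (fun i x => ρM i x + m * (ρ' i x - ρ i x)) where
  smooth i e x hx hi := (h''.smooth i e x hx (by rw [hM]; exact hi)).add
    (contDiffAt_const.mul ((h'.smooth i e x hx (by rw [hU]; exact hi)).sub
      (h.smooth i e x hx hi)))
  change i j x hi hj := by
    change x ∈ L.U i at hi
    change x ∈ L.U j at hj
    have hi' : x ∈ L'.U i := by rw [hU]; exact hi
    have hj' : x ∈ L'.U j := by rw [hU]; exact hj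
    have hiM : x ∈ M.U i := by rw [hM]; exact hi
    have hjM : x ∈ M.U j := by rw [hM]; exact hj
    have n0 : ‖L.g i j x‖ ^ 2 ≠ 0 := pow_ne_zero 2 (norm_ne_zero_iff.2 (L.ne_zero _ _ x hi hj))
    have n1 : ‖L'.g i j x‖ ^ 2 ≠ 0 := pow_ne_zero 2 (norm_ne_zero_iff.2 (L'.ne_zero _ _ x hi' hj'))
    have n2 : ‖M.g i j x‖ ^ 2 ≠ 0 := pow_ne_zero 2 (norm_ne_zero_iff.2 (M.ne_zero _ _ x hiM hjM))
    show ρM i x + m * (ρ' i x - ρ i x) = ρM j x + m * (ρ' j x - ρ j x) +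
      Real.log (‖M.g i j x * (L'.g i j x * (L.g i j x)⁻¹) ^ m‖ ^ 2)
    have e1 : ‖M.g i j x * (L'.g i j x * (L.g i j x)⁻¹) ^ m‖ ^ 2 =
        ‖M.g i j x‖ ^ 2 * (‖L'.g i j x‖ ^ 2 * (‖L.g i j x‖ ^ 2)⁻¹) ^ m := by
      rw [norm_mul, norm_pow, norm_mul, norm_inv, mul_pow, ← pow_mul, mul_comm m 2, pow_mul,
        mul_pow, inv_pow]
    rw [e1, Real.log_mul n2 (pow_ne_zero m (mul_ne_zero n1 (inv_ne_zero n0))),
      Real.log_pow (n := m) (x := ‖L'.g i j x‖ ^ 2 * (‖L.g i j x‖ ^ 2)⁻¹),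
      Real.log_mul n1 (inv_ne_zero n0), Real.log_inv, h''.change i j x hiM hjM,
      h'.change i j x hi' hj', h.change i j x hi hj]
    ring

/-- `M ⊗ (B' ⊗ B⁻¹)^m` -/
def quoB (B B' M : HB d X ι) (hU : ∀ i, B'.L.U i = B.L.U i) (hM : ∀ i, M.L.U i = B.L.U i)
    (m : ℕ) : HB d X ι :=
  ⟨quoL B.L B'.L M.L hU hM m, fun i x => M.ρ i x + m * (B'.ρ i x - B.ρ i x), B.w,
    quoL_metric B.metric B'.metric M.metric m, B.kahler⟩

/-- the trivial line bundle on the cover of `L` -/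
def oneB (B : HB d X ι) : HB d X ι := B.pow 0

/-- the tower which joins `B` to `B'` -/
def joinT (B B' : HB d X ι) (hU : ∀ i, B'.L.U i = B.L.U i) : ℕ → HB d X ι
  | 0 => B
  | 1 => B'
  | m + 2 => quoB B B' B' hU hU (m + 1)

variable {B B' : HB d X ι} {c : ι → X → ℂ}

theorem joinT_tower (hU : ∀ i, B'.L.U i = B.L.U i) (hw : B'.w = B.w) :
    Tower (joinT B B' hU) (quoB B B' (oneB B) hU (fun _ => rfl) 1) 1 where
  U m i := by
    match m with
    | 0 => rfl
    | 1 => exact hU i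
    | m + 2 => rfl
  w m := by
    match m with
    | 0 => rfl
    | 1 => exact hw
    | m + 2 => rfl
  g m i j x hi hj := by
    have h0 : B.L.g i j x ≠ 0 := B.L.ne_zero i j x hi hj
    match m with
    | 0 =>
      show B'.L.g i j x = B.L.g i j x *
        (B.L.g i j x ^ 0 * (B'.L.g i j x * (B.L.g i j x)⁻¹) ^ 1) ^ 1
      field_simp
    | 1 =>
      show B'.L.g i j x * (B'.L.g i j x * (B.L.g i j x)⁻¹) ^ (0 + 1) = B'.L.g i j x *
        (B.L.g i j x ^ 0 * (B'.L.g i j x * (B.L.g i j x)⁻¹) ^ 1) ^ 1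
      ring
    | m + 2 =>
      show B'.L.g i j x * (B'.L.g i j x * (B.L.g i j x)⁻¹) ^ (m + 1 + 1) = B'.L.g i j x *
        (B'.L.g i j x * (B.L.g i j x)⁻¹) ^ (m + 1) *
        (B.L.g i j x ^ 0 * (B'.L.g i j x * (B.L.g i j x)⁻¹) ^ 1) ^ 1
      ring
  ρ m i x hi := by
    match m with
    | 0 =>
      show B'.ρ i x = B.ρ i x + ((1 : ℕ) : ℝ) * (((0 : ℕ) : ℝ) * B.ρ i x +
        ((1 : ℕ) : ℝ) * (B'.ρ i x - B.ρ i x))
      push_cast; ring
    | 1 =>
      show B'.ρ i x + ((0 + 1 : ℕ) : ℝ) * (B'.ρ i x - B.ρ i x) = B'.ρ i x +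
        ((1 : ℕ) : ℝ) * (((0 : ℕ) : ℝ) * B.ρ i x + ((1 : ℕ) : ℝ) * (B'.ρ i x - B.ρ i x))
      push_cast; ring
    | m + 2 =>
      show B'.ρ i x + ((m + 1 + 1 : ℕ) : ℝ) * (B'.ρ i x - B.ρ i x) =
        B'.ρ i x + ((m + 1 : ℕ) : ℝ) * (B'.ρ i x - B.ρ i x) +
        ((1 : ℕ) : ℝ) * (((0 : ℕ) : ℝ) * B.ρ i x + ((1 : ℕ) : ℝ) * (B'.ρ i x - B.ρ i x))
      push_cast; ring

/-- the nowhere zero section -/
def joinK (hU : ∀ i, B'.L.U i = B.L.U i) (hc : MulG B.L B'.L c)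
    (h0 : ∀ i x, x ∈ B.L.U i → c i x ≠ 0) :
    KS (quoB B B' (oneB B) hU (fun _ => rfl) 1).L 1 1 where
  s _ i x := c i x
  smooth _ i e x hx hi := hc.smooth i e x hx (by rw [hU]; exact hi)
  change _ i j x hi hj := by
    show c i x = (B.L.g i j x ^ 0 * (B'.L.g i j x * (B.L.g i j x)⁻¹) ^ 1) ^ 1 * c j x
    have h1 : B.L.g i j x ≠ 0 := B.L.ne_zero i j x hi hj
    have h2 := hc.change i j x (by rw [hU]; exact hi) (by rw [hU]; exact hj)
    rw [pow_zero, one_mul, pow_one, pow_one, mul_right_comm, ← h2, mul_assoc, mul_inv_cancel₀ h1,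
      mul_one]
  nz i x hi := ⟨0, h0 i x hi⟩

variable [IsManifold 𝓘(ℂ, Cm d) ω X] [T2Space X] [CompactSpace X]

/-- **The index only depends on the isomorphism class** (same cover, same Kähler form). -/
theorem index_iso (hU : ∀ i, B'.L.U i = B.L.U i) (hw : B'.w = B.w) (hc : MulG B.L B'.L c)
    (h0 : ∀ i x, x ∈ B.L.U i → c i x ≠ 0) : B.ell.P = B'.ell.P := by
  have h := ((joinT_tower hU hw).index_rel (joinK hU hc h0) 0).2
  have h1 : (Finset.univ : Finset (Finset (Fin 1))) = {∅, {0}} := by decide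
  rw [h1, Finset.sum_pair (by decide)] at h
  have h2 : (-1 : ℤ) ^ (∅ : Finset (Fin 1)).card * B.ell.P +
      (-1 : ℤ) ^ ({0} : Finset (Fin 1)).card * B'.ell.P = 0 := h
  rw [Finset.card_empty, Finset.card_singleton, pow_zero, pow_one] at h2
  linarith

/-- **The index does not depend on the metric of the line bundle.** -/
theorem index_metric (hL : B'.L = B.L) (hw : B'.w = B.w) : B.ell.P = B'.ell.P := by
  obtain ⟨L, ρ, w, h1, h2⟩ := B
  obtain ⟨L', ρ', w', h1', h2'⟩ := B'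
  obtain rfl : L' = L := hL
  obtain rfl : w' = w := hw
  exact index_iso (c := fun _ _ => 1) (fun _ => rfl) rfl
    ⟨fun _ => subset_rfl, fun _ _ _ _ _ => contDiffAt_const, fun _ _ _ _ _ => by
      rw [one_mul, mul_one]⟩ fun _ _ _ => one_ne_zero

end Vale.Agent.P301.H450
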