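import Vale.Agent.P301.H450.TwA
import Vale.Agent.P301.H450.EffGen

/-!
# P301, index theorem for twisted powers: the Koszul relation

`T m` is a sequence of line bundles `E ⊗ L^(m k0)` with metrics, on one cover.
-/

open scoped Manifold ContDiff ComplexOrder Topology Matrix ComplexConjugate
open Vale.Agent.P272.K Vale.Agent.P272.K.C2 Vale.Agent.P299.H954 Vale.Agent.P299.IX
open Vale.Agent.P301.H599 MeasureTheory Set Filter Vale.Agent.P299.H863
open Vale.Agent.P299.IX.Fock Vale.Agent.P301.H862 Vale.Agent.P301.H103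

set_option linter.unusedSectionVars false

noncomputable section

namespace Vale.Agent.P301.H450

variable {d : ℕ} {X : Type} [TopologicalSpace X] {ι : Type} [ChartedSpace (Cm d) X]

/-- `T (m + 1) = T m ⊗ L ^ k0`, with metrics, on the cover of `L` -/
structure Tower (T : ℕ → HB d X ι) (B : HB d X ι) (k0 : ℕ) : Prop where
  U : ∀ m i, (T m).L.U i = B.L.U i
  g : ∀ m i j x, x ∈ B.L.U i → x ∈ B.L.U j →
    (T (m + 1)).L.g i j x = (T m).L.g i j x * B.L.g i j x ^ k0
  ρ : ∀ m i x, x ∈ B.L.U i → (T (m + 1)).ρ i x = (T m).ρ i x + k0 * B.ρ i x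
  w : ∀ m, (T m).w = B.w

variable {T : ℕ → HB d X ι} {k0 N : ℕ} {B : HB d X ι}
  {g h : Fam d X ι} {i j : ι} {e e' : Chart d X} {x : X} {z : Cm d}

namespace Tower

theorem M_change (t : Tower T B k0) (K : KS B.L k0 N) (hi : x ∈ B.L.U i) (hj : x ∈ B.L.U j)
    (b : ℕ) : K.M B.ρ i x * dgl (fun p => (T (b + p)).L.g i j x) =
      dgl (fun p => (T (b + p)).L.g i j x) * K.M B.ρ j x := by
  refine frame_change (q := B.L.g i j x ^ k0) (fun p => ?_) (fun a => K.change a i j x hi hj)
    fun a => K.t_change B.metric hi hj a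
  rw [← Nat.add_assoc, t.g _ i j x hi hj, mul_comm]

theorem isMul (t : Tower T B k0) (K : KS B.L k0 N) (b : ℕ) (S S' : FI N) :
    MulG (T (b + S'.card)).L (T (b + S.card)).L (fun i x => K.M B.ρ i x S S') where
  dom i := by rw [t.U, t.U]
  smooth i e x hx hi := by
    rw [t.U] at hi
    simp only [KS.M, Matrix.add_apply, epsV, iotV, Matrix.sum_apply, Matrix.smul_apply,
      smul_eq_mul]
    refine ContDiffAt.add (ContDiffAt.sum fun a _ => ?_) (ContDiffAt.sum fun a _ => ?_)
    · exact (K.smooth a i e x hx hi).mul contDiffAt_const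
    · exact (K.smooth_t B.metric a i e x hx hi).mul contDiffAt_const
  change i j x hi hj := by
    rw [t.U] at hi hj
    have h1 := congrFun (congrFun (t.M_change K hi hj b) S) S'
    rw [dgl, Matrix.mul_diagonal, Matrix.diagonal_mul] at h1
    exact h1

theorem M_adj (t : Tower T B k0) (K : KS B.L k0 N) (i : ι) (x : X) (hi : x ∈ B.L.U i) (b : ℕ)
    (S S' : FI N) :
    conj (K.M B.ρ i x S S') * Real.exp (-((T (b + S.card)).ρ i x)) =
      K.M B.ρ i x S' S * Real.exp (-((T (b + S'.card)).ρ i x)) := by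
  have h := adj_change (N := N) (q := (Real.exp (-(k0 * B.ρ i x)) : ℂ))
    (c := fun p => (Real.exp (-((T (b + p)).ρ i x)) : ℂ)) (s := fun a => K.s a i x)
    (t := fun a => K.t B.ρ a i x) (fun p => by
      rw [← Complex.ofReal_mul, ← Real.exp_add]
      congr 2
      rw [← Nat.add_assoc, t.ρ _ i x hi]
      ring) (fun a => rfl) (fun a => by
        unfold KS.t
        rw [map_mul, Complex.conj_conj, Complex.conj_ofReal])
  have h1 := congrFun (congrFun h S') S
  rw [dgl, Matrix.mul_diagonal, Matrix.diagonal_mul, Matrix.conjTranspose_apply] at h1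
  rw [mul_comm (K.M B.ρ i x S' S)]
  exact h1

variable [IsManifold 𝓘(ℂ, Cm d) ω X] [T2Space X] [CompactSpace X]

/-- the spaces -/
abbrev HT (T : ℕ → HB d X ι) (b N : ℕ) (S : Finset (Fin N)) : Type := (T (b + S.card)).S

/-- the elliptic structures -/
def AT (T : ℕ → HB d X ι) (b N : ℕ) (S : Finset (Fin N)) : Ell (HT T b N S) :=
  (T (b + S.card)).ell

variable (t : Tower T B k0) (K : KS B.L k0 N) (b : ℕ)

include t in
/-- the blocks -/
def blk (S S' : Finset (Fin N)) : HT T b N S' →ₗ[ℂ] HT T b N S := mulG _ (t.isMul K b S S')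

/-- the Koszul operator -/
def kos : PiLp 2 (HT T b N) →ₗ[ℂ] PiLp 2 (HT T b N) where
  toFun u := WithLp.toLp 2 fun S => ∑ S', t.blk K b S S' (u S')
  map_add' u v := by
    ext S
    simp only [PiLp.add_apply, map_add, Finset.sum_add_distrib]
  map_smul' q u := by
    ext S
    simp only [PiLp.smul_apply, map_smul, Finset.smul_sum, RingHom.id_apply]

theorem kos_apply (u : PiLp 2 (HT T b N)) (S : Finset (Fin N)) :
    t.kos K b u S = ∑ S', t.blk K b S S' (u S') := rfl

theorem blk_at (S S' : Finset (Fin N)) (u : HT T b N S') (hx : At e x) (hi : x ∈ B.L.U i) :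
    (t.blk K b S S' u).f i e (e x) = K.M B.ρ i x S S' • u.f i e (e x) :=
  mulG_at _ u hx (by rw [t.U]; exact hi)

theorem kos_bounded : ∃ C : ℝ, ∀ u, ‖t.kos K b u‖ ≤ C * ‖u‖ := by
  choose C hC0 hC using fun S S' => mulG_bounded (t.isMul K b S S')
  refine ⟨∑ S, ∑ S', C S S', fun u => ?_⟩
  refine (norm_le_sum _).trans ?_
  rw [Finset.sum_mul]
  refine Finset.sum_le_sum fun S _ => ?_
  rw [kos_apply, Finset.sum_mul]
  refine (norm_sum_le _ _).trans (Finset.sum_le_sum fun S' _ => ?_)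
  refine (hC S S' (u S')).trans ?_
  have := hC0 S S'
  gcongr
  exact H103.norm_apply_le u S'

theorem kos_symm (u v : PiLp 2 (HT T b N)) :
    inner ℂ (t.kos K b u) v = inner ℂ u (t.kos K b v) := by
  rw [H103.inner_eq, H103.inner_eq]
  simp only [kos_apply, sum_inner, inner_sum]
  rw [Finset.sum_comm]
  refine Finset.sum_congr rfl fun S' _ => Finset.sum_congr rfl fun S _ => ?_
  refine inner_mulG (t.isMul K b S S') (t.isMul K b S' S) (by rw [t.w, t.w])
    (fun i x hi => t.M_adj K i x ?_ b S S') (u S') (v S)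
  rw [t.U] at hi; exact hi

theorem blk_sgn (S S' : Finset (Fin N)) (u : HT T b N S') :
    (-1 : ℂ) ^ S'.card • t.blk K b S S' u = -((-1 : ℂ) ^ S.card • t.blk K b S S' u) := by
  apply HB.S.ext_f
  intro i e x hx hi
  rw [t.U] at hi
  show (-1 : ℂ) ^ S'.card • (t.blk K b S S' u).f i e (e x) =
    -((-1 : ℂ) ^ S.card • (t.blk K b S S' u).f i e (e x))
  rw [blk_at t K b S S' u hx hi, smul_smul, smul_smul, ← neg_smul]
  congr 1
  have h := H862.kos_par (fun a => K.s a i x) (fun a => K.t B.ρ a i x) S S'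
  show (-1 : ℂ) ^ S'.card * K.M B.ρ i x S S' = -((-1) ^ S.card * K.M B.ρ i x S S')
  rw [KS.M, h, neg_neg, mul_comm]

theorem kos_par (u : PiLp 2 (HT T b N)) :
    t.kos K b (totPar (AT T b N) (HB.sgn N) u) = -totPar (AT T b N) (HB.sgn N) (t.kos K b u) := by
  ext S
  rw [PiLp.neg_apply, kos_apply, totPar_apply, kos_apply, HB.uc_sgn]
  show _ = -((-1 : ℂ) ^ S.card • (T (b + S.card)).par (∑ S', t.blk K b S S' (u S')))
  rw [map_sum, Finset.smul_sum, ← Finset.sum_neg_distrib]
  refine Finset.sum_congr rfl fun S' _ => ?_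
  rw [totPar_apply, HB.uc_sgn, map_smul]
  have h1 : t.blk K b S S' ((AT T b N S').par (u S')) =
      (T (b + S.card)).par (t.blk K b S S' (u S')) := mulG_par _ (u S')
  rw [h1]
  have h2 := congrArg (T (b + S.card)).par (blk_sgn t K b S S' (u S'))
  rw [map_smul, map_neg, map_smul] at h2
  exact h2

theorem kos_anti : ∃ C : ℝ, ∀ u, ‖totD (AT T b N) (HB.sgn N) (t.kos K b u) +
    t.kos K b (totD (AT T b N) (HB.sgn N) u)‖ ≤ C * ‖u‖ := by
  choose C hC0 hC using fun S S' => commG_bounded (t.isMul K b S S')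
    (show (T (b + S.card)).w = (T (b + S'.card)).w by rw [t.w, t.w])
  refine ⟨∑ S, ∑ S', C S S', fun u => ?_⟩
  refine (norm_le_sum _).trans ?_
  rw [Finset.sum_mul]
  refine Finset.sum_le_sum fun S _ => ?_
  have h1 : (totD (AT T b N) (HB.sgn N) (t.kos K b u) +
      t.kos K b (totD (AT T b N) (HB.sgn N) u)) S = ∑ S', (-1 : ℂ) ^ S.card •
        ((T (b + S.card)).D (t.blk K b S S' (u S')) -
          t.blk K b S S' ((T (b + S'.card)).D (u S'))) := by
    rw [PiLp.add_apply, totD_apply, kos_apply, kos_apply, HB.uc_sgn]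
    show (-1 : ℂ) ^ S.card • (T (b + S.card)).D (∑ S', t.blk K b S S' (u S')) + _ = _
    rw [map_sum, Finset.smul_sum, ← Finset.sum_add_distrib]
    refine Finset.sum_congr rfl fun S' _ => ?_
    rw [totD_apply, HB.uc_sgn, map_smul, blk_sgn, smul_sub, ← sub_eq_add_neg]
    rfl
  rw [h1, Finset.sum_mul]
  refine (norm_sum_le _ _).trans (Finset.sum_le_sum fun S' _ => ?_)
  rw [norm_smul, norm_pow, norm_neg, norm_one, one_pow, one_mul]
  refine (hC S S' (u S')).trans ?_
  have := hC0 S S'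
  gcongr
  exact H103.norm_apply_le u S'

theorem kos_kos (u : PiLp 2 (HT T b N)) (S : Finset (Fin N)) (hx : At e x)
    (hi : x ∈ B.L.U i) : (t.kos K b (t.kos K b u) S).f i e (e x) =
      (K.sg B.ρ i x : ℂ) • (u S).f i e (e x) := by
  have h1 : ∀ (v : PiLp 2 (HT T b N)) (S : Finset (Fin N)), (t.kos K b v S).f i e (e x) =
      ∑ S', K.M B.ρ i x S S' • (v S').f i e (e x) := by
    intro v S
    rw [kos_apply, HB.S.sum_f]
    simp only [Finset.sum_apply]
    exact Finset.sum_congr rfl fun S' _ => blk_at t K b S S' (v S') hx hi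
  rw [h1]
  simp only [h1, Finset.smul_sum, smul_smul]
  rw [Finset.sum_comm]
  have h2 : ∀ R, ∑ S', (K.M B.ρ i x S S' * K.M B.ρ i x S' R) • (u R).f i e (e x) =
      (K.M B.ρ i x * K.M B.ρ i x) S R • (u R).f i e (e x) := by
    intro R
    rw [← Finset.sum_smul, Matrix.mul_apply]
  rw [Finset.sum_congr rfl fun R _ => h2 R, K.M_sq, Finset.sum_eq_single S]
  · rw [Matrix.smul_apply, Matrix.one_apply_eq, smul_eq_mul, mul_one]
  · intro R _ hR
    rw [Matrix.smul_apply, Matrix.one_apply_ne hR.symm, smul_zero, zero_smul]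
  · intro h; exact absurd (Finset.mem_univ S) h

theorem kos_low : ∃ q : ℝ, 0 < q ∧ ∀ u, q * ‖u‖ ≤ ‖t.kos K b u‖ := by
  obtain ⟨m, hm, hmb⟩ := K.exists_sg_lower B.metric
  refine ⟨Real.sqrt m, Real.sqrt_pos.2 hm, fun u => ?_⟩
  refine abs_le_of_sq_le_sq' ?_ (norm_nonneg _) |>.2
  rw [mul_pow, Real.sq_sqrt hm.le]
  have h1 : ‖t.kos K b u‖ ^ 2 = (inner ℂ (t.kos K b (t.kos K b u)) u).re := by
    rw [kos_symm]
    exact (inner_self_eq_norm_sq (𝕜 := ℂ) _).symm
  rw [h1, H103.inner_eq, Complex.re_sum, H103.nsq, Finset.mul_sum]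
  refine Finset.sum_le_sum fun S _ => ?_
  have hD1 := (T (b + S.card)).dens (u S).isSec (t.kos K b (t.kos K b u) S).isSec
  have hD2 := (T (b + S.card)).dens (u S).isSec (u S).isSec
  have h2 : m * ‖u S‖ ^ 2 = (H862.intC (T (b + S.card)).L
      (fun i e z => (m : ℂ) * hX (T (b + S.card)).ρ (T (b + S.card)).w
        (u S).f (u S).f i e z)).re := by
    rw [intC_const_mul hD2, Complex.re_ofReal_mul, HB.norm_sq_eq]
    rfl
  rw [h2]
  refine intC_re_mono (hD2.const_mul _) hD1 fun i e x hx hi => ?_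
  rw [t.U] at hi
  show _ ≤ (hw _ _ _ _ ((t.kos K b (t.kos K b u) S).f i e (e x))).re
  rw [kos_kos t K b u S hx hi, hw_smul_right, Complex.conj_ofReal, Complex.re_ofReal_mul,
    Complex.re_ofReal_mul]
  have h3 : 0 ≤ (hX (T (b + S.card)).ρ (T (b + S.card)).w (u S).f (u S).f i e (e x)).re :=
    hw_nonneg (kat (T (b + S.card)).kahler hx) _
  exact mul_le_mul_of_nonneg_right (hmb i x hi) h3

/-- **The index relation** for `E ⊗ L ^ ((b + |S|) k0)`. -/
theorem index_rel (t : Tower T B k0) (K : KS B.L k0 N) (b : ℕ) :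
    (∀ (S : Finset (Fin N)) s, FiniteDimensional ℂ ((T (b + S.card)).ell.sk s)) ∧
    ∑ S : Finset (Fin N), (-1 : ℤ) ^ S.card * (T (b + S.card)).ell.P = 0 := by
  obtain ⟨q, hq, hlow⟩ := kos_low t K b
  obtain ⟨C, hC⟩ := kos_anti t K b
  obtain ⟨h1, h2⟩ := index_total (AT T b N) (HB.sgn N) (t.kos K b) (kos_bounded t K b)
    (kos_symm t K b) (kos_par t K b) hq hlow hC
  refine ⟨h1, ?_⟩
  refine (Finset.sum_congr rfl fun S _ => ?_).trans h2
  simp [HB.sgn, AT]

/-- the spectral spaces are finite dimensional -/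
theorem finite (t : Tower T B k0) (m : ℕ) (s : ℤˣ) :
    FiniteDimensional ℂ ((T m).ell.sk s) := by
  obtain ⟨K⟩ := exists_KS_dim B.L k0
  exact (t.index_rel K m).1 ∅ s

/-- **The index relation** with `d + 1` sections. -/
theorem rel_dim (t : Tower T B k0) (b : ℕ) :
    ∑ S : Finset (Fin (d + 1)), (-1 : ℤ) ^ S.card * (T (b + S.card)).ell.P = 0 := by
  obtain ⟨K⟩ := exists_KS_dim B.L k0
  exact (t.index_rel K b).2

end Tower

end Vale.Agent.P301.H450
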