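import Vale.Agent.P301.H450.TwKos

/-!
# P301, index theorem for twisted powers: `V^i ⊗ L^m` on the product cover
-/

open scoped Manifold ContDiff ComplexOrder Topology Matrix ComplexConjugate
open Vale.Agent.P272.K Vale.Agent.P272.K.C2 Vale.Agent.P299.H954 Vale.Agent.P299.IX
open Vale.Agent.P301.H599 MeasureTheory Set Filter Vale.Agent.P299.H863
open Vale.Agent.P299.IX.Fock Vale.Agent.P301.H862 Vale.Agent.P301.H103

set_option linter.unusedSectionVars false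

noncomputable section

namespace Vale.Agent.P301.H450

variable {d : ℕ} {X : Type} [TopologicalSpace X] {ι κ : Type} [ChartedSpace (Cm d) X]

/-- `V^i ⊗ L^m` on the product cover -/
def prodPow (V : LineBundle d X κ) (L : LineBundle d X ι) (i m : ℕ) :
    LineBundle d X (κ × ι) where
  U p := V.U p.1 ∩ L.U p.2
  isOpen p := (V.isOpen p.1).inter (L.isOpen p.2)
  cover x := by
    obtain ⟨a, ha⟩ := V.cover x
    obtain ⟨b, hb⟩ := L.cover x
    exact ⟨(a, b), ha, hb⟩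
  g p q x := V.g p.1 q.1 x ^ i * L.g p.2 q.2 x ^ m
  holo p q e x h hp hq :=
    ((V.holo p.1 q.1 e x h hp.1 hq.1).pow i).mul ((L.holo p.2 q.2 e x h hp.2 hq.2).pow m)
  ne_zero p q x hp hq :=
    mul_ne_zero (pow_ne_zero i (V.ne_zero _ _ x hp.1 hq.1)) (pow_ne_zero m (L.ne_zero _ _ x hp.2 hq.2))
  cocycle p q r x hp hq hr := by
    rw [← V.cocycle p.1 q.1 r.1 x hp.1 hq.1 hr.1, ← L.cocycle p.2 q.2 r.2 x hp.2 hq.2 hr.2,
      mul_pow, mul_pow]
    ring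

variable {V : LineBundle d X κ} {L : LineBundle d X ι} {ρV : κ → X → ℝ} {ρ : ι → X → ℝ}

theorem prodPow_metric (hV : IsMetric V ρV) (hL : IsMetric L ρ) (i m : ℕ) :
    IsMetric (prodPow V L i m) (fun p x => i * ρV p.1 x + m * ρ p.2 x) where
  smooth p e x hx hp := (contDiffAt_const.mul (hV.smooth p.1 e x hx hp.1)).add
    (contDiffAt_const.mul (hL.smooth p.2 e x hx hp.2))
  change p q x hp hq := by
    have n1 : ‖V.g p.1 q.1 x‖ ^ 2 ≠ 0 :=
      pow_ne_zero 2 (norm_ne_zero_iff.2 (V.ne_zero _ _ x hp.1 hq.1))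
    have n2 : ‖L.g p.2 q.2 x‖ ^ 2 ≠ 0 :=
      pow_ne_zero 2 (norm_ne_zero_iff.2 (L.ne_zero _ _ x hp.2 hq.2))
    show (i : ℝ) * ρV p.1 x + m * ρ p.2 x = i * ρV q.1 x + m * ρ q.2 x +
      Real.log (‖V.g p.1 q.1 x ^ i * L.g p.2 q.2 x ^ m‖ ^ 2)
    have e1 : ‖V.g p.1 q.1 x ^ i * L.g p.2 q.2 x ^ m‖ ^ 2 =
        (‖V.g p.1 q.1 x‖ ^ 2) ^ i * (‖L.g p.2 q.2 x‖ ^ 2) ^ m := by
      rw [norm_mul, norm_pow, norm_pow, mul_pow, ← pow_mul, ← pow_mul, ← pow_mul, ← pow_mul,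
        mul_comm i 2, mul_comm m 2]
    rw [e1, Real.log_mul (pow_ne_zero i n1) (pow_ne_zero m n2),
      Real.log_pow (n := i) (x := ‖V.g p.1 q.1 x‖ ^ 2),
      Real.log_pow (n := m) (x := ‖L.g p.2 q.2 x‖ ^ 2), hV.change p.1 q.1 x hp.1 hq.1,
      hL.change p.2 q.2 x hp.2 hq.2]
    ring

/-- `V^i ⊗ L^m` with its metric, for the Kähler metric of `B` -/
def T2 (V : HB d X κ) (B : HB d X ι) (i m : ℕ) : HB d X (κ × ι) :=
  ⟨prodPow V.L B.L i m, fun p x => i * V.ρ p.1 x + m * B.ρ p.2 x, B.w,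
    prodPow_metric V.metric B.metric i m, B.kahler⟩

/-- the tower of the powers of `L` -/
theorem tower_right (V : HB d X κ) (B : HB d X ι) (i : ℕ) :
    Tower (fun m => T2 V B i m) (T2 V B 0 1) 1 where
  U _ _ := rfl
  w _ := rfl
  g m p q x hp hq := by
    show V.L.g p.1 q.1 x ^ i * B.L.g p.2 q.2 x ^ (m + 1) =
      V.L.g p.1 q.1 x ^ i * B.L.g p.2 q.2 x ^ m *
        (V.L.g p.1 q.1 x ^ 0 * B.L.g p.2 q.2 x ^ 1) ^ 1
    ring
  ρ m p x hp := by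
    show (i : ℝ) * V.ρ p.1 x + ((m + 1 : ℕ) : ℝ) * B.ρ p.2 x =
      i * V.ρ p.1 x + m * B.ρ p.2 x +
        ((1 : ℕ) : ℝ) * (((0 : ℕ) : ℝ) * V.ρ p.1 x + ((1 : ℕ) : ℝ) * B.ρ p.2 x)
    push_cast
    ring

/-- the tower of the powers of `V` -/
theorem tower_left (V : HB d X κ) (B : HB d X ι) (m : ℕ) :
    Tower (fun i => T2 V B i m) (T2 V B 1 0) 1 where
  U _ _ := rfl
  w _ := rfl
  g i p q x hp hq := by
    show V.L.g p.1 q.1 x ^ (i + 1) * B.L.g p.2 q.2 x ^ m =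
      V.L.g p.1 q.1 x ^ i * B.L.g p.2 q.2 x ^ m *
        (V.L.g p.1 q.1 x ^ 1 * B.L.g p.2 q.2 x ^ 0) ^ 1
    ring
  ρ i p x hp := by
    show ((i + 1 : ℕ) : ℝ) * V.ρ p.1 x + (m : ℝ) * B.ρ p.2 x =
      i * V.ρ p.1 x + m * B.ρ p.2 x +
        ((1 : ℕ) : ℝ) * (((1 : ℕ) : ℝ) * V.ρ p.1 x + ((0 : ℕ) : ℝ) * B.ρ p.2 x)
    push_cast
    ring

variable [IsManifold 𝓘(ℂ, Cm d) ω X] [T2Space X] [CompactSpace X]

/-- the index of `V^i ⊗ L^m` -/
def ind2 (V : HB d X κ) (B : HB d X ι) (i m : ℕ) : ℤ := (T2 V B i m).ell.P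

theorem T2_finite (V : HB d X κ) (B : HB d X ι) (i m : ℕ) (s : ℤˣ) :
    FiniteDimensional ℂ ((T2 V B i m).ell.sk s) := (tower_right V B i).finite m s

/-- **The index relation in the powers of `L`**, with `d + 1` sections. -/
theorem ind2_rel_right (V : HB d X κ) (B : HB d X ι) (i b : ℕ) :
    ∑ S : Finset (Fin (d + 1)), (-1 : ℤ) ^ S.card * ind2 V B i (b + S.card) = 0 :=
  (tower_right V B i).rel_dim b

/-- **The index relation in the powers of `V`**, with `d + 1` sections. -/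
theorem ind2_rel_left (V : HB d X κ) (B : HB d X ι) (m b : ℕ) :
    ∑ S : Finset (Fin (d + 1)), (-1 : ℤ) ^ S.card * ind2 V B (b + S.card) m = 0 :=
  (tower_left V B m).rel_dim b

end Vale.Agent.P301.H450
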