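import Vale.Agent.P301.H103.Ext
import Vale.Agent.P301.H450.TwRef

/-!
# P301: the dimensions of the strong kernels only depend on the complex (abstract form)
-/

open Filter Topology Module UniformSpace
open scoped InnerProductSpace
open Vale.Agent.P299.H863 Vale.Agent.P301.H862 Vale.Agent.P301.H103

set_option linter.all false

noncomputable section

namespace Vale.Agent.P301.H450

section abs

variable {H : Type*} [NormedAddCommGroup H] [InnerProductSpace ℂ H]

theorem inner_dgL {A : Ell H} {d : ℕ} (G : A.Grading d) (p : ℕ) (x y : Completion H) :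
    inner ℂ ((dgL G p).completion x) y = inner ℂ x ((dgL G p).completion y) := by
  refine Completion.induction_on₂ x y ?_ fun u v => ?_
  · refine isClosed_eq ?_ ?_
    · exact ((dgL G p).completion.continuous.comp continuous_fst).inner continuous_snd
    · exact continuous_fst.inner ((dgL G p).completion.continuous.comp continuous_snd)
  · rw [ContinuousLinearMap.completion_apply_coe, ContinuousLinearMap.completion_apply_coe,
      Completion.inner_coe, Completion.inner_coe, dgL_apply, dgL_apply, G.symm]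

theorem dgL_mem_skd {A : Ell H} {d : ℕ} (G : A.Grading d) {p : ℕ}
    (hp : p ∈ Finset.range (d + 1)) {z : Completion H} {w : ℕ → H}
    (h1 : Tendsto (fun n => (w n : Completion H)) atTop (𝓝 z))
    (h2 : Tendsto (fun n => A.D (w n)) atTop (𝓝 0)) : (dgL G p).completion z ∈ skd G p := by
  refine ⟨fun n => G.dg p (w n), fun n => ⟨_, rfl⟩, ?_, ?_⟩
  · refine (((dgL G p).completion.continuous.tendsto z).comp h1).congr fun n => ?_
    exact ContinuousLinearMap.completion_apply_coe _ _
  · refine squeeze_zero_norm (fun n => ?_) (by simpa using h2.norm)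
    refine le_of_sq_le_sq ?_ (norm_nonneg _)
    rw [G.norm_D (w n)]
    exact Finset.single_le_sum (f := fun p => ‖A.D (G.dg p (w n))‖ ^ 2)
      (fun _ _ => sq_nonneg _) hp

/-- A vector of the completion, of degree `p` and orthogonal to the strong kernel of degree `p`, is
a limit of `D v`. -/
theorem exists_D_near' (A : Ell H) {d : ℕ} (G : A.Grading d) {p : ℕ}
    (hp : p ∈ Finset.range (d + 1)) {z : Completion H} (hz : (dgL G p).completion z = z)
    (hperp : ∀ y ∈ skd G p, inner ℂ z y = 0) {ε : ℝ} (hε : 0 < ε) :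
    ∃ v : H, ‖z - ((A.D v : H) : Completion H)‖ < ε := by
  set i₁ : H →ₗᵢ[ℂ] Completion H := Completion.toComplₗᵢ with hi₁
  set R : Submodule ℂ (Completion H) := (LinearMap.range A.D).map i₁.toLinearMap with hR
  set K : Submodule ℂ (Completion H) := R.topologicalClosure with hK
  have hKc : IsClosed (K : Set (Completion H)) := R.isClosed_topologicalClosure
  have : CompleteSpace K := hKc.completeSpace_coe
  have : K.HasOrthogonalProjection := inferInstance
  obtain ⟨z1, hz1, z2, hz2, hzz⟩ := K.exists_add_mem_mem_orthogonal z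
  have horth : ∀ v : H, inner ℂ ((A.D v : H) : Completion H) z2 = 0 := by
    intro v
    refine (K.mem_orthogonal z2).1 hz2 _ ?_
    exact R.le_topologicalClosure ⟨A.D v, ⟨v, rfl⟩, rfl⟩
  have hweak : ∀ u : H, inner ℂ ((A.D u : H) : Completion H) z2 =
      inner ℂ (u : Completion H) (0 : Completion H) := by
    intro u
    rw [inner_zero_right, horth]
  choose w hw1 hw2 using fun n : ℕ => weak_eq_strong (𝕜 := ℂ) (fun u v => A.symm u v)
    A.smoothing A.smoothing A.comm z2 0 hweak (ε := 1 / ((n : ℝ) + 1)) (by positivity)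
  have hlim := tendsto_one_div_add_atTop_nhds_zero_nat (𝕜 := ℝ)
  have hw1' : Tendsto (fun n => (w n : Completion H)) atTop (𝓝 z2) := by
    rw [tendsto_iff_norm_sub_tendsto_zero]
    exact squeeze_zero (fun n => norm_nonneg _) hw1 hlim
  have hw2' : Tendsto (fun n => A.D (w n)) atTop (𝓝 0) := by
    rw [tendsto_zero_iff_norm_tendsto_zero]
    refine squeeze_zero (fun n => norm_nonneg _) (fun n => ?_) hlim
    have := hw2 n
    rwa [sub_zero, Completion.norm_coe] at this
  have h1 : inner ℂ z z2 = 0 := by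
    rw [← hz, inner_dgL]
    exact hperp _ (dgL_mem_skd G hp hw1' hw2')
  have h2 : inner ℂ z1 z2 = 0 := (K.mem_orthogonal z2).1 hz2 _ hz1
  have h3 : z2 = 0 := by
    have h4 : inner ℂ z2 z2 = (0 : ℂ) := by
      have h5 : z2 = z - z1 := by rw [hzz]; abel
      calc inner ℂ z2 z2 = inner ℂ (z - z1) z2 := by rw [← h5]
        _ = 0 := by rw [inner_sub_left, h1, h2, sub_zero]
    exact inner_self_eq_zero.1 h4
  rw [h3, add_zero] at hzz
  have h4 : z ∈ closure (R : Set (Completion H)) := by rw [hzz]; exact hz1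
  obtain ⟨y, hy, hyz⟩ := Metric.mem_closure_iff.1 h4 ε hε
  obtain ⟨_, ⟨v, rfl⟩, rfl⟩ := hy
  refine ⟨v, ?_⟩
  rw [← dist_eq_norm]
  exact hyz

/-- a complex: `D = d' + δ` -/
structure Cpx (A : Ell H) {d : ℕ} (G : A.Grading d) where
  dp : H →ₗ[ℂ] H
  de : H →ₗ[ℂ] H
  eq : ∀ u, A.D u = dp u + de u
  adj : ∀ u v, inner ℂ (dp u) v = inner ℂ u (de v)
  sq : ∀ u, dp (dp u) = 0
  down : ∀ p u, de (G.dg (p + 1) u) = G.dg p (de u)

variable {A : Ell H} {d : ℕ} {G : A.Grading d}

theorem Cpx.inner_zero (C : Cpx A G) (u v : H) : inner ℂ (C.dp u) (C.de v) = 0 := by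
  rw [← C.adj, C.sq, inner_zero_left]

theorem Cpx.norm_sq (C : Cpx A G) (u : H) : ‖A.D u‖ ^ 2 = ‖C.dp u‖ ^ 2 + ‖C.de u‖ ^ 2 := by
  rw [C.eq, @norm_add_sq ℂ, C.inner_zero]
  simp

theorem Cpx.norm_dp_le (C : Cpx A G) (u : H) : ‖C.dp u‖ ≤ ‖A.D u‖ := by
  refine le_of_sq_le_sq ?_ (norm_nonneg _)
  rw [C.norm_sq]
  nlinarith [sq_nonneg ‖C.de u‖]

theorem Cpx.norm_de_le (C : Cpx A G) (u : H) : ‖C.de u‖ ≤ ‖A.D u‖ := by
  refine le_of_sq_le_sq ?_ (norm_nonneg _)
  rw [C.norm_sq]
  nlinarith [sq_nonneg ‖C.dp u‖]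

theorem Cpx.perp (C : Cpx A G) {p : ℕ} {x : Completion H} (hx : x ∈ skd G p) (v : H) :
    inner ℂ x ((C.dp v : H) : Completion H) = 0 := by
  obtain ⟨w, h1, h2, h3⟩ := hx
  have h4 : Tendsto (fun n => inner ℂ (w n : Completion H) ((C.dp v : H) : Completion H)) atTop
      (𝓝 (inner ℂ x ((C.dp v : H) : Completion H))) := h2.inner tendsto_const_nhds
  have h5 : Tendsto (fun n => C.de (w n)) atTop (𝓝 0) := by
    refine squeeze_zero_norm (fun n => C.norm_de_le (w n)) ?_
    simpa using h3.norm
  have h6 : Tendsto (fun n => inner ℂ (C.de (w n)) v) atTop (𝓝 (inner ℂ (0 : H) v)) :=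
    h5.inner tendsto_const_nhds
  rw [inner_zero_left] at h6
  refine tendsto_nhds_unique h4 (h6.congr fun n => ?_)
  rw [Completion.inner_coe, ← inner_conj_symm, ← C.adj, inner_conj_symm]

/-- a closed vector of degree `p` orthogonal to the strong kernel is a limit of exact vectors -/
theorem Cpx.near (C : Cpx A G) {p : ℕ} (hp : p ∈ Finset.range (d + 1)) {z : Completion H}
    {w : ℕ → H} (hw0 : ∀ n, G.dg p (w n) = w n)
    (hw1 : Tendsto (fun n => (w n : Completion H)) atTop (𝓝 z))
    (hw2 : Tendsto (fun n => C.dp (w n)) atTop (𝓝 0))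
    (hperp : ∀ y ∈ skd G p, inner ℂ z y = 0) {ε : ℝ} (hε : 0 < ε) :
    ∃ v : H, ‖z - ((G.dg p (C.dp v) : H) : Completion H)‖ < ε := by
  have hz : (dgL G p).completion z = z := by
    refine tendsto_nhds_unique (((dgL G p).completion.continuous.tendsto z).comp hw1)
      (hw1.congr fun n => ?_)
    show ((w n : H) : Completion H) = (dgL G p).completion (w n : Completion H)
    rw [ContinuousLinearMap.completion_apply_coe, dgL_apply, hw0]
  obtain ⟨v, hv⟩ := exists_D_near' A G hp hz hperp hε
  refine ⟨v, lt_of_le_of_lt ?_ hv⟩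
  set b : Completion H := ((G.dg p (C.dp v) : H) : Completion H) with hb
  set c : Completion H := ((G.dg p (C.de v) : H) : Completion H) with hc
  have h1 : (dgL G p).completion (z - ((A.D v : H) : Completion H)) = z - b - c := by
    rw [map_sub, hz, ContinuousLinearMap.completion_apply_coe, dgL_apply, C.eq, map_add,
      Completion.coe_add]
    abel
  have h2 : ‖z - b - c‖ ≤ ‖z - ((A.D v : H) : Completion H)‖ := by
    rw [← h1]
    refine Completion.induction_on (z - ((A.D v : H) : Completion H)) ?_ fun u => ?_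
    · exact isClosed_le ((dgL G p).completion.continuous.norm) continuous_norm
    · rw [ContinuousLinearMap.completion_apply_coe, Completion.norm_coe, Completion.norm_coe]
      exact (dg_oproj G p).norm_le u
  have h3 : inner ℂ z c = 0 := by
    have h4 : Tendsto (fun n => inner ℂ (w n : Completion H) c) atTop (𝓝 (inner ℂ z c)) :=
      hw1.inner tendsto_const_nhds
    have h6 : Tendsto (fun n => inner ℂ (C.dp (w n)) (G.dg (p + 1) v)) atTop
        (𝓝 (inner ℂ (0 : H) (G.dg (p + 1) v))) := hw2.inner tendsto_const_nhds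
    rw [inner_zero_left] at h6
    refine tendsto_nhds_unique h4 (h6.congr fun n => ?_)
    rw [hc, Completion.inner_coe, C.adj, C.down]
  have h5 : inner ℂ b c = 0 := by
    rw [hb, hc, Completion.inner_coe, G.symm, G.idem, ← C.down, C.inner_zero]
  have h6 : ‖z - b - c‖ ^ 2 = ‖z - b‖ ^ 2 + ‖c‖ ^ 2 := by
    rw [@norm_sub_sq ℂ, inner_sub_left, h3, h5]
    simp
  refine le_trans ?_ h2
  refine le_of_sq_le_sq ?_ (norm_nonneg _)
  rw [h6]
  nlinarith [sq_nonneg ‖c‖]

variable {H' : Type*} [NormedAddCommGroup H'] [InnerProductSpace ℂ H'] {A' : Ell H'}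
  {G' : A'.Grading d}

/-- **Comparison of the strong kernels.** -/
theorem finrank_skd_le (C : Cpx A G) (C' : Cpx A' G') (T : H →L[ℂ] H') (S : H' →L[ℂ] H)
    (hST : ∀ u, S (T u) = u) (hT : ∀ u, C'.dp (T u) = T (C.dp u))
    (hS : ∀ u, C.dp (S u) = S (C'.dp u)) {p : ℕ} (hp : p ∈ Finset.range (d + 1))
    (hTd : ∀ u, G'.dg p (T u) = T (G.dg p u)) (hSd : ∀ u, G.dg p (S u) = S (G'.dg p u))
    [FiniteDimensional ℂ (skd G' p)] : finrank ℂ (skd G p) ≤ finrank ℂ (skd G' p) := by
  set Θ : skd G p →ₗ[ℂ] skd G' p :=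
    ((skd G' p).orthogonalProjection.toLinearMap.comp T.completion.toLinearMap).comp
      (skd G p).subtype with hΘ
  refine LinearMap.finrank_le_finrank_of_injective (f := Θ) ?_
  rw [← LinearMap.ker_eq_bot, LinearMap.ker_eq_bot']
  rintro ⟨x, hx⟩ h0
  have h1 : (skd G' p).orthogonalProjection (T.completion x) = 0 := h0
  have hperp : ∀ y ∈ skd G' p, inner ℂ (T.completion x) y = 0 := by
    intro y hy
    have h2 := (Submodule.orthogonalProjection_eq_zero_iff).1 h1
    exact ((skd G' p).mem_orthogonal' _).1 h2 y hy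
  have hx' := hx
  obtain ⟨w, hw1, hw2, hw3⟩ := hx'
  have e1 : ∀ n, G'.dg p (T (w n)) = T (w n) := fun n => by rw [hTd, dg_of_mem G (hw1 n)]
  have e2 : Tendsto (fun n => ((T (w n) : H') : Completion H')) atTop (𝓝 (T.completion x)) := by
    refine ((T.completion.continuous.tendsto x).comp hw2).congr fun n => ?_
    exact ContinuousLinearMap.completion_apply_coe _ _
  have e3 : Tendsto (fun n => C'.dp (T (w n))) atTop (𝓝 0) := by
    have e4 : Tendsto (fun n => C.dp (w n)) atTop (𝓝 0) := by
      refine squeeze_zero_norm (fun n => C.norm_dp_le (w n)) ?_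
      simpa using hw3.norm
    have e5 := (T.continuous.tendsto 0).comp e4
    rw [map_zero] at e5
    exact e5.congr fun n => (hT (w n)).symm
  have key : ∀ ε : ℝ, 0 < ε → ‖x‖ * ‖x‖ ≤ ‖x‖ * (‖S‖ * ε) := by
    intro ε hε
    obtain ⟨v, hv⟩ := C'.near hp e1 e2 e3 hperp hε
    have f1 : S.completion (T.completion x - ((G'.dg p (C'.dp v) : H') : Completion H')) =
        x - ((G.dg p (C.dp (S v)) : H) : Completion H) := by
      rw [map_sub, completion_inv T S hST, ContinuousLinearMap.completion_apply_coe, hS, hSd]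
    have f2 : inner ℂ x ((G.dg p (C.dp (S v)) : H) : Completion H) = 0 := by
      have f3 : ((G.dg p (C.dp (S v)) : H) : Completion H) =
          (dgL G p).completion ((C.dp (S v) : H) : Completion H) := by
        rw [ContinuousLinearMap.completion_apply_coe, dgL_apply]
      rw [f3, ← inner_dgL, dgL_skd_same G hx]
      exact C.perp hx (S v)
    have f4 : inner ℂ x (x - ((G.dg p (C.dp (S v)) : H) : Completion H)) = inner ℂ x x := by
      rw [inner_sub_right, f2, sub_zero]
    have f5 : ‖x - ((G.dg p (C.dp (S v)) : H) : Completion H)‖ ≤ ‖S‖ * ε := by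
      rw [← f1]
      have f6 : ∀ y : Completion H', ‖S.completion y‖ ≤ ‖S‖ * ‖y‖ := by
        intro y
        refine Completion.induction_on y ?_ fun u => ?_
        · exact isClosed_le (S.completion.continuous.norm) (continuous_const.mul continuous_norm)
        · rw [ContinuousLinearMap.completion_apply_coe, Completion.norm_coe, Completion.norm_coe]
          exact S.le_opNorm u
      exact (f6 _).trans (mul_le_mul_of_nonneg_left hv.le (norm_nonneg _))
    calc ‖x‖ * ‖x‖ = ‖(inner ℂ x x : ℂ)‖ := by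
          rw [inner_self_eq_norm_sq_to_K]
          simp [sq]
      _ = ‖(inner ℂ x (x - ((G.dg p (C.dp (S v)) : H) : Completion H)) : ℂ)‖ := by rw [f4]
      _ ≤ ‖x‖ * ‖x - ((G.dg p (C.dp (S v)) : H) : Completion H)‖ := norm_inner_le_norm _ _
      _ ≤ _ := mul_le_mul_of_nonneg_left f5 (norm_nonneg _)
  have hx0 : x = 0 := by
    by_contra hne
    have hpos : 0 < ‖x‖ := norm_pos_iff.2 hne
    have hSn : 0 ≤ ‖S‖ := norm_nonneg _
    have h3 := key (‖x‖ / (2 * (‖S‖ + 1))) (by positivity)
    have h4 : ‖x‖ ≤ ‖S‖ * (‖x‖ / (2 * (‖S‖ + 1))) := le_of_mul_le_mul_left h3 hpos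
    have h5 : ‖S‖ * (‖x‖ / (2 * (‖S‖ + 1))) ≤ ‖x‖ / 2 := by
      rw [mul_div_assoc', div_le_div_iff₀ (by positivity) (by positivity)]
      nlinarith
    linarith
  exact Subtype.ext hx0

end abs

end Vale.Agent.P301.H450
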