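import Vale.Agent.P301.H450.WAbs
import Vale.Agent.P301.H450.ConstOne
import Vale.Agent.P301.H450.PullIdx

/-!
# P301: the dimensions of the strong kernels and the index only depend on the line bundle

They do not depend on the metric of the line bundle nor on the Kähler form.
-/

open scoped Manifold ContDiff ComplexOrder Topology Matrix ComplexConjugate
open Vale.Agent.P272.K Vale.Agent.P272.K.C2 Vale.Agent.P299.H954 Vale.Agent.P299.IX
open Vale.Agent.P301.H599 MeasureTheory Set Filter Vale.Agent.P299.H863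
open Vale.Agent.P301.H862 Vale.Agent.P301.H103

set_option linter.all false

noncomputable section

namespace Vale.Agent.P301.H450

variable {d : ℕ} {X : Type} [TopologicalSpace X] {ι κ : Type} [ChartedSpace (Cm d) X]
  {L : LineBundle d X ι} {ρ ρ' : ι → X → ℝ} {B B' : HB d X ι} {e : Chart d X} {x : X} {i : ι}

/-- `e^{ρ' - ρ}` -/
def rc (ρ ρ' : ι → X → ℝ) (i : ι) (x : X) : ℂ := (Real.exp (ρ' i x - ρ i x) : ℂ)

theorem isMul_rc (h : IsMetric L ρ) (h' : IsMetric L ρ') : MulG L L (rc ρ ρ') where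
  dom _ := subset_rfl
  smooth i e x hx hi :=
    contDiffAt_ofReal ((h'.smooth i e x hx hi).sub (h.smooth i e x hx hi)).exp
  change i j x hi hj := by
    have h1 : ρ' i x - ρ i x = ρ' j x - ρ j x := by
      rw [h.change i j x hi hj, h'.change i j x hi hj]; ring
    rw [rc, rc, h1, mul_comm]

theorem rc_mul (ρ ρ' : ι → X → ℝ) (i : ι) (x : X) : rc ρ' ρ i x * rc ρ ρ' i x = 1 := by
  rw [rc, rc, ← Complex.ofReal_mul, ← Real.exp_add]
  simp

theorem Dw_rc {f f' : Cm d → ℝ} {a : Cm d → FI d → ℂ} {z : Cm d} (hf : ContDiffAt ℝ 1 f z)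
    (hf' : ContDiffAt ℝ 1 f' z) (ha : VC 1 a z) :
    Dw f' (fun y => (Real.exp (f' y - f y) : ℂ) • a y) z =
      (Real.exp (f' z - f z) : ℂ) • Dw f a z := by
  have hc : ContDiffAt ℝ 1 (fun y => (Real.exp (f' y - f y) : ℂ)) z :=
    contDiffAt_ofReal (hf'.sub hf).exp
  have hd : DifferentiableAt ℝ (fun y => f' y - f y) z :=
    (hf'.sub hf).differentiableAt (by norm_num)
  have h1 : ∀ l, dz l (fun y => (Real.exp (f' y - f y) : ℂ)) z =
      (Real.exp (f' z - f z) : ℂ) * (dz l (cw f') z - dz l (cw f) z) := by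
    intro l
    rw [C2.dz_comp_real l (u := fun y => f' y - f y) (Real.hasDerivAt_exp (f' z - f z)) hd]
    have h2 : (fun y => ((f' y - f y : ℝ) : ℂ)) = fun y => cw f' y - cw f y := by
      funext y; simp [cw]
    rw [h2, C2.dz_sub l ((cw_contDiffAt hf').differentiableAt (by norm_num))
      ((cw_contDiffAt hf).differentiableAt (by norm_num))]
  simp only [Dw, Finset.smul_sum]
  refine Finset.sum_congr rfl fun l _ => ?_
  rw [DV_smul hc ha, ← Matrix.mulVec_smul, h1]
  congr 1
  simp only [smul_sub, smul_smul, mul_sub, sub_smul]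
  rw [mul_comm (dz l (cw f') z)]
  abel

variable [IsManifold 𝓘(ℂ, Cm d) ω X]

theorem mulG_Dp (hL : B'.L = B.L) (hc : MulG B.L B'.L (rc B.ρ B'.ρ)) (s : B.S) :
    B'.Dp (mulG _ hc s) = mulG _ hc (B.Dp s) := by
  apply HB.S.ext_f
  intro i e x hx hi
  have hi' : x ∈ B.L.U i := by rw [hL] at hi; exact hi
  rw [HB.Dp_at _ hx hi, mulG_at hc _ hx hi, HB.Dp_at s hx hi', Dw_congr (mulG_near hc s hx hi)]
  have h1 := Dw_rc (f := fun z => B.ρ i (e.symm z)) (f' := fun z => B'.ρ i (e.symm z)) (z := e x)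
    ((B.metric.smooth i e x hx hi').of_le TrAt.one_le_inf)
    ((B'.metric.smooth i e x hx hi).of_le TrAt.one_le_inf) (vc1 s.isSec hx hi')
  refine h1.trans ?_
  have h2 : (Real.exp (B'.ρ i (e.symm (e x)) - B.ρ i (e.symm (e x))) : ℂ) = rc B.ρ B'.ρ i x := by
    show (Real.exp (B'.ρ i (e.symm (e x)) - B.ρ i (e.symm (e x))) : ℂ) = _
    rw [hx.left_inv]
    rfl
  rw [h2]
  rfl

theorem mulG_inv (hL : B'.L = B.L) (hc : MulG B.L B'.L (rc B.ρ B'.ρ))
    (hc' : MulG B'.L B.L (rc B'.ρ B.ρ)) (s : B.S) : mulG _ hc' (mulG _ hc s) = s := by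
  apply HB.S.ext_f
  intro i e x hx hi
  have hi' : x ∈ B'.L.U i := by rw [hL]; exact hi
  rw [mulG_at hc' _ hx hi, mulG_at hc _ hx hi', smul_smul, rc_mul, one_smul]

variable [T2Space X] [CompactSpace X]

/-- the complex -/
def cpx (B : HB d X ι) : Cpx B.ell B.grading where
  dp := B.Dp
  de := B.Dd
  eq := HB.D_eq B
  adj := HB.inner_Dp
  sq := HB.Dp_Dp
  down := HB.Dd_dg_succ

theorem finite_sk (B : HB d X ι) (s : ℤˣ) : FiniteDimensional ℂ (B.ell.sk s) :=
  (joinT_tower (B := B) (B' := B) (fun _ => rfl) rfl).finite 0 s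

theorem finite_skd (B : HB d X ι) {p : ℕ} (hp : p ∈ Finset.range (d + 1)) :
    FiniteDimensional ℂ (skd B.grading p) := by
  have h1 := finite_sk B ((-1) ^ p)
  exact Submodule.finiteDimensional_of_le (skd_le B.grading (mem_dgs.2 ⟨hp, rfl⟩))

/-- multiplication as a continuous map -/
def mulC {c : ι → X → ℂ} (hc : MulG B.L B'.L c) : B.S →L[ℂ] B'.S :=
  (mulG c hc).mkContinuous _ (mulG_bounded hc).choose_spec.2

theorem finrank_skd_indep_le (hL : B'.L = B.L) {p : ℕ} (hp : p ∈ Finset.range (d + 1)) :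
    Module.finrank ℂ (skd B.grading p) ≤ Module.finrank ℂ (skd B'.grading p) := by
  have hc : MulG B.L B'.L (rc B.ρ B'.ρ) := by
    have h := B'.metric
    rw [hL] at h ⊢
    exact isMul_rc B.metric h
  have hc' : MulG B'.L B.L (rc B'.ρ B.ρ) := by
    have h := B'.metric
    rw [hL] at h ⊢
    exact isMul_rc h B.metric
  have hfin := finite_skd B' hp
  exact finrank_skd_le (cpx B) (cpx B') (mulC hc) (mulC hc') (fun u => mulG_inv hL hc hc' u)
    (fun u => mulG_Dp hL hc u) (fun u => mulG_Dp hL.symm hc' u) hp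
    (fun u => (mulG_dgc hc _ u).symm) fun u => (mulG_dgc hc' _ u).symm

/-- **The dimensions of the strong kernels only depend on the line bundle.** -/
theorem finrank_skd_indep (hL : B'.L = B.L) {p : ℕ} (hp : p ∈ Finset.range (d + 1)) :
    Module.finrank ℂ (skd B'.grading p) = Module.finrank ℂ (skd B.grading p) :=
  le_antisymm (finrank_skd_indep_le hL.symm hp) (finrank_skd_indep_le hL hp)

theorem finrank_sk_sum (B : HB d X ι) (σ : ℤˣ) :
    Module.finrank ℂ (B.ell.sk σ) = ∑ p ∈ Finset.range (d + 1),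
      if ((-1 : ℤˣ) ^ p = σ) then Module.finrank ℂ (skd B.grading p) else 0 := by
  have := finite_sk B σ
  have h1 : ∀ p : dgs d σ, Module.Finite ℂ (skd B.grading (p : ℕ)) := fun p =>
    finite_skd B (mem_dgs.1 p.2).1
  rw [(skEquiv B.grading σ).finrank_eq, Module.finrank_pi_fintype,
    Finset.sum_coe_sort (dgs d σ) fun p => Module.finrank ℂ (skd B.grading p), dgs,
    Finset.sum_filter]

/-- **The index is the alternating sum.** -/
theorem index_sum (B : HB d X ι) : B.ell.P = ∑ p ∈ Finset.range (d + 1),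
    (-1 : ℤ) ^ p * (Module.finrank ℂ (skd B.grading p) : ℤ) := by
  rw [Ell.P, finrank_sk_sum B, finrank_sk_sum B, Nat.cast_sum, Nat.cast_sum,
    ← Finset.sum_sub_distrib]
  refine Finset.sum_congr rfl fun p _ => ?_
  rcases Nat.even_or_odd p with hp | hp
  · rw [hp.neg_one_pow, hp.neg_one_pow, if_pos rfl, if_neg (by decide)]
    simp
  · rw [hp.neg_one_pow, hp.neg_one_pow, if_neg (by decide), if_pos rfl]
    simp

/-- **The index only depends on the line bundle.** -/
theorem index_indep (hL : B'.L = B.L) : B'.ell.P = B.ell.P := by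
  rw [index_sum B, index_sum B']
  refine Finset.sum_congr rfl fun p hp => ?_
  rw [finrank_skd_indep hL hp]

theorem index_withW (B : HB d X ι) (w : Chart d X → Cm d → Matrix (Fin d) (Fin d) ℂ)
    (hw : IsKahler w) : (withW B w hw).ell.P = B.ell.P := index_indep (B' := withW B w hw) rfl

variable [ConnectedSpace X] [SimplyConnectedSpace X] {V : LineBundle d X κ} {ρV : κ → X → ℝ}

/-- **The index of `L^m` is `χ(𝒪)`** if there are an automorphism `F` and a line bundle `V` with
`F^* c₁(L) = c₁(L)`, `F^* c₁(V) = c₁(V) + a c₁(L)`, `a ≠ 0`. -/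
theorem index_const' (F : Auto d X) (B : HB d X ι) (hV : IsMetric V ρV) {a : ℤ} (ha : a ≠ 0)
    (hFL : SameClass (pull F (curvature B.L B.ρ)) (curvature B.L B.ρ))
    (hFV : SameClass (pull F (curvature V ρV))
      (fun e z => curvature V ρV e z + (a : ℂ) • curvature B.L B.ρ e z)) (m : ℕ) :
    (B.pow m).ell.P = HB.chi0 d X :=
  index_const F (fun _ B => index_pull F B) (fun _ B w hw => index_withW B w hw) B hV ha hFL hFV m

end Vale.Agent.P301.H450
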